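import Vale.Agent.P073.H926.DatD
import Vale.Agent.P073.H238.RT0

/-!
# P073, H194: **[FAR-K]** near a processed plate, the passive cells in a tube are far laterally
-/

set_option linter.unusedSectionVars false

open Set Metric Topology Filter

namespace Vale.Agent.P073.H926

open _root_.P073 _root_.P073.Net _root_.P073.PA691 _root_.P073.TM
open Vale.Agent.P073.St (V)
open Vale.Agent.P073.H471 Vale.Agent.P073.H267
open Vale.Agent.P073.H73 (Mesh)
open Vale.Agent.P073.H304 (Nb In Zmax)
open _root_.P073.H345 (PK PK_sub_ss τ_as_PK PB_sub_PK tg)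

section geo

variable {Λ : Set V} {v : V} {K : BoxCx Λ v} {S : Rad K} {W : Wid K S} {B : Boxes W} {G : Geo B}
  {x y : V} {q : K.T}

/-- a point of a tube box near a plate: the edge is in the square -/
theorem edge_sq_of_PX {s : K.S} {e : K.G} (hy : y ∈ PX G s) (hb : y ∈ G.TB false (.inl e)) :
    K.edge e ⊆ K.sq s := by
  have hZe := Geo.TB_subset_Ze e hb
  exact edge_subset_sq (PX_sub_ss s hy) hZe.1 (Ze_nJ hZe)

/-- a point of a tube box in a plate: the edge is in the square -/
theorem edge_sq_of_PK {s : K.S} {e : K.G} (hy : y ∈ PK G s) (hb : y ∈ G.TB false (.inl e)) :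
    K.edge e ⊆ K.sq s := edge_sq_of_PX (PK_sub_PX s hy) hb

/-- the third direction -/
theorem exists_third {s : K.S} {e : K.G} (h : K.edge e ⊆ K.sq s) :
    ∃ u, u ≠ K.nrm s ∧ u ≠ K.dir e ∧ ∀ k, k ≠ K.dir e → k = K.nrm s ∨ k = u := by
  have h1 := nrm_ne_dir h
  have key : ∀ a b : Fin 3, a ≠ b → ∃ u, u ≠ a ∧ u ≠ b ∧ ∀ k, k ≠ b → k = a ∨ k = u := by decide
  exact key _ _ h1

end geo

variable {c₀ n δ : ℝ} {j : ℕ} {Ω Λ : Set V} {v w : V} {ρ : V → ℝ} {M : Mesh Ω} {h : ConHomeo Ω Λ}
  {J₀ J : Set (ℕ × (Fin 3 → ℤ))} {P Z : Set M.ι} {K : BoxCx Λ w} {x y : V} {q t : K.T}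

namespace KIn3

variable (D : KIn3 c₀ n j δ v w ρ M h J₀ J P Z) (C : Cells ρ w K)
include D C

/-- full case, a passive cell in a tube: it is not above a processed plate at the edge -/
theorem rim_side (F : Full C J₀ J) {i : M.ι} (hi : i ∉ P)
    (hZ : i ∉ Zmax M w h.toFun J₀ P (2 / 2 ^ j)) {e : K.G} (he : e ∈ pG C J₀)
    (hx : x ∈ M.Q i) (hy : h.toFun x ∈ (D.G C).TB false (.inl e)) {s : K.S} (hs : s ∈ pS C J₀)
    (hes : K.edge e ⊆ K.sq s) {u : Fin 3} (hun : u ≠ K.nrm s) (hud : u ≠ K.dir e)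
    (hu : ∀ k, k ≠ K.dir e → k = K.nrm s ∨ k = u) :
    (K.w (K.a e) u = K.slo s u → h.toFun x u ≤ K.slo s u + (D.B C).τ s / 4) ∧
      (K.w (K.a e) u = K.shi s u → K.shi s u - (D.B C).τ s / 4 ≤ h.toFun x u) := by
  obtain ⟨q, hq⟩ := K.cover _ (h.mapsTo (M.sub i hx))
  obtain ⟨-, -, s', -, hes', hqs', hd⟩ := D.rim_TB C F hi hZ he hx hy hq
  obtain ⟨t, ht, hts⟩ := exists_of_pS hs
  have heq := Geo.tile_TB_inl hy hq
  have hwa := TM.wa_mem K e
  have hp : (0:ℝ) < 1 / 2 ^ j := η_pos
  have hsT : C.sT q ≤ 2 * C.sT t :=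
    sT_touch C D.hρ (heq hwa) (sq_sub_of hts (hes hwa))
  have hTt := C.sT_pos t
  have hTq := C.sT_pos q
  have hκ : 1 / 2 ^ j / 2 * C.sT q ≤ 2 * (D.G C).κ t := by
    have h1 := D.η_κ C t
    have h2 : 1 / 2 ^ j / 2 * C.sT q ≤ 1 / 2 ^ j / 2 * (2 * C.sT t) :=
      mul_le_mul_of_nonneg_left hsT (by positivity)
    linarith
  have hκτ := (D.G C).κ_τ t s hts
  have hτ := (D.B C).τ_pos s
  have hn' : K.nrm s' ≠ K.dir e := nrm_ne_dir hes'
  have e1 : K.w (K.a e) (K.nrm s') = K.slo s' (K.nrm s') := TM.nrm_eq (hes' hwa)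
  rcases hu _ hn' with hcase | hcase
  · -- the same normal direction
    have e2 : K.w (K.a e) (K.nrm s) = K.slo s (K.nrm s) := TM.nrm_eq (hes hwa)
    rw [hcase] at hd e1
    have e3 : K.slo s' (K.nrm s) = K.slo s (K.nrm s) := e1.symm.trans e2
    rw [e3] at hd
    obtain ⟨⟨hy1, hy2⟩, hy3⟩ := Geo.mem_inl.1 hy
    have hyu := abs_le.1 (hy3 u hud)
    simp only [Bool.false_eq_true, if_false] at hyu
    have hlT := (D.G C).lam_T e
    have hTe := (D.B C).T_le e
    have hwe := (D.W C).we_le e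
    have hTp := (D.B C).T_pos e
    have hwb := TM.wb_mem K e
    have hba := (D.G C).be_pos (K.a e)
    have hbb := (D.G C).be_pos (K.b e)
    have key : K.slo s u ≤ h.toFun x u → h.toFun x u ≤ K.shi s u → False := by
      intro h1 h2
      have hz : Function.update (h.toFun x) (K.nrm s) (K.slo s (K.nrm s)) ∈ K.sq s := by
        have hss := slo_shi_nrm s
        have hsa := hes hwa
        have hsb := hes hwb
        have h3 : ∀ k, k ≠ K.nrm s → K.slo s k ≤ h.toFun x k ∧ h.toFun x k ≤ K.shi s k := by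
          intro k hk
          by_cases hkd : k = K.dir e
          · subst hkd
            have h4 := hsa.1 (K.dir e)
            have h5 := hsb.2 (K.dir e)
            constructor <;> linarith
          · rcases hu k hkd with h4 | h4
            · exact absurd h4 hk
            · rw [h4]; exact ⟨h1, h2⟩
        refine ⟨fun k => ?_, fun k => ?_⟩
        · by_cases hk : k = K.nrm s
          · subst hk; rw [Function.update_self]
          · rw [Function.update_of_ne hk]; exact (h3 k hk).1
        · by_cases hk : k = K.nrm s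
          · subst hk; rw [Function.update_self]; exact hss.le
          · rw [Function.update_of_ne hk]; exact (h3 k hk).2
      refine D.far C hi hZ hx ht ((mem_Nb_one C).2 ⟨_, sq_frontier hts hz, ?_⟩)
      have h6 : (0:ℝ) ≤ 1 / 2 ^ j * C.sT t := by positivity
      rw [pi_norm_le_iff_of_nonneg h6]
      intro k
      rw [Pi.sub_apply, Real.norm_eq_abs]
      by_cases hk : k = K.nrm s
      · subst hk
        rw [Function.update_self]
        refine hd.trans ?_
        have h2 : 1 / 2 ^ j / 2 * C.sT q ≤ 1 / 2 ^ j / 2 * (2 * C.sT t) :=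
          mul_le_mul_of_nonneg_left hsT (by positivity)
        linarith
      · rw [Function.update_of_ne hk, sub_self, abs_zero]
        exact h6
    constructor
    · intro h1
      by_contra hcon
      push Not at hcon
      have h2 := tube_shi (S := C.rad D.hρ) hes hud (by rw [h1]; exact K.s_lt s u hun)
      exact key (by linarith) (by linarith)
    · intro h1
      by_contra hcon
      push Not at hcon
      have h2 := tube_slo (S := C.rad D.hρ) hes hud (by rw [h1]; exact K.s_lt s u hun)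
      exact key (by linarith) (by linarith)
  · -- the normal direction is `u`
    rw [hcase] at hd e1
    rw [← e1] at hd
    have h1 := abs_le.1 hd
    constructor
    · intro h2
      rw [h2] at h1
      linarith [h1.2]
    · intro h2
      rw [h2] at h1
      linarith [h1.1]

/-- **[FAR-K]** full case: near a processed plate, the passive cells in a box of round T are far
laterally -/
theorem far_K (F : Full C J₀ J) {b : TBx K} (hb : b ∈ pB C J₀) {i : M.ι} (hi : i ∉ P)
    (hZ : i ∉ Zmax M w h.toFun J₀ P (2 / 2 ^ j)) {x₀ : V} (hx₀ : x₀ ∈ M.Q i)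
    (hm : h.toFun x₀ ∈ (D.G C).TB false b) (hy : y ∈ M.Q i) {s : K.S} (hs : s ∈ pS C J₀) {z : V}
    (hz : z ∈ PX (D.G C) s) (hzb : z ∈ (D.G C).TB false b) :
    ∃ l, l ≠ b.ax ∧ 2 * ω3T δ C b ≤ |z l - h.toFun y l| := by
  rcases b with e | k
  · have hes := edge_sq_of_PX hz hzb
    obtain ⟨u, hun, hud, hu⟩ := exists_third hes
    have hE := inl_mem_pB.1 hb
    obtain ⟨h1, h2⟩ := D.rim_side C F hi hZ hE hx₀ hm hs hes hun hud hu
    have hosc := (abs_sub_le_norm _ _ u).trans (D.osc_T C hb hi hx₀ hy hm)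
    have hosc' := abs_le.1 hosc
    have hzu := hz.1 u hun
    have hp := Geo.p_pos (G := D.G C) s
    have hτ := (D.B C).τ_pos s
    have hτp := (D.G C).τ_p s
    have ho := (D.G C).oG_τ s e hes
    have hω := D.ω3T_oT C (.inl e)
    have hω0 := D.ω3T_pos C (.inl e)
    have hω' : 16777216 * ω3T δ C (.inl e) ≤ (D.G C).oG e := hω
    refine ⟨u, hud, ?_⟩
    rcases edge_side hes hun hud with h3 | h3
    · have h4 := h1 h3
      refine le_trans ?_ (le_abs_self _)
      linarith [hosc'.1, hosc'.2]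
    · have h4 := h2 h3
      rw [abs_sub_comm]
      refine le_trans ?_ (le_abs_self _)
      linarith [hosc'.1, hosc'.2]
  · exact absurd hm (D.off_TB_inr C F hi hZ (inr_mem_pB.1 hb) hx₀)

end KIn3

end Vale.Agent.P073.H926
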