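import Vale.Agent.P073.H194.GenUsc

/-!
# P073, block A15-MESH: good centres
-/

namespace Vale.Agent.P073.H194

open MeasureTheory Set Filter Topology Metric Vale.Agent.P073.St
open Vale.Agent.P073.SQ (ev)
open Vale.Agent.P073.AB Vale.Agent.P073.AB.P86
open P073.Net (dyc dyo)
open Vale.Agent.P073.H471 (wt)
open Vale.Agent.P073.H83 (Bw GenB ae_big ext0 idx_mem mem_hc dist_le_of_mem_dyc)
open scoped ENNReal

/-- indicator of a ball -/
noncomputable def Bk (k : ℕ) : V → ℝ≥0∞ := (closedBall (0 : V) k).indicator fun _ => 1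

theorem measurable_Bk (k : ℕ) : Measurable (Bk k) :=
  measurable_const.indicator isClosed_closedBall.measurableSet

theorem lintegral_Bk (k : ℕ) : ∫⁻ x, Bk k x ≠ ⊤ := by
  unfold Bk
  rw [lintegral_indicator isClosed_closedBall.measurableSet, lintegral_const, one_mul,
    Measure.restrict_apply_univ]
  exact measure_closedBall_lt_top.ne

/-- **good centres** -/
def GoodC (p : ℝ) (Ω : Set V) (f : V → V) (G : V → ℝ≥0∞) (v : V) (nn : ℕ → ℕ)
    (J : Finset (Fin 3 → ℤ)) (A : (Fin 3 → ℤ) → V → V) (c : V) : Prop :=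
  (∀ x ∈ Ω, f x = c → (∀ m, x ∈ dyo v m (idx v m x)) ∧ ∀ δ : ℝ≥0∞, δ ≠ 0 → ∃ᶠ l in atTop,
    Bw p f G v (nn l) (idx v (nn l) x) c < δ) ∧
  ∀ z ∈ J, ∀ x, A z x = c → (∀ m, x ∈ dyo v m (idx v m x)) ∧ ∀ δ : ℝ≥0∞, δ ≠ 0 → ∃ᶠ l in atTop,
    Bw p (A z) (fun _ => 1) v (nn l) (idx v (nn l) x) c < δ

theorem Bw_le {p : ℝ} {f g : V → V} {H H' : V → ℝ≥0∞} {v : V} {n : ℕ} {w : Fin 3 → ℤ} {a : ℝ≥0∞}
    (ha : a ≠ ⊤) (h : EqOn f g (dyc v n w)) (h' : ∀ x ∈ dyc v n w, H x ≤ a * H' x) (c : V) :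
    Bw p f H v n w c ≤ a * Bw p g H' v n w c := by
  have key : bInt v (n, w) (fun y => wt p 1 (f y - c) * H y) ≤
      a * bInt v (n, w) (fun y => wt p 1 (g y - c) * H' y) := by
    rw [bInt_eq, bInt_eq, Finset.mul_sum]
    refine Finset.sum_le_sum fun j _ => ?_
    rw [Finset.mul_sum]
    refine Finset.sum_le_sum fun τ _ => ?_
    refine le_trans (sInt_mono (A' := fun y => a * (wt p 1 (g y - c) * H' y)) fun y hy => ?_)
      (H83.sInt_le_mul ha fun _ _ => le_rfl)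
    have hy' : y ∈ dyc v n w := faceP_sub (n, w) j τ hy
    rw [h hy']
    calc wt p 1 (g y - c) * H y ≤ wt p 1 (g y - c) * (a * H' y) := by
          gcongr
          exact h' y hy'
      _ = _ := by ring
  calc Bw p f H v n w c = ENNReal.ofReal (1 / 2 ^ n) *
        bInt v (n, w) (fun y => wt p 1 (f y - c) * H y) := rfl
    _ ≤ ENNReal.ofReal (1 / 2 ^ n) * (a * bInt v (n, w) (fun y => wt p 1 (g y - c) * H' y)) := by
        gcongr
    _ = a * Bw p g H' v n w c := by rw [Bw]; ring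

/-- almost every point is in no dyadic plane -/
theorem ae_plane (v : V) : ∀ᵐ x : V, ∀ m, x ∈ dyo v m (idx v m x) := by
  have h1 : ∀ᵐ x : V, ∀ (k : Fin 3) (m : ℕ) (j : ℤ), x k ≠ v k + j / 2 ^ m := by
    simp only [ae_all_iff]
    intro k m j
    rw [ae_iff]
    have : {x : V | ¬ x k ≠ v k + j / 2 ^ m} = {x : V | x k = v k + j / 2 ^ m} := by
      ext x; simp
    rw [this, volume_pi]
    exact Measure.pi_hyperplane _ k _
  filter_upwards [h1] with x hx m k
  have h6 := mem_hc.1 (idx_mem v m x) k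
  obtain ⟨h7, h8⟩ := h6
  simp only [Pi.sub_apply] at h7 h8
  refine ⟨lt_of_le_of_ne (by linarith) fun h9 => hx k m (idx v m x k) h9.symm, by linarith⟩

/-- almost every point is a good centre -/
theorem ae_goodC {p : ℝ} (hp3 : p < 3) {Ω Λ : Set V} (hΩ : IsOpen Ω) (hΛ : IsOpen Λ) {f : V → V}
    (hf : IsHomeo Ω Λ f) {G : V → ℝ≥0∞} (hG : Measurable G) (hfin : ∫⁻ x, G x ≠ ⊤) {v : V}
    {nn : ℕ → ℕ} (hnn : StrictMono nn) (hGB : GenB v nn G) (hB1 : ∀ k, GenB v nn (Bk k))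
    (hpl : ∀ᵐ c : V, ∀ x ∈ Ω, f x = c → ∀ m, x ∈ dyo v m (idx v m x))
    {J : Finset (Fin 3 → ℤ)} {A : (Fin 3 → ℤ) → V → V} {L : (Fin 3 → ℤ) → V →L[ℝ] V}
    (haff : ∀ z x y, A z y - A z x = L z (y - x)) (hinj : ∀ z ∈ J, Function.Injective (L z)) :
    ∀ᵐ c : V, GoodC p Ω f G v nn J A c := by
  obtain ⟨h, hinv, hfc, hhc⟩ := hf
  have h1 := ae_big hp3 hΛ hΩ hfc hhc hinv.2 hG hfin hnn hGB
  have h2 : ∀ z ∈ J, ∀ᵐ c : V, ∀ x, A z x = c → (∀ m, x ∈ dyo v m (idx v m x)) ∧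
      ∀ δ : ℝ≥0∞, δ ≠ 0 → ∃ᶠ l in atTop,
        Bw p (A z) (fun _ => 1) v (nn l) (idx v (nn l) x) c < δ := by
    intro z hz
    have hL : Function.Bijective (L z) :=
      ⟨hinj z hz, (LinearMap.injective_iff_surjective (f := (L z : V →ₗ[ℝ] V))).1 (hinj z hz)⟩
    set E : V ≃L[ℝ] V := (LinearEquiv.ofBijective (L z : V →ₗ[ℝ] V) hL).toContinuousLinearEquiv
      with hE
    have hEx : ∀ x, E x = L z x := fun x => rfl
    have hAx : ∀ x, A z x = A z 0 + L z x := by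
      intro x
      have := haff z 0 x
      rw [sub_zero] at this
      rw [← this]; abel
    set g : V → V := fun c => E.symm (c - A z 0) with hg
    have hgA : ∀ x, g (A z x) = x := by
      intro x
      rw [hg]
      dsimp only
      rw [hAx x, add_sub_cancel_left, ← hEx, E.symm_apply_apply]
    have hAg : ∀ c, A z (g c) = c := by
      intro c
      rw [hAx, ← hEx]
      rw [hg]
      dsimp only
      rw [E.apply_symm_apply]; abel
    have hAc : Continuous (A z) := by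
      have : A z = fun x => A z 0 + L z x := funext hAx
      rw [this]; fun_prop
    have hgc : Continuous g := by
      rw [hg]; fun_prop
    have h3 : ∀ k : ℕ, ∀ᵐ c : V, ∀ δ : ℝ≥0∞, δ ≠ 0 → ∃ᶠ l in atTop,
        Bw p (A z) (Bk k) v (nn l) (idx v (nn l) (g c)) c < δ := by
      intro k
      have := ae_big (f := A z) (h := g) hp3 isOpen_univ isOpen_univ hAc.continuousOn
        hgc.continuousOn (fun y _ => ⟨mem_univ _, hAg y⟩) (measurable_Bk k) (lintegral_Bk k) hnn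
        (hB1 k)
      filter_upwards [this] with c hc
      exact hc (mem_univ c)
    have h4 : ∀ᵐ c : V, ∀ x, A z x = c → ∀ m, x ∈ dyo v m (idx v m x) := by
      have h5 : volume {x : V | ¬ ∀ m, x ∈ dyo v m (idx v m x)} = 0 := ae_iff.1 (ae_plane v)
      have hd : DifferentiableOn ℝ (A z) {x : V | ¬ ∀ m, x ∈ dyo v m (idx v m x)} := by
        have : A z = fun x => A z 0 + L z x := funext hAx
        rw [this]
        exact ((differentiable_const _).add (L z).differentiable).differentiableOn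
      have h6 := addHaar_image_eq_zero_of_differentiableOn_of_addHaar_eq_zero volume hd h5
      rw [ae_iff]
      refine measure_mono_null (fun c hc => ?_) h6
      simp only [mem_ofPred_eq, not_forall] at hc
      obtain ⟨x, hx, m, hm⟩ := hc
      exact ⟨x, fun h => hm (h m), hx⟩
    filter_upwards [ae_all_iff.2 h3, h4] with c hc hc' x hx
    refine ⟨hc' x hx, fun δ hδ => ?_⟩
    have hgx : g c = x := by rw [← hx, hgA]
    obtain ⟨k, hk⟩ := exists_nat_ge (‖x‖ + 1)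
    refine (hc k δ hδ).mono fun l hl => ?_
    rw [hgx] at hl
    refine lt_of_le_of_lt ?_ hl
    have h7 := Bw_le (p := p) (f := A z) (g := A z) (H := fun _ => 1) (H' := Bk k) (v := v)
      (n := nn l) (w := idx v (nn l) x) (a := 1) ENNReal.one_ne_top (fun _ _ => rfl)
      (fun y hy => by
        rw [one_mul, Bk, indicator_of_mem]
        rw [mem_closedBall_zero_iff]
        have h8 := dist_le_of_mem_dyc hy (idx_mem_dyc v (nn l) x)
        have h9 : (1 / 2 ^ nn l : ℝ) ≤ 1 := by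
          rw [div_le_one (by positivity)]; exact one_le_pow₀ (by norm_num)
        have h10 : ‖y‖ ≤ ‖x‖ + dist y x := by
          rw [dist_eq_norm]
          calc ‖y‖ = ‖x + (y - x)‖ := by congr 1; abel
            _ ≤ _ := norm_add_le _ _
        linarith) c
    rwa [one_mul] at h7
  have h2' : ∀ᵐ c : V, ∀ z ∈ J, ∀ x, A z x = c → (∀ m, x ∈ dyo v m (idx v m x)) ∧
      ∀ δ : ℝ≥0∞, δ ≠ 0 → ∃ᶠ l in atTop,
        Bw p (A z) (fun _ => 1) v (nn l) (idx v (nn l) x) c < δ := by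
    have : ∀ᵐ c : V, ∀ z : J, ∀ x, A z x = c → (∀ m, x ∈ dyo v m (idx v m x)) ∧
        ∀ δ : ℝ≥0∞, δ ≠ 0 → ∃ᶠ l in atTop,
          Bw p (A z) (fun _ => 1) v (nn l) (idx v (nn l) x) c < δ :=
      ae_all_iff.2 fun z => h2 z z.2
    filter_upwards [this] with c hc z hz
    exact hc ⟨z, hz⟩
  filter_upwards [h1, h2', hpl] with c hc hc' hc2
  refine ⟨fun x hx hxc => ⟨hc2 x hx hxc, ?_⟩, hc'⟩
  have h5 := hinv.1 x hx
  have h6 := hc (hxc ▸ h5.1)
  rwa [← hxc, h5.2, hxc] at h6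

/-- the planes, for almost every origin -/
theorem ae_planes' {Ω Λ : Set V} (hΛ : IsOpen Λ) {f : V → V} (hf : IsHomeo Ω Λ f) :
    ∀ᵐ v : V, ∀ᵐ c : V, ∀ x ∈ Ω, f x = c → ∀ m, x ∈ dyo v m (idx v m x) := by
  obtain ⟨h, hinv, hfc, hhc⟩ := hf
  filter_upwards [H83.ae_planes hΛ hhc] with v hv
  filter_upwards [hv] with c hc x hx hxc m
  have h5 := hinv.1 x hx
  have h6 := hc (hxc ▸ h5.1) m
  rwa [← hxc, h5.2] at h6

end Vale.Agent.P073.H194
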