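import Vale.Agent.P073.AB.Spec

/-!
# P073, block A03-MESH: definitions

* `sInt v s H`: integral of `H` over the dyadic square `s`;
* `eIn`, `eInSq`: the dyadic edges of generation `n` and direction `k` in a cube, in a square;
* `Gen v nn H`: for the origin `v` the Riemann sums of `H` over the edges of the generations `nn l`
  in dyadic cubes and squares are bounded by the integrals, up to `δ`, for `l` large;
* `GenPt v nn H x`: the dyadic cubes of generation `nn l` containing `x` have small surface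
  integrals;
* `refine`: the refined partition with big cells.
-/

namespace Vale.Agent.P073.H194

open MeasureTheory Set Filter Topology Metric Vale.Agent.P073.St
open Vale.Agent.P073.SQ (ev)
open Vale.Agent.P073.AB (Idx Part pt edge eInt squ FaceOf EdgeOf EdgeOfSq MinSq)
open P073.Net (dyc dyo)
open scoped ENNReal

/-- integral of `H` over the dyadic square `s` (a true two-dimensional integral) -/
noncomputable def sInt (v : V) (s : Idx × Fin 3) (H : V → ℝ≥0∞) : ℝ≥0∞ :=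
  2 ^ s.1.1 * ∫⁻ x in dyc v s.1.1 s.1.2, H (Function.update x s.2 (pt v s.1.1 s.1.2 s.2))

/-- lower corners of the dyadic edges of generation `n` and direction `k` in the closed cube `q` -/
noncomputable def eIn (q : Idx) (n : ℕ) (k : Fin 3) : Finset (Fin 3 → ℤ) :=
  Fintype.piFinset fun j =>
    if j = k then Finset.Ico (2 ^ (n - q.1) * q.2 j) (2 ^ (n - q.1) * (q.2 j + 1))
    else Finset.Icc (2 ^ (n - q.1) * q.2 j) (2 ^ (n - q.1) * (q.2 j + 1))

/-- lower corners of the dyadic edges of generation `n` and direction `k ≠ s.2` in the closed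
square `s` -/
noncomputable def eInSq (s : Idx × Fin 3) (n : ℕ) (k : Fin 3) : Finset (Fin 3 → ℤ) :=
  Fintype.piFinset fun j =>
    if j = s.2 then {2 ^ (n - s.1.1) * s.1.2 j}
    else if j = k then Finset.Ico (2 ^ (n - s.1.1) * s.1.2 j) (2 ^ (n - s.1.1) * (s.1.2 j + 1))
    else Finset.Icc (2 ^ (n - s.1.1) * s.1.2 j) (2 ^ (n - s.1.1) * (s.1.2 j + 1))

/-- Riemann sum over the edges of generation `n` and direction `k` in the cube `q` -/
noncomputable def cSum (v : V) (q : Idx) (n : ℕ) (k : Fin 3) (H : V → ℝ≥0∞) : ℝ≥0∞ :=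
  ∑ w ∈ eIn q n k, ENNReal.ofReal ((1 / 2 ^ n) ^ 2) * eInt v ((n, w), k) H

/-- Riemann sum over the edges of generation `n` and direction `k` in the square `s` -/
noncomputable def fSum (v : V) (s : Idx × Fin 3) (n : ℕ) (k : Fin 3) (H : V → ℝ≥0∞) : ℝ≥0∞ :=
  ∑ w ∈ eInSq s n k, ENNReal.ofReal (1 / 2 ^ n) * eInt v ((n, w), k) H

/-- The origin `v` is generic for `H`, along the generations `nn l`. -/
structure Gen (v : V) (nn : ℕ → ℕ) (H : V → ℝ≥0∞) : Prop where
  efin : ∀ e : Idx × Fin 3, eInt v e H ≠ ⊤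
  sfin : ∀ s : Idx × Fin 3, sInt v s H ≠ ⊤
  cube : ∀ (q : Idx) (k : Fin 3) (δ : ℝ≥0∞), δ ≠ 0 → ∀ᶠ l in atTop,
    cSum v q (nn l) k H ≤ (∫⁻ x in dyc v q.1 q.2, H x) + δ
  square : ∀ (s : Idx × Fin 3) (k : Fin 3), k ≠ s.2 → ∀ δ : ℝ≥0∞, δ ≠ 0 → ∀ᶠ l in atTop,
    fSum v s (nn l) k H ≤ sInt v s H + δ

/-- position of the dyadic cube of generation `n` containing `x` -/
noncomputable def idx (v : V) (n : ℕ) (x : V) : Fin 3 → ℤ := fun k => ⌊2 ^ n * (x k - v k)⌋

/-- surface integral of `H` over the boundary of the dyadic cube `q` -/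
noncomputable def bInt (v : V) (q : Idx) (H : V → ℝ≥0∞) : ℝ≥0∞ :=
  ∑ k : Fin 3, (sInt v ((q.1, q.2), k) H +
    sInt v ((q.1, Function.update q.2 k (q.2 k + 1)), k) H)

/-- The origin `v` is generic for `H` at the point `x`, along the generations `nn l`. -/
structure GenPt (v : V) (nn : ℕ → ℕ) (H : V → ℝ≥0∞) (x : V) : Prop where
  inside : ∀ n, x ∈ dyo v n (idx v n x)
  small : Tendsto (fun l => ENNReal.ofReal (1 / 2 ^ nn l) * bInt v (nn l, idx v (nn l) x) H)
    atTop (𝓝 0)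

/-- **(GEN)** the generic origin. `Y` are further functionals whose integrals tend to zero. -/
def SpecGen : Prop :=
  ∀ (ι κ : Type) (_ : Countable ι) (_ : Countable κ) (H : ι → V → ℝ≥0∞) (X : Set V)
    (Y : κ → ℕ → V → ℝ≥0∞), (∀ i, Measurable (H i)) → (∀ i, ∫⁻ x, H i x ≠ ⊤) → X.Countable →
    (∀ k n, AEMeasurable (Y k n) (volume.restrict (Icc 0 1))) →
    (∀ k, Tendsto (fun n => ∫⁻ v in Icc (0 : V) 1, Y k n v) atTop (𝓝 0)) →
    ∃ nn : ℕ → ℕ, StrictMono nn ∧ ∀ᵐ v ∂(volume.restrict (Icc (0 : V) 1)),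
      (∀ i, Gen v nn (H i)) ∧ (∀ i, ∀ x ∈ X, GenPt v nn (H i) x) ∧
      ∀ k, Tendsto (fun l => Y k (nn l) v) atTop (𝓝 0)

/-! ## The refined partition -/

/-- The cubes `q` of `I \ P` are divided into cubes of generation `n q`, except for the big cells
`B` (which are kept); the cubes of `P` are kept. -/
def refine (v : V) (I P B : Set Idx) (n : Idx → ℕ) : Set Idx :=
  P ∪ B ∪ {r | ∃ q ∈ I \ P, r.1 = n q ∧ dyc v r.1 r.2 ⊆ dyc v q.1 q.2 ∧
    ∀ b ∈ B, ¬ dyc v r.1 r.2 ⊆ dyc v b.1 b.2}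

/-- admissible data for `refine` -/
structure Big (v : V) (I P B : Set Idx) (n : Idx → ℕ) : Prop where
  sub : P ⊆ I
  gen : ∀ q ∈ I \ P, q.1 ≤ n q
  /-- a big cell is in the interior of a cube of `I \ P` -/
  big : ∀ b ∈ B, ∃ q ∈ I \ P, dyc v b.1 b.2 ⊆ dyo v q.1 q.2 ∧ b.1 ≤ n q
  disj : ∀ b ∈ B, ∀ b' ∈ B, b ≠ b' → Disjoint (dyc v b.1 b.2) (dyc v b'.1 b'.2)

/-- (PART) the refined partition is a partition -/
def SpecRefine : Prop :=
  ∀ (Ω : Set V) (v : V) (I P B : Set Idx) (n : Idx → ℕ), IsOpen Ω → Part Ω v I →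
    Big v I P B n → Part Ω v (refine v I P B n)

/-- weighted edge sum of the cell `i` of the partition `I`, over the squares in `A`: every minimal
square `F` of generation `m` in the boundary of `i` counts `2^(-i) 2^(-m)` times the integral of
`H` over its four edges -/
noncomputable def cellT (v : V) (I : Set Idx) (A : Set V) (H : V → ℝ≥0∞) (i : Idx) : ℝ≥0∞ :=
  ∑' F : {F : Idx × Fin 3 // MinSq v I F ∧ squ v F ⊆ dyc v i.1 i.2 ∧ squ v F ⊆ A},
    ∑' e : {e : Idx × Fin 3 // EdgeOfSq e F.1},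
      ENNReal.ofReal (1 / 2 ^ i.1 * (1 / 2 ^ F.1.1.1)) * eInt v e.1 H

/-- (SUM) the choice of the fine generations: for any threshold `th` there are generations `n q`
in the sequence `nn`, above the threshold, for which the weighted edge sums of all cells outside
of `P` are bounded by the integral, up to the given tolerances. The constant is universal. -/
def SpecMesh : Prop :=
  ∃ C : ℝ≥0∞, C ≠ ⊤ ∧ ∀ (Ω : Set V) (v : V) (I P B : Set Idx) (nn : ℕ → ℕ) (H : V → ℝ≥0∞)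
    (ε : Idx → ℝ≥0∞) (β : Idx → ℝ≥0∞) (th : Idx → ℕ), IsOpen Ω → Part Ω v I → P ⊆ I →
    StrictMono nn → (∀ q, ε q ≠ 0) →
    (∀ b ∈ B, ∃ q ∈ I \ P, dyc v b.1 b.2 ⊆ dyo v q.1 q.2) →
    (∀ b ∈ B, ∀ b' ∈ B, b ≠ b' → Disjoint (dyc v b.1 b.2) (dyc v b'.1 b'.2)) →
    (∀ q ∈ I \ P, {b | b ∈ B ∧ dyc v b.1 b.2 ⊆ dyc v q.1 q.2}.Finite) →
    -- locally, `H` agrees with a generic function
    (∀ q ∈ I, ∃ H' : V → ℝ≥0∞, Gen v nn H' ∧ ∀ x ∈ dyc v q.1 q.2, H x = H' x) →
    -- the big cells have small surface integrals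
    (∀ b ∈ B, ENNReal.ofReal (1 / 2 ^ b.1) * bInt v b H < β b) →
    ∃ n : Idx → ℕ, Big v I P B n ∧ (∀ q ∈ I \ P, th q ≤ n q ∧ n q ∈ range nn) ∧
      -- fine cells
      (∀ q ∈ I \ P, ∑' i : {i : Idx // i ∈ refine v I P B n ∧ i ∉ P ∧ i ∉ B ∧
          dyc v i.1 i.2 ⊆ dyc v q.1 q.2}, cellT v (refine v I P B n) univ H i.1 ≤
        C * (∫⁻ x in dyc v q.1 q.2, H x) + ε q) ∧
      -- big cells
      (∀ b ∈ B, cellT v (refine v I P B n) univ H b ≤ C * β b) ∧
      -- kept cells, squares on divided neighbours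
      (∀ q ∈ P, cellT v (refine v I P B n) (⋃ r ∈ I \ P, dyc v r.1 r.2) H q ≤
        C * (∑' s : {s : Idx × Fin 3 // MinSq v I s ∧ squ v s ⊆ dyc v q.1 q.2},
          ENNReal.ofReal (1 / 2 ^ q.1) * sInt v s.1 H) + ε q)

end Vale.Agent.P073.H194
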