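import Vale.Agent.P073.H194.Flat3
import Vale.Agent.P073.H253.PreBeam

/-!
# P073, block A16, [R2-MESH]: the core rectangle of a dyadic plane, any direction
-/

namespace Vale.Agent.P073.H194

open MeasureTheory Set Filter Topology Metric Vale.Agent.P073.St
open Vale.Agent.P073.SQ (ev)
open Vale.Agent.P073.AB Vale.Agent.P073.AB.P86
open P073.Net (dyc dyo)
open Vale.Agent.P073.H73 (MinEdge)
open Vale.Agent.P073.H253 (rectN redgeN)
open scoped ENNReal

/-- the closed rectangle (generation `m`) in the plane `a l` -/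
def RgN (l : Fin 3) (v : V) (m : ℕ) (a b : Fin 3 → ℤ) : Set V :=
  {x | x l = v l + a l / 2 ^ m ∧ ∀ j, j ≠ l → v j + a j / 2 ^ m ≤ x j ∧ x j ≤ v j + b j / 2 ^ m}

theorem isCompact_RgN (l : Fin 3) (v : V) (m : ℕ) (a b : Fin 3 → ℤ) :
    IsCompact (RgN l v m a b) := by
  have : RgN l v m a b = Set.pi univ fun j => if j = l then {v l + a l / 2 ^ m}
      else Icc (v j + a j / 2 ^ m) (v j + b j / 2 ^ m) := by
    ext x
    simp only [RgN, mem_ofPred_eq, Set.mem_pi, mem_univ, forall_true_left]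
    constructor
    · rintro ⟨h1, h2⟩ j
      by_cases hj : j = l
      · subst hj; simpa using h1
      · rw [if_neg hj]; exact h2 j hj
    · intro h
      refine ⟨by simpa using h l, fun j hj => ?_⟩
      have := h j
      rwa [if_neg hj] at this
  rw [this]
  refine isCompact_univ_pi fun j => ?_
  split_ifs
  · exact isCompact_singleton
  · exact isCompact_Icc

section

variable {l : Fin 3} {v : V} {m nS : ℕ} {α β a b : Fin 3 → ℤ}

theorem mem_rectN {k : Fin 3 → ℤ} : k ∈ rectN l a b ↔ k l = a l ∧ ∀ j, j ≠ l → a j ≤ k j ∧ k j < b j := by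
  unfold rectN
  rw [Fintype.mem_piFinset]
  constructor
  · intro h
    refine ⟨by simpa using h l, fun j hj => ?_⟩
    have := h j
    rwa [if_neg hj, Finset.mem_Ico] at this
  · rintro ⟨h1, h2⟩ j
    by_cases hj : j = l
    · subst hj; simpa using h1
    · rw [if_neg hj, Finset.mem_Ico]; exact h2 j hj

theorem mem_redgeN {k : Fin 3 → ℤ} {i : Fin 3} (hi : i ≠ l) : k ∈ redgeN l a b i ↔ k l = a l ∧
    (a i ≤ k i ∧ k i < b i) ∧ ∀ j, j ≠ l → j ≠ i → a j ≤ k j ∧ k j ≤ b j := by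
  unfold redgeN
  rw [Fintype.mem_piFinset]
  constructor
  · intro h
    refine ⟨by simpa using h l, ?_, fun j hj hji => ?_⟩
    · have := h i
      rwa [if_neg hi, if_pos rfl, Finset.mem_Ico] at this
    · have := h j
      rwa [if_neg hj, if_neg hji, Finset.mem_Icc] at this
  · rintro ⟨h1, h2, h3⟩ j
    by_cases hj : j = l
    · subst hj; simpa using h1
    · rw [if_neg hj]
      by_cases hji : j = i
      · rw [if_pos hji, Finset.mem_Ico]; subst hji; exact h2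
      · rw [if_neg hji, Finset.mem_Icc]; exact h3 j hj hji

theorem squ_sub_RgN (H : Sc m nS α β a b) {k : Fin 3 → ℤ} (hk : k ∈ rectN l a b) :
    squ v ((nS, k), l) ⊆ RgN l v m α β := by
  obtain ⟨h1, h2⟩ := mem_rectN.1 hk
  rintro x ⟨hx1, hx2⟩
  have hp : (0:ℝ) < 2 ^ nS := by positivity
  refine ⟨?_, fun j hj => ?_⟩
  · have hx1' : x l = v l + (k l : ℝ) / 2 ^ nS := hx1
    rw [hx1', ← H.div_a l, h1]
  · obtain ⟨h3, h4⟩ := h2 j hj
    obtain ⟨h5, h6⟩ := hx2 j hj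
    rw [← H.div_a j, ← H.div_b j]
    have h7 : (a j : ℝ) / 2 ^ nS ≤ k j / 2 ^ nS :=
      (div_le_div_iff_of_pos_right hp).2 (by exact_mod_cast h3)
    have h8 : ((k j : ℝ) + 1) / 2 ^ nS ≤ b j / 2 ^ nS :=
      (div_le_div_iff_of_pos_right hp).2 (by exact_mod_cast (Int.add_one_le_iff.2 h4))
    exact ⟨by linarith, by linarith⟩

theorem edge_sub_RgN (H : Sc m nS α β a b) {i : Fin 3} (hi : i ≠ l) {k : Fin 3 → ℤ}
    (hk : k ∈ redgeN l a b i) : edge v ((nS, k), i) ⊆ RgN l v m α β := by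
  obtain ⟨h1, h2, h3⟩ := (mem_redgeN hi).1 hk
  intro x hx
  obtain ⟨hx1, hx2, hx3⟩ := Gr.mem_edge.1 hx
  have hp : (0:ℝ) < 2 ^ nS := by positivity
  refine ⟨?_, fun j hj => ?_⟩
  · have hx1' : x l = v l + (k l : ℝ) / 2 ^ nS := hx1 l (Ne.symm hi)
    rw [hx1', ← H.div_a l, h1]
  · rw [← H.div_a j, ← H.div_b j]
    by_cases hji : j = i
    · subst hji
      have h7 : (a j : ℝ) / 2 ^ nS ≤ k j / 2 ^ nS :=
        (div_le_div_iff_of_pos_right hp).2 (by exact_mod_cast h2.1)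
      have h8 : ((k j : ℝ) + 1) / 2 ^ nS ≤ b j / 2 ^ nS :=
        (div_le_div_iff_of_pos_right hp).2 (by exact_mod_cast (Int.add_one_le_iff.2 h2.2))
      have hx2' : v j + (k j : ℝ) / 2 ^ nS ≤ x j := hx2
      have hx3' : x j ≤ v j + ((k j : ℝ) + 1) / 2 ^ nS := hx3
      exact ⟨by linarith, by linarith⟩
    · obtain ⟨h4, h5⟩ := h3 j hj hji
      have hxj : x j = v j + (k j : ℝ) / 2 ^ nS := hx1 j hji
      have h7 : (a j : ℝ) / 2 ^ nS ≤ k j / 2 ^ nS :=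
        (div_le_div_iff_of_pos_right hp).2 (by exact_mod_cast h4)
      have h8 : (k j : ℝ) / 2 ^ nS ≤ b j / 2 ^ nS :=
        (div_le_div_iff_of_pos_right hp).2 (by exact_mod_cast h5)
      exact ⟨by linarith, by linarith⟩

variable {Ω : Set V} {I : Set Idx}

/-- **(minS)** if all cells which touch the rectangle have generation `nS` -/
theorem minSq_rectN (hI : Part Ω v I) (hR : RgN l v m α β ⊆ Ω) (H : Sc m nS α β a b)
    (ht : ∀ x ∈ RgN l v m α β, ∀ i ∈ I, x ∈ dyc v i.1 i.2 → i.1 = nS) {k : Fin 3 → ℤ}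
    (hk : k ∈ rectN l a b) : MinSq v I ((nS, k), l) := by
  set s : Idx × Fin 3 := ((nS, k), l) with hs
  have hsub := squ_sub_RgN (v := v) H hk
  have hsc : sc v s ∈ squ v s := rel_sub sc_mem
  obtain ⟨i, hi, hxi⟩ := hI.cover _ (hR (hsub hsc))
  have hgen := ht _ (hsub hsc) i hi hxi
  obtain ⟨n, w⟩ := i
  simp only at hgen hxi
  subst hgen
  refine ⟨⟨(n, w), hi, rfl, ?_, fun j hj => ?_⟩, ?_⟩
  · exact pos_int hxi hsc.1
  · have h1 : sc v s j = v j + (k j + 1 / 2) / 2 ^ n := by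
      have hj' : j ≠ l := hj
      simp [sc, hs, hj']
    exact (pos_half hxi h1).symm
  · rintro s' ⟨q, hq, hf⟩ hlt - hsub'
    have h1 : sc v s' ∈ squ v s' := rel_sub sc_mem
    have h2 := ht _ (hsub (hsub' h1)) q hq (face_sub hf h1)
    have h3 : s'.1.1 = q.1 := hf.1
    have h4 : s.1.1 = n := rfl
    omega

/-- **(minE)** -/
theorem minEdge_rectN (hI : Part Ω v I) (hR : RgN l v m α β ⊆ Ω) (H : Sc m nS α β a b)
    (ht : ∀ x ∈ RgN l v m α β, ∀ i ∈ I, x ∈ dyc v i.1 i.2 → i.1 = nS) {i : Fin 3} (hil : i ≠ l)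
    {k : Fin 3 → ℤ} (hk : k ∈ redgeN l a b i) : MinEdge v I ((nS, k), i) := by
  set e : Idx × Fin 3 := ((nS, k), i) with he
  have hsub := edge_sub_RgN (v := v) H hil hk
  set x : V := fun j => if j = i then v j + (k j + 1 / 2) / 2 ^ nS else v j + k j / 2 ^ nS with hx
  have hp : (0:ℝ) < 1 / 2 ^ nS := by positivity
  have hxe : x ∈ edge v e := by
    refine Gr.mem_edge.2 ⟨fun j hj => ?_, ?_, ?_⟩
    · show (if j = i then _ else _) = _
      rw [if_neg hj]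
    · show v i + (k i : ℝ) / 2 ^ nS ≤ x i
      have e1 : x i = v i + (k i : ℝ) / 2 ^ nS + 1 / 2 ^ nS / 2 := by
        show (if i = i then _ else _) = _
        rw [if_pos rfl]; ring
      rw [e1]; linarith
    · show x i ≤ v i + ((k i : ℝ) + 1) / 2 ^ nS
      have e1 : x i = v i + (k i : ℝ) / 2 ^ nS + 1 / 2 ^ nS / 2 := by
        show (if i = i then _ else _) = _
        rw [if_pos rfl]; ring
      have e2 : ((k i : ℝ) + 1) / 2 ^ nS = (k i : ℝ) / 2 ^ nS + 1 / 2 ^ nS := by ring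
      rw [e1, e2]; linarith
  obtain ⟨q, hq, hxq⟩ := hI.cover _ (hR (hsub hxe))
  have hgen := ht _ (hsub hxe) q hq hxq
  obtain ⟨n, w⟩ := q
  simp only at hgen hxq
  subst hgen
  refine ⟨⟨(n, w), hq, rfl, ?_, fun j hj => ?_⟩, ?_⟩
  · refine (pos_half hxq (j := i) (k := k i) ?_).symm
    show (if i = i then _ else _) = _
    rw [if_pos rfl]
  · refine pos_int hxq (j := j) (k := k j) ?_
    show (if j = i then _ else _) = _
    rw [if_neg hj]
  · rintro e' ⟨q', hq', hf⟩ hlt hsub'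
    have h1 : pt v e'.1.1 e'.1.2 ∈ edge v e' := left_mem_segment ℝ _ _
    have h2 : pt v e'.1.1 e'.1.2 ∈ dyc v q'.1 q'.2 := by
      intro j
      obtain ⟨f1, f2, f3⟩ := hf
      have hp' : (0:ℝ) < 1 / 2 ^ q'.1 := by positivity
      have e2 : ∀ t : ℝ, (t + 1) / 2 ^ q'.1 = t / 2 ^ q'.1 + 1 / 2 ^ q'.1 := fun t => by ring
      show v j + (q'.2 j : ℝ) / 2 ^ q'.1 ≤ v j + (e'.1.2 j : ℝ) / 2 ^ e'.1.1 ∧
        v j + (e'.1.2 j : ℝ) / 2 ^ e'.1.1 ≤ v j + ((q'.2 j : ℝ) + 1) / 2 ^ q'.1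
      rw [f1]
      by_cases hj : j = e'.2
      · subst hj
        rw [f2, e2]
        exact ⟨le_rfl, by linarith⟩
      · rcases f3 j hj with h | h
        · rw [h, e2]
          exact ⟨le_rfl, by linarith⟩
        · rw [h]
          push_cast
          rw [e2]
          exact ⟨by linarith, le_rfl⟩
    have h3 := ht _ (hsub (hsub' h1)) q' hq' h2
    have h4 : e'.1.1 = q'.1 := hf.1
    have h5 : e.1.1 = n := rfl
    omega

/-- **(cov)** -/
theorem cov_rectN (H : Sc m nS α β a b) (x : V) (hlt : ∀ j, j ≠ l → α j < β j)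
    (hx : ∀ j, j ≠ l → v j + α j / 2 ^ m ≤ x j ∧ x j ≤ v j + β j / 2 ^ m) :
    ∃ k ∈ rectN l a b, Function.update x l (v l + a l / 2 ^ nS) ∈ squ v ((nS, k), l) := by
  have hp : (0:ℝ) < 2 ^ nS := by positivity
  have h1 : ∀ j, j ≠ l → ∃ kj : ℤ, (a j ≤ kj ∧ kj < b j) ∧
      v j + (kj : ℝ) / 2 ^ nS ≤ x j ∧ x j ≤ v j + ((kj : ℝ) + 1) / 2 ^ nS := by
    intro j hj
    obtain ⟨h2, h3⟩ := hx j hj
    rw [← H.div_a j] at h2
    rw [← H.div_b j] at h3
    have hab : a j < b j := by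
      rw [H.a j, H.b j]
      exact mul_lt_mul_of_pos_left (hlt j hj) (by positivity)
    have h4 : (a j : ℝ) ≤ 2 ^ nS * (x j - v j) := by
      have : (a j : ℝ) / 2 ^ nS ≤ x j - v j := by linarith
      rw [div_le_iff₀ hp] at this
      linarith
    have h5 : 2 ^ nS * (x j - v j) ≤ (b j : ℝ) := by
      have : x j - v j ≤ (b j : ℝ) / 2 ^ nS := by linarith
      rw [le_div_iff₀ hp] at this
      linarith
    rcases eq_or_lt_of_le h5 with h6 | h6
    · refine ⟨b j - 1, ⟨by omega, by omega⟩, ?_, ?_⟩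
      · have e1 : x j = v j + (b j : ℝ) / 2 ^ nS := by
          rw [← h6]; field_simp; ring
        have e2 : ((b j - 1 : ℤ) : ℝ) / 2 ^ nS = (b j : ℝ) / 2 ^ nS - 1 / 2 ^ nS := by
          push_cast; ring
        have : (0:ℝ) < 1 / 2 ^ nS := by positivity
        rw [e1, e2]; linarith
      · have e1 : x j = v j + (b j : ℝ) / 2 ^ nS := by
          rw [← h6]; field_simp; ring
        have e2 : (((b j - 1 : ℤ) : ℝ) + 1) / 2 ^ nS = (b j : ℝ) / 2 ^ nS := by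
          push_cast; ring
        rw [e1, e2]
    · refine ⟨⌊2 ^ nS * (x j - v j)⌋, ⟨Int.le_floor.2 h4, Int.floor_lt.2 h6⟩, ?_, ?_⟩
      · have := Int.floor_le (2 ^ nS * (x j - v j))
        have h7 : (⌊2 ^ nS * (x j - v j)⌋ : ℝ) / 2 ^ nS ≤ x j - v j := by
          rw [div_le_iff₀ hp]; linarith
        linarith
      · have := Int.lt_floor_add_one (2 ^ nS * (x j - v j))
        have h7 : x j - v j ≤ ((⌊2 ^ nS * (x j - v j)⌋ : ℝ) + 1) / 2 ^ nS := by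
          rw [le_div_iff₀ hp]; linarith
        linarith
  choose! kf hkf using h1
  refine ⟨fun j => if j = l then a l else kf j, mem_rectN.2 ⟨by simp, fun j hj => ?_⟩, ?_, ?_⟩
  · simp only [if_neg hj]
    exact (hkf j hj).1
  · simp
  · intro j hj
    have hj' : j ≠ l := hj
    rw [Function.update_of_ne hj']
    simp only [if_neg hj']
    exact (hkf j hj').2

/-- the cubes which meet the rectangle -/
def KRN (l : Fin 3) (v : V) (I : Set Idx) (m : ℕ) (α β : Fin 3 → ℤ) : Set Idx :=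
  {q | q ∈ I ∧ (dyc v q.1 q.2 ∩ RgN l v m α β).Nonempty}

theorem KRN_finite (hI : Part Ω v I) (hR : RgN l v m α β ⊆ Ω) : (KRN l v I m α β).Finite :=
  hI.fin _ hR (isCompact_RgN l v m α β)

theorem KRN_touch (hm : ∀ q ∈ I, m ≤ q.1) {x : V} (hx : x ∈ RgN l v m α β) :
    ∀ q ∈ I, x ∈ dyc v q.1 q.2 → q ∈ KRN l v I m α β ∧ x ∉ dyo v q.1 q.2 :=
  fun q hq hxq => ⟨⟨hq, x, hxq, hx⟩, plane_off (hm q hq) hx.1⟩

end

/-! ### Sums over the edges of the rectangle -/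

theorem sum_edges_le {v : V} {l i : Fin 3} {m n : ℕ} (H : V → ℝ≥0∞) {T Q : Finset (Fin 3 → ℤ)}
    (hT : ∀ k ∈ T, ∃ κ ∈ Q, k ∈ eInSq ((m, κ), l) n i) :
    ∑ k ∈ T, ENNReal.ofReal (1 / 2 ^ n) * eInt v ((n, k), i) H ≤
      ∑ κ ∈ Q, fSum v ((m, κ), l) n i H := by
  classical
  have h1 : T ⊆ Q.biUnion fun κ => eInSq ((m, κ), l) n i := by
    intro k hk
    obtain ⟨κ, hκ, h⟩ := hT k hk
    exact Finset.mem_biUnion.2 ⟨κ, hκ, h⟩
  refine (Finset.sum_le_sum_of_subset h1).trans ?_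
  unfold fSum
  have key : ∀ Q : Finset (Fin 3 → ℤ),
      ∑ k ∈ Q.biUnion (fun κ => eInSq ((m, κ), l) n i),
        ENNReal.ofReal (1 / 2 ^ n) * eInt v ((n, k), i) H ≤
      ∑ κ ∈ Q, ∑ w ∈ eInSq ((m, κ), l) n i, ENNReal.ofReal (1 / 2 ^ n) * eInt v ((n, w), i) H := by
    intro Q
    induction Q using Finset.induction_on with
    | empty => simp
    | insert κ Q hκ ih =>
      rw [Finset.biUnion_insert, Finset.sum_insert hκ]
      refine le_trans ?_ (add_le_add le_rfl ih)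
      rw [← Finset.sum_union_inter]
      exact le_self_add
  exact key Q

/-- an edge of the closed rectangle is an edge of a big square -/
theorem redge_cover {l i : Fin 3} {m nS : ℕ} {α β a b : Fin 3 → ℤ} (H : Sc m nS α β a b)
    (hi : i ≠ l) (hlt : ∀ j, j ≠ l → α j < β j) {k : Fin 3 → ℤ} (hk : k ∈ redgeN l a b i) :
    ∃ κ ∈ rectN l α β, k ∈ eInSq ((m, κ), l) nS i := by
  obtain ⟨h1, h2, h3⟩ := (mem_redgeN hi).1 hk
  set D : ℤ := 2 ^ (nS - m) with hD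
  have hDp : 0 < D := by positivity
  have hl := H.a
  have hb := H.b
  -- position in one direction
  have key : ∀ j, j ≠ l → ∃ κj : ℤ, α j ≤ κj ∧ κj < β j ∧ D * κj ≤ k j ∧
      (if j = i then k j < D * (κj + 1) else k j ≤ D * (κj + 1)) := by
    intro j hj
    by_cases hji : j = i
    · subst hji
      simp only [if_true]
      refine ⟨k j / D, ?_, ?_, Int.mul_ediv_self_le hDp.ne', ?_⟩
      · rw [Int.le_ediv_iff_mul_le hDp, mul_comm, ← hl j]
        exact h2.1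
      · rw [Int.ediv_lt_iff_lt_mul hDp, mul_comm, ← hb j]
        exact h2.2
      · have := Int.lt_ediv_add_one_mul_self (k j) hDp
        rwa [mul_comm] at this
    · simp only [if_neg hji]
      obtain ⟨h4, h5⟩ := h3 j hj hji
      rcases eq_or_lt_of_le h5 with h6 | h6
      · refine ⟨β j - 1, by have := hlt j hj; omega, by omega, ?_, ?_⟩
        · rw [h6, hb j]
          nlinarith
        · rw [h6, hb j]
          apply le_of_eq
          ring
      · refine ⟨k j / D, ?_, ?_, Int.mul_ediv_self_le hDp.ne', ?_⟩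
        · rw [Int.le_ediv_iff_mul_le hDp, mul_comm, ← hl j]
          exact h4
        · rw [Int.ediv_lt_iff_lt_mul hDp, mul_comm, ← hb j]
          exact h6
        · have := Int.lt_ediv_add_one_mul_self (k j) hDp
          rw [mul_comm] at this
          exact this.le
  choose! κ hκ using key
  refine ⟨fun j => if j = l then α l else κ j, mem_rectN.2 ⟨by simp, fun j hj => ?_⟩, ?_⟩
  · simp only [if_neg hj]
    exact ⟨(hκ j hj).1, (hκ j hj).2.1⟩
  · unfold eInSq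
    rw [Fintype.mem_piFinset]
    intro j
    simp only
    by_cases hj : j = l
    · subst hj
      rw [if_pos rfl, if_pos rfl, Finset.mem_singleton, h1, hl j]
    · rw [if_neg hj, if_neg hj]
      obtain ⟨-, -, h4, h5⟩ := hκ j hj
      by_cases hji : j = i
      · rw [if_pos hji, Finset.mem_Ico]
        rw [if_pos hji] at h5
        exact ⟨h4, h5⟩
      · rw [if_neg hji, Finset.mem_Icc]
        rw [if_neg hji] at h5
        exact ⟨h4, h5⟩

namespace FlatOut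

variable {ι : Type*} {l : Fin 3} {p δ : ℝ} {Ω Λ : Set V} {f : V → V} {G : V → ℝ≥0∞} {v : V}
  {I : Set Idx} {z c : ι → V} {σ : ι → ℝ} {e : Idx → ℝ≥0∞} {τ : Idx → ℝ} {m : ℕ}
  {α β : Fin 3 → ℤ} {S : Finset ((Idx × Fin 3) × Fin 3)} {δ₁ : ℝ≥0∞} {B : Set Idx}
  {nf : Idx → ℕ} {nS : ℕ}

theorem gen_eqN (H : FlatOut p δ Ω Λ f G v I z σ c e τ (KRN l v I m α β) S δ₁ B nf nS)
    (hm : ∀ q ∈ I, m ≤ q.1) : ∀ x ∈ RgN l v m α β, ∀ i ∈ refine v I ∅ B nf,
      x ∈ dyc v i.1 i.2 → i.1 = nS :=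
  fun x hx => H.touch x (KRN_touch hm hx)

/-- **(plane)** -/
theorem planeN (H : FlatOut p δ Ω Λ f G v I z σ c e τ (KRN l v I m α β) S δ₁ B nf nS)
    (hm : ∀ q ∈ I, m ≤ q.1) (hmn : m ≤ nS) {i : Idx} (hi : i ∈ refine v I ∅ B nf) {x : V}
    {k : Fin 3} (hx : x k = v k + up m nS α k / 2 ^ nS) : x ∉ dyo v i.1 i.2 := by
  rw [(sc_up hmn α β).div_a k] at hx
  exact plane_refine H.big hm hi hx

/-- **(minS)** -/
theorem minSN (H : FlatOut p δ Ω Λ f G v I z σ c e τ (KRN l v I m α β) S δ₁ B nf nS)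
    (hR : RgN l v m α β ⊆ Ω) (hm : ∀ q ∈ I, m ≤ q.1) (hmn : m ≤ nS) {k : Fin 3 → ℤ}
    (hk : k ∈ rectN l (up m nS α) (up m nS β)) : MinSq v (refine v I ∅ B nf) ((nS, k), l) :=
  minSq_rectN H.part hR (sc_up hmn α β) (H.gen_eqN hm) hk

/-- **(minE)** -/
theorem minEN (H : FlatOut p δ Ω Λ f G v I z σ c e τ (KRN l v I m α β) S δ₁ B nf nS)
    (hR : RgN l v m α β ⊆ Ω) (hm : ∀ q ∈ I, m ≤ q.1) (hmn : m ≤ nS) {i : Fin 3} (hi : i ≠ l)
    {k : Fin 3 → ℤ} (hk : k ∈ redgeN l (up m nS α) (up m nS β) i) :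
    MinEdge v (refine v I ∅ B nf) ((nS, k), i) :=
  minEdge_rectN H.part hR (sc_up hmn α β) (H.gen_eqN hm) hi hk

/-- **the edges of the plane**, with lengths `ℓ` -/
theorem edges_le {K : Set Idx} (H : FlatOut p δ Ω Λ f G v I z σ c e τ K S δ₁ B nf nS)
    (hp : 1 ≤ p) {ℓ : Idx × Fin 3 → ℝ≥0∞} {g : V → ℝ≥0∞} {C : ℝ≥0∞} (hC : C ≠ ⊤) {i : Fin 3}
    {T Q : Finset (Fin 3 → ℤ)} (hℓ : ∀ k ∈ T, ℓ ((nS, k), i) ≤ eInt v ((nS, k), i) g)
    (hg : ∀ k ∈ T, ∀ x ∈ edge v ((nS, k), i), g x ^ p ≤ C * wH p z σ c f G x)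
    (hT : ∀ k ∈ T, ∃ κ ∈ Q, k ∈ eInSq ((m, κ), l) nS i)
    (hQ : ∀ κ ∈ Q, (((m, κ), l), i) ∈ S) :
    ∑ k ∈ T, ENNReal.ofReal (1 / 2 ^ nS) * (ENNReal.ofReal ((1 / 2 ^ nS) ^ (1 - p)) *
      ℓ ((nS, k), i) ^ p) ≤ C * ∑ κ ∈ Q, (sInt v ((m, κ), l) (wH p z σ c f G) + δ₁) := by
  have h1 : ∀ k ∈ T, ENNReal.ofReal (1 / 2 ^ nS) * (ENNReal.ofReal ((1 / 2 ^ nS) ^ (1 - p)) *
      ℓ ((nS, k), i) ^ p) ≤
      C * (ENNReal.ofReal (1 / 2 ^ nS) * eInt v ((nS, k), i) (wH p z σ c f G)) := by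
    intro k hk
    have h3 := H687.term_le hp v ((nS, k), i) g (hℓ k hk)
    calc ENNReal.ofReal (1 / 2 ^ nS) * (ENNReal.ofReal ((1 / 2 ^ nS) ^ (1 - p)) *
          ℓ ((nS, k), i) ^ p)
        ≤ ENNReal.ofReal (1 / 2 ^ nS) * eInt v ((nS, k), i) fun x => g x ^ p := by
          gcongr
      _ ≤ ENNReal.ofReal (1 / 2 ^ nS) * (C * eInt v ((nS, k), i) (wH p z σ c f G)) := by
          gcongr
          rw [← H333.eInt_const_mul v _ hC]
          exact H333.eInt_mono_on fun x hx => hg k hk x hx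
      _ = _ := by ring
  refine (Finset.sum_le_sum h1).trans ?_
  rw [← Finset.mul_sum]
  gcongr
  refine (sum_edges_le (wH p z σ c f G) hT).trans ?_
  exact Finset.sum_le_sum fun κ hκ => (H.surf _ (hQ κ hκ)).2

end FlatOut

/-- **the edges of the plane**, with the weighted lengths -/
theorem FlatOut.edges_gW {p δ : ℝ} {Ω Λ : Set V} {f : V → V} {G : V → ℝ≥0∞} {v : V}
    {I : Set Idx} {ρ : V → ℝ} {cc : ℕ → (Fin 3 → ℤ) → V} {e : Idx → ℝ≥0∞} {τ : Idx → ℝ}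
    {K : Set Idx} {S : Finset ((Idx × Fin 3) × Fin 3)} {δ₁ : ℝ≥0∞} {B : Set Idx}
    {nf : Idx → ℕ} {nS m : ℕ} {l i : Fin 3}
    (H : FlatOut p δ Ω Λ f G v I (H471.zt ρ 0) (H471.st ρ 0) (fun i => cc i.1.1 i.1.2) e τ K S
      δ₁ B nf nS) (hp : 1 ≤ p) {K₀ : ℝ≥0∞} (hK₀ : K₀ ≠ ⊤) {A : V → ℝ≥0∞} {β : ℝ≥0∞}
    {T Q : Finset (Fin 3 → ℤ)}
    (hG : ∀ k ∈ T, ∀ x ∈ edge v ((nS, k), i), A x ^ p + β ^ p ≤ G x)
    (hT : ∀ k ∈ T, ∃ κ ∈ Q, k ∈ eInSq ((m, κ), l) nS i)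
    (hQ : ∀ κ ∈ Q, (((m, κ), l), i) ∈ S) :
    ∑ k ∈ T, ENNReal.ofReal (1 / 2 ^ nS) * (ENNReal.ofReal ((1 / 2 ^ nS) ^ (1 - p)) *
      eInt v ((nS, k), i) (gW ρ cc f K₀ A β) ^ p) ≤
      cW p K₀ * ∑ κ ∈ Q, (sInt v ((m, κ), l) (fun x => H333.tw ρ cc (f x) ^ p * G x) + δ₁) :=
  H.edges_le hp (ℓ := fun e' => eInt v e' (gW ρ cc f K₀ A β)) (cW_ne_top hp hK₀)
    (fun _ _ => le_rfl) (fun k hk x hx => gW_rpow hp (hG k hk x hx)) hT hQ

end Vale.Agent.P073.H194
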