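import Vale.Agent.P073.H194.MeshDefs

/-!
# P073, block A03-MESH: the minimal squares of the refined partition (statements)
-/

namespace Vale.Agent.P073.H194

open MeasureTheory Set Filter Topology Metric Vale.Agent.P073.St
open Vale.Agent.P073.AB (Idx Part pt edge eInt squ FaceOf EdgeOf EdgeOfSq MinSq)
open P073.Net (dyc dyo)
open scoped ENNReal

/-- generations of the neighbours -/
def NbGen (v : V) (I P : Set Idx) (n : Idx → ℕ) : Prop :=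
  ∀ q ∈ I \ P, ∀ r ∈ I, (dyc v r.1 r.2 ∩ dyc v q.1 q.2).Nonempty → r.1 ≤ n q

/-- minimal squares of a fine cell -/
def CL1 : Prop :=
  ∀ (Ω : Set V) (v : V) (I P B : Set Idx) (n : Idx → ℕ), IsOpen Ω → Part Ω v I →
    Big v I P B n → NbGen v I P n → ∀ q ∈ I \ P, ∀ i ∈ refine v I P B n, i ∉ P → i ∉ B →
    dyc v i.1 i.2 ⊆ dyc v q.1 q.2 → ∀ F, MinSq v (refine v I P B n) F →
    squ v F ⊆ dyc v i.1 i.2 →
    FaceOf F i ∨ (i.1 < F.1.1 ∧ ∃ r ∈ I \ P, r ≠ q ∧ F.1.1 = n r ∧ ∃ s, MinSq v I s ∧ F.2 = s.2 ∧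
      squ v F ⊆ squ v s ∧ squ v s ⊆ dyc v q.1 q.2 ∧ squ v s ⊆ dyc v r.1 r.2)

/-- minimal squares of a big cell -/
def CL2 : Prop :=
  ∀ (Ω : Set V) (v : V) (I P B : Set Idx) (n : Idx → ℕ), IsOpen Ω → Part Ω v I →
    Big v I P B n → NbGen v I P n → ∀ b ∈ B, ∀ q ∈ I \ P, dyc v b.1 b.2 ⊆ dyo v q.1 q.2 →
    ∀ F, MinSq v (refine v I P B n) F → squ v F ⊆ dyc v b.1 b.2 →
    F.1.1 = n q ∧ ∃ s, FaceOf s b ∧ F.2 = s.2 ∧ squ v F ⊆ squ v s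

/-- minimal squares of a kept cell -/
def CL3 : Prop :=
  ∀ (Ω : Set V) (v : V) (I P B : Set Idx) (n : Idx → ℕ), IsOpen Ω → Part Ω v I →
    Big v I P B n → NbGen v I P n → ∀ p ∈ P, ∀ F, MinSq v (refine v I P B n) F →
    squ v F ⊆ dyc v p.1 p.2 → squ v F ⊆ ⋃ r ∈ I \ P, dyc v r.1 r.2 →
    ∃ r ∈ I \ P, F.1.1 = n r ∧ ∃ s, MinSq v I s ∧ F.2 = s.2 ∧
      squ v F ⊆ squ v s ∧ squ v s ⊆ dyc v p.1 p.2 ∧ squ v s ⊆ dyc v r.1 r.2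

/-- a minimal square is in two cubes only -/
def CL4 : Prop :=
  ∀ (Ω : Set V) (v : V) (I : Set Idx), IsOpen Ω → Part Ω v I → ∀ s, MinSq v I s →
    ∀ a ∈ I, ∀ b ∈ I, ∀ c ∈ I, squ v s ⊆ dyc v a.1 a.2 → squ v s ⊆ dyc v b.1 b.2 →
    squ v s ⊆ dyc v c.1 c.2 → a = b ∨ b = c ∨ a = c

end Vale.Agent.P073.H194
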