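import Vale.Agent.P073.H194.Sums
import Vale.Agent.P073.H194.Cls

/-!
# P073, block A03-MESH: locality of the Riemann sums
-/

namespace Vale.Agent.P073.H194

open MeasureTheory Set Filter Topology Metric Vale.Agent.P073.St
open Vale.Agent.P073.SQ (ev)
open Vale.Agent.P073.AB Vale.Agent.P073.AB.P86
open P073.Net (dyc dyo)
open scoped ENNReal

variable {v : V} {H H' : V → ℝ≥0∞}

theorem pt_apply (v : V) (n : ℕ) (w : Fin 3 → ℤ) (l : Fin 3) : pt v n w l = v l + w l / 2 ^ n := rfl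

theorem edge_pt_apply (v : V) (n : ℕ) (w : Fin 3 → ℤ) (k l : Fin 3) (t : ℝ) :
    (pt v n w + t • ((1 / 2 ^ n : ℝ) • ev k)) l =
      v l + (w l + if l = k then t else 0) / 2 ^ n := by
  rw [Pi.add_apply, pt_apply, Pi.smul_apply, Pi.smul_apply, ev]
  by_cases h : l = k
  · subst h
    simp only [Pi.single_eq_same, smul_eq_mul, mul_one, if_true]
    ring
  · simp only [Pi.single_eq_of_ne h, smul_eq_mul, mul_zero, add_zero, if_neg h]

theorem cube_of_int {m n : ℕ} (h : m ≤ n) {a : ℤ} {y : ℝ} (h1 : ((2 ^ (n - m) * a : ℤ) : ℝ) ≤ y)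
    (h2 : y ≤ ((2 ^ (n - m) * (a + 1) : ℤ) : ℝ)) (w : ℝ) :
    w + a / 2 ^ m ≤ w + y / 2 ^ n ∧ w + y / 2 ^ n ≤ w + (a + 1) / 2 ^ m := by
  have e : (2:ℝ) ^ n = 2 ^ (n - m) * 2 ^ m := by rw [← pow_add, Nat.sub_add_cancel h]
  have h3 : (0:ℝ) < 2 ^ m := by positivity
  have h4 : (0:ℝ) < 2 ^ (n - m) := by positivity
  have h5 : (a : ℝ) / 2 ^ m ≤ y / 2 ^ n := by
    rw [e, div_le_div_iff₀ h3 (by positivity)]
    have := mul_le_mul_of_nonneg_right h1 h3.le
    push_cast at this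
    linarith
  have h6 : y / 2 ^ n ≤ ((a : ℝ) + 1) / 2 ^ m := by
    rw [e, div_le_div_iff₀ (by positivity) h3]
    have := mul_le_mul_of_nonneg_right h2 h3.le
    push_cast at this
    linarith
  constructor <;> linarith

theorem plane_of_int {m n : ℕ} (h : m ≤ n) {a : ℤ} :
    ((2 ^ (n - m) * a : ℤ) : ℝ) / 2 ^ n = a / 2 ^ m := by
  have e : (2:ℝ) ^ n = 2 ^ (n - m) * 2 ^ m := by rw [← pow_add, Nat.sub_add_cancel h]
  rw [e]
  push_cast
  field_simp

theorem eIn_mem {q : Idx} {n : ℕ} {k : Fin 3} (h : q.1 ≤ n) {w : Fin 3 → ℤ} (hw : w ∈ eIn q n k)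
    {t : ℝ} (ht : t ∈ Icc (0:ℝ) 1) :
    pt v n w + t • ((1 / 2 ^ n : ℝ) • ev k) ∈ dyc v q.1 q.2 := by
  intro l
  rw [edge_pt_apply]
  rw [eIn, Fintype.mem_piFinset] at hw
  have h1 := hw l
  by_cases hl : l = k
  · rw [if_pos hl, Finset.mem_Ico] at h1
    rw [if_pos hl]
    refine cube_of_int h ?_ ?_ _
    · have : ((2 ^ (n - q.1) * q.2 l : ℤ) : ℝ) ≤ w l := by exact_mod_cast h1.1
      linarith [ht.1]
    · have : ((w l + 1 : ℤ) : ℝ) ≤ ((2 ^ (n - q.1) * (q.2 l + 1) : ℤ) : ℝ) := by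
        exact_mod_cast h1.2
      push_cast at this ⊢
      linarith [ht.2]
  · rw [if_neg hl, Finset.mem_Icc] at h1
    rw [if_neg hl, add_zero]
    refine cube_of_int h ?_ ?_ _
    · exact_mod_cast h1.1
    · exact_mod_cast h1.2

theorem eInSq_mem {s : Idx × Fin 3} {n : ℕ} {k : Fin 3} (h : s.1.1 ≤ n) (hk : k ≠ s.2)
    {w : Fin 3 → ℤ} (hw : w ∈ eInSq s n k) {t : ℝ} (ht : t ∈ Icc (0:ℝ) 1) :
    pt v n w + t • ((1 / 2 ^ n : ℝ) • ev k) ∈ squ v s := by
  rw [eInSq, Fintype.mem_piFinset] at hw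
  refine ⟨?_, fun l hls => ?_⟩
  · have h1 := hw s.2
    rw [if_pos rfl, Finset.mem_singleton] at h1
    rw [edge_pt_apply, if_neg hk.symm, add_zero, h1, plane_of_int h]
  · rw [edge_pt_apply]
    have h1 := hw l
    rw [if_neg hls] at h1
    by_cases hl : l = k
    · rw [if_pos hl, Finset.mem_Ico] at h1
      rw [if_pos hl]
      refine cube_of_int h ?_ ?_ _
      · have : ((2 ^ (n - s.1.1) * s.1.2 l : ℤ) : ℝ) ≤ w l := by exact_mod_cast h1.1
        linarith [ht.1]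
      · have : ((w l + 1 : ℤ) : ℝ) ≤ ((2 ^ (n - s.1.1) * (s.1.2 l + 1) : ℤ) : ℝ) := by
          exact_mod_cast h1.2
        push_cast at this ⊢
        linarith [ht.2]
    · rw [if_neg hl, Finset.mem_Icc] at h1
      rw [if_neg hl, add_zero]
      refine cube_of_int h ?_ ?_ _
      · exact_mod_cast h1.1
      · exact_mod_cast h1.2

theorem eInt_congr {e : Idx × Fin 3}
    (h : ∀ t ∈ Icc (0:ℝ) 1, H (pt v e.1.1 e.1.2 + t • ((1 / 2 ^ e.1.1 : ℝ) • ev e.2)) =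
      H' (pt v e.1.1 e.1.2 + t • ((1 / 2 ^ e.1.1 : ℝ) • ev e.2))) :
    eInt v e H = eInt v e H' := by
  unfold eInt
  rw [setLIntegral_congr_fun measurableSet_Icc h]

theorem cSum_congr {q : Idx} {n : ℕ} (k : Fin 3) (h : q.1 ≤ n)
    (hH : ∀ x ∈ dyc v q.1 q.2, H x = H' x) : cSum v q n k H = cSum v q n k H' := by
  unfold cSum
  refine Finset.sum_congr rfl fun w hw => ?_
  rw [eInt_congr fun t ht => hH _ (eIn_mem h hw ht)]

theorem fSum_congr {s : Idx × Fin 3} {n : ℕ} {k : Fin 3} (hk : k ≠ s.2) (h : s.1.1 ≤ n)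
    (hH : ∀ x ∈ squ v s, H x = H' x) : fSum v s n k H = fSum v s n k H' := by
  unfold fSum
  refine Finset.sum_congr rfl fun w hw => ?_
  rw [eInt_congr fun t ht => hH _ (eInSq_mem h hk hw ht)]

theorem measurableSet_dyc (v : V) (m : ℕ) (z : Fin 3 → ℤ) : MeasurableSet (dyc v m z) :=
  (isCompact_dyc v m z).isClosed.measurableSet

theorem update_mem_squ {s : Idx × Fin 3} {x : V} (hx : x ∈ dyc v s.1.1 s.1.2) :
    Function.update x s.2 (pt v s.1.1 s.1.2 s.2) ∈ squ v s := by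
  refine ⟨by rw [Function.update_self, pt_apply], fun k hk => ?_⟩
  rw [Function.update_of_ne hk]
  exact hx k

theorem sInt_congr {s : Idx × Fin 3} (hH : ∀ x ∈ squ v s, H x = H' x) :
    sInt v s H = sInt v s H' := by
  unfold sInt
  rw [setLIntegral_congr_fun (measurableSet_dyc v s.1.1 s.1.2) fun x hx =>
    hH _ (update_mem_squ hx)]

theorem face_sub {F : Idx × Fin 3} {i : Idx} (h : FaceOf F i) : squ v F ⊆ dyc v i.1 i.2 := by
  rcases faceOf_iff.1 h with rfl | rfl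
  · exact squ_sub_hi
  · exact squ_sub_lo

theorem faceP_sub (b : Idx) (j : Fin 3) (σ : Bool) : squ v (faceP b j σ) ⊆ dyc v b.1 b.2 :=
  face_sub (faceOf_faceP b j σ)

theorem bInt_eq (b : Idx) : bInt v b H = ∑ j, ∑ σ : Bool, sInt v (faceP b j σ) H := by
  unfold bInt
  refine Finset.sum_congr rfl fun j _ => ?_
  rw [Fintype.sum_bool, add_comm]
  congr 2
  simp [faceP, off]

end Vale.Agent.P073.H194
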