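import Vale.Agent.P073.H73.K2A
import Vale.Agent.P073.H194.Local

/-!
# P073, block A15, [T1]: the polyhedral mesh of a partition into dyadic cubes
-/

namespace Vale.Agent.P073.H194

open MeasureTheory Set Filter Topology Metric Vale.Agent.P073.St
open Vale.Agent.P073.SQ (ev)
open Vale.Agent.P073.AB Vale.Agent.P073.AB.P86
open P073.Net (dyc dyo)
open _root_.P073 (ConHomeo)
open Vale.Agent.P073.H73 (Fat Mesh usq)
open scoped ENNReal

/-! ### Half spaces -/

/-- a closed box given by inequalities on some coordinates -/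
theorem box_half (a b : V) :
    ∃ (n : ℕ) (ν : Fin n → V →L[ℝ] ℝ) (t : Fin n → ℝ),
      {x : V | ∀ k, a k ≤ x k ∧ x k ≤ b k} = {x | ∀ i, ν i x ≤ t i} := by
  refine ⟨3 + 3, Fin.append (fun k => -ContinuousLinearMap.proj k)
    (fun k => ContinuousLinearMap.proj k), Fin.append (fun k => - a k) (fun k => b k), ?_⟩
  ext x
  constructor
  · intro hx i
    refine Fin.addCases (fun k => ?_) (fun k => ?_) i
    · rw [Fin.append_left, Fin.append_left]
      have := (hx k).1
      simpa using this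
    · rw [Fin.append_right, Fin.append_right]
      exact (hx k).2
  · intro hx k
    constructor
    · have := hx (Fin.castAdd 3 k)
      rw [Fin.append_left, Fin.append_left] at this
      simpa using this
    · have := hx (Fin.natAdd 3 k)
      rw [Fin.append_right, Fin.append_right] at this
      exact this

theorem interior_dyc (v : V) (m : ℕ) (z : Fin 3 → ℤ) : interior (dyc v m z) = dyo v m z := by
  have h1 : dyc v m z = Set.pi univ fun k => Icc (v k + z k / 2 ^ m) (v k + (z k + 1) / 2 ^ m) := by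
    ext x
    simp only [Set.mem_pi, mem_univ, true_implies]
    rfl
  rw [h1, interior_pi_set finite_univ]
  ext x
  simp only [Set.mem_pi, mem_univ, true_implies, interior_Icc]
  rfl

theorem poly_dyc (v : V) (m : ℕ) (z : Fin 3 → ℤ) : H73.Poly (dyc v m z) where
  cpt := isCompact_dyc v m z
  int := by
    rw [interior_dyc]
    exact ⟨_, cen_mem v m z⟩
  half := box_half (fun k => v k + z k / 2 ^ m) (fun k => v k + (z k + 1) / 2 ^ m)

/-! ### The chart of a square -/

/-- the affine chart of a dyadic square -/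
noncomputable def sqMap (v : V) (s : Idx × Fin 3) : ℝ × ℝ →ᵃ[ℝ] V :=
  (((ContinuousLinearMap.fst ℝ ℝ ℝ).smulRight ((1 / 2 ^ s.1.1 : ℝ) • ev (s.2 + 1)) +
    (ContinuousLinearMap.snd ℝ ℝ ℝ).smulRight ((1 / 2 ^ s.1.1 : ℝ) • ev (s.2 + 2)) :
      ℝ × ℝ →L[ℝ] V) : ℝ × ℝ →ₗ[ℝ] V).toAffineMap + AffineMap.const ℝ (ℝ × ℝ) (pt v s.1.1 s.1.2)

theorem sqMap_apply (v : V) (s : Idx × Fin 3) (x : ℝ × ℝ) :
    sqMap v s x = x.1 • ((1 / 2 ^ s.1.1 : ℝ) • ev (s.2 + 1)) +
      x.2 • ((1 / 2 ^ s.1.1 : ℝ) • ev (s.2 + 2)) + pt v s.1.1 s.1.2 := rfl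

theorem fin3_cases (k l : Fin 3) : l = k ∨ l = k + 1 ∨ l = k + 2 := by
  revert k l; decide

theorem fin3_ne1 (k : Fin 3) : k ≠ k + 1 := by revert k; decide

theorem fin3_ne2 (k : Fin 3) : k ≠ k + 2 := by revert k; decide

theorem fin3_ne3 (k : Fin 3) : k + 1 ≠ k + 2 := by revert k; decide

theorem sqMap_same (v : V) (s : Idx × Fin 3) (x : ℝ × ℝ) :
    sqMap v s x s.2 = v s.2 + s.1.2 s.2 / 2 ^ s.1.1 := by
  rw [sqMap_apply, Pi.add_apply, Pi.add_apply, Pi.smul_apply, Pi.smul_apply, Pi.smul_apply,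
    Pi.smul_apply, ev, ev, Pi.single_eq_of_ne (fin3_ne1 _), Pi.single_eq_of_ne (fin3_ne2 _),
    pt_apply]
  simp

theorem sqMap_one (v : V) (s : Idx × Fin 3) (x : ℝ × ℝ) :
    sqMap v s x (s.2 + 1) = v (s.2 + 1) + (s.1.2 (s.2 + 1) + x.1) / 2 ^ s.1.1 := by
  rw [sqMap_apply, Pi.add_apply, Pi.add_apply, Pi.smul_apply, Pi.smul_apply, Pi.smul_apply,
    Pi.smul_apply, ev, ev, Pi.single_eq_same, Pi.single_eq_of_ne (fin3_ne3 _), pt_apply]
  simp only [smul_eq_mul, mul_one, mul_zero, add_zero]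
  ring

theorem sqMap_two (v : V) (s : Idx × Fin 3) (x : ℝ × ℝ) :
    sqMap v s x (s.2 + 2) = v (s.2 + 2) + (s.1.2 (s.2 + 2) + x.2) / 2 ^ s.1.1 := by
  rw [sqMap_apply, Pi.add_apply, Pi.add_apply, Pi.smul_apply, Pi.smul_apply, Pi.smul_apply,
    Pi.smul_apply, ev, ev, Pi.single_eq_same, Pi.single_eq_of_ne (fin3_ne3 _).symm, pt_apply]
  simp only [smul_eq_mul, mul_one, mul_zero, zero_add]
  ring

theorem norm_sqMap (v : V) (s : Idx × Fin 3) (x y : ℝ × ℝ) :
    ‖sqMap v s x - sqMap v s y‖ = 1 / 2 ^ s.1.1 * ‖x - y‖ := by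
  have hp : (0:ℝ) < 2 ^ s.1.1 := by positivity
  have e0 : (sqMap v s x - sqMap v s y) s.2 = 0 := by
    rw [Pi.sub_apply, sqMap_same, sqMap_same, sub_self]
  have e1 : (sqMap v s x - sqMap v s y) (s.2 + 1) = 1 / 2 ^ s.1.1 * (x - y).1 := by
    rw [Pi.sub_apply, sqMap_one, sqMap_one, Prod.fst_sub]
    ring
  have e2 : (sqMap v s x - sqMap v s y) (s.2 + 2) = 1 / 2 ^ s.1.1 * (x - y).2 := by
    rw [Pi.sub_apply, sqMap_two, sqMap_two, Prod.snd_sub]
    ring
  have hr : (0:ℝ) ≤ 1 / 2 ^ s.1.1 := by positivity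
  apply le_antisymm
  · rw [pi_norm_le_iff_of_nonneg (by positivity)]
    intro l
    rcases fin3_cases s.2 l with rfl | rfl | rfl
    · rw [e0, norm_zero]
      positivity
    · rw [e1, norm_mul, Real.norm_of_nonneg hr]
      gcongr
      exact norm_fst_le (x - y)
    · rw [e2, norm_mul, Real.norm_of_nonneg hr]
      gcongr
      exact norm_snd_le (x - y)
  · rw [Prod.norm_def, mul_max_of_nonneg _ _ hr]
    refine max_le ?_ ?_
    · have := norm_le_pi_norm (sqMap v s x - sqMap v s y) (s.2 + 1)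
      rwa [e1, norm_mul, Real.norm_of_nonneg hr] at this
    · have := norm_le_pi_norm (sqMap v s x - sqMap v s y) (s.2 + 2)
      rwa [e2, norm_mul, Real.norm_of_nonneg hr] at this

theorem sqMap_mem (v : V) (s : Idx × Fin 3) (x : ℝ × ℝ) :
    sqMap v s x ∈ squ v s ↔ x ∈ usq := by
  have hp : (0:ℝ) < 2 ^ s.1.1 := by positivity
  have key : ∀ a t w : ℝ, (w + a / 2 ^ s.1.1 ≤ w + (a + t) / 2 ^ s.1.1 ∧
      w + (a + t) / 2 ^ s.1.1 ≤ w + (a + 1) / 2 ^ s.1.1) ↔ (0 ≤ t ∧ t ≤ 1) := by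
    intro a t w
    rw [add_le_add_iff_left, add_le_add_iff_left, div_le_div_iff_of_pos_right hp,
      div_le_div_iff_of_pos_right hp]
    constructor
    · rintro ⟨h1, h2⟩
      constructor <;> linarith
    · rintro ⟨h1, h2⟩
      constructor <;> linarith
  constructor
  · rintro ⟨-, h⟩
    have h1 := h (s.2 + 1) (fin3_ne1 _).symm
    have h2 := h (s.2 + 2) (fin3_ne2 _).symm
    rw [sqMap_one, key] at h1
    rw [sqMap_two, key] at h2
    exact ⟨h1, h2⟩
  · rintro ⟨h1, h2⟩
    refine ⟨sqMap_same v s x, fun l hl => ?_⟩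
    rcases fin3_cases s.2 l with rfl | rfl | rfl
    · exact absurd rfl hl
    · rw [sqMap_one, key]
      exact h1
    · rw [sqMap_two, key]
      exact h2

theorem sqMap_image (v : V) (s : Idx × Fin 3) : sqMap v s '' usq = squ v s := by
  have hp : (0:ℝ) < 2 ^ s.1.1 := by positivity
  apply Subset.antisymm
  · rintro _ ⟨x, hx, rfl⟩
    exact (sqMap_mem v s x).2 hx
  · intro y hy
    let x : ℝ × ℝ := (2 ^ s.1.1 * (y (s.2 + 1) - v (s.2 + 1)) - s.1.2 (s.2 + 1),
      2 ^ s.1.1 * (y (s.2 + 2) - v (s.2 + 2)) - s.1.2 (s.2 + 2))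
    have hxy : sqMap v s x = y := by
      funext l
      rcases fin3_cases s.2 l with rfl | rfl | rfl
      · rw [sqMap_same]
        exact hy.1.symm
      · rw [sqMap_one]
        simp only [x]
        field_simp
        ring
      · rw [sqMap_two]
        simp only [x]
        field_simp
        ring
    refine ⟨x, ?_, hxy⟩
    rw [← sqMap_mem v s, hxy]
    exact hy

theorem isCompact_usq : IsCompact usq := isCompact_Icc.prod isCompact_Icc

/-- **A dyadic square is fat** -/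
theorem fat_squ (v : V) (s : Idx × Fin 3) : Fat 1 (1 / 2 ^ s.1.1) (squ v s) where
  half := by
    have h := box_half (fun k => v k + s.1.2 k / 2 ^ s.1.1)
      (fun k => if k = s.2 then v k + s.1.2 k / 2 ^ s.1.1 else v k + (s.1.2 k + 1) / 2 ^ s.1.1)
    obtain ⟨n, ν, t, h⟩ := h
    refine ⟨n, ν, t, ?_⟩
    rw [← h]
    ext x
    constructor
    · rintro ⟨h1, h2⟩ k
      by_cases hk : k = s.2
      · subst hk
        rw [if_pos rfl]
        exact ⟨h1.ge, h1.le⟩
      · rw [if_neg hk]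
        exact h2 k hk
    · intro hx
      refine ⟨?_, fun k hk => ?_⟩
      · have := hx s.2
        rw [if_pos rfl] at this
        exact le_antisymm this.2 this.1
      · have := hx k
        rw [if_neg hk] at this
        exact this
  plane := ⟨ContinuousLinearMap.proj s.2, v s.2 + s.1.2 s.2 / 2 ^ s.1.1, fun h => by
    have := congrArg (fun L : V →L[ℝ] ℝ => L (ev s.2)) h
    simp [ev] at this, fun x hx => hx.1⟩
  chart := by
    have hr : (0:ℝ) < 1 / 2 ^ s.1.1 := by positivity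
    have hc : Continuous fun x => sqMap v s x := by
      have : (fun x => sqMap v s x) = fun x : ℝ × ℝ =>
        x.1 • ((1 / 2 ^ s.1.1 : ℝ) • ev (s.2 + 1)) +
        x.2 • ((1 / 2 ^ s.1.1 : ℝ) • ev (s.2 + 2)) + pt v s.1.1 s.1.2 := rfl
      rw [this]
      fun_prop
    have hinj : InjOn (fun x => sqMap v s x) usq := by
      intro x _ y _ hxy
      have h1 := norm_sqMap v s x y
      have hxy' : sqMap v s x = sqMap v s y := hxy
      rw [hxy', sub_self, norm_zero] at h1
      have h2 : ‖x - y‖ = 0 := by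
        rcases mul_eq_zero.1 h1.symm with h | h
        · exact absurd h hr.ne'
        · exact h
      exact sub_eq_zero.1 (norm_eq_zero.1 h2)
    have hcon : _root_.P073.ConicalOn (fun x => sqMap v s x) usq :=
      _root_.P073.conicalOn_of_affine (sqMap v s)
        (_root_.P073.Convex.conicalSet ((convex_Icc 0 1).prod (convex_Icc 0 1)))
    obtain ⟨φ, hφ⟩ : ∃ φ : ConHomeo usq (squ v s), ∀ x ∈ usq, φ.toFun x = sqMap v s x := by
      refine ⟨ConHomeo.ofCompact isCompact_usq (fun x => sqMap v s x) hc.continuousOn hinj hcon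
        (sqMap_image v s), fun x hx => ?_⟩
      simp
    refine ⟨φ, fun x hx y hy => ?_, fun x hx y hy => ?_⟩
    · rw [hφ x hx, hφ y hy, norm_sqMap, one_mul]
    · rw [hφ x hx, hφ y hy, norm_sqMap, one_mul]

/-- the relative interior of a square -/
theorem intrinsic_squ (v : V) (s : Idx × Fin 3) : intrinsicInterior ℝ (squ v s) ⊆ rel v s := by
  intro x hx
  have hxs : x ∈ squ v s := intrinsicInterior_subset hx
  have hc : sc v s ∈ squ v s := rel_sub sc_mem
  obtain ⟨y, hy, rfl⟩ := hx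
  -- extend the segment from the centre beyond `x`
  obtain ⟨t, ht, hts⟩ : ∃ t : ℝ, 1 < t ∧ AffineMap.lineMap (sc v s) (y : V) t ∈ squ v s := by
    have hcs : sc v s ∈ affineSpan ℝ (squ v s) := subset_affineSpan ℝ _ hc
    let γ : ℝ → affineSpan ℝ (squ v s) := fun t =>
      ⟨AffineMap.lineMap (sc v s) (y : V) t, AffineMap.lineMap_mem t hcs y.2⟩
    have hγ : Continuous γ := by
      refine Continuous.subtype_mk ?_ _
      exact AffineMap.lineMap_continuous
    have hγ1 : γ 1 = y := Subtype.ext (AffineMap.lineMap_apply_one _ _)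
    have h1 : ∀ᶠ t in 𝓝 (1:ℝ), γ t ∈ interior ((↑) ⁻¹' squ v s : Set (affineSpan ℝ (squ v s))) :=
      hγ.continuousAt.eventually_mem (by rw [hγ1]; exact isOpen_interior.mem_nhds hy)
    have h2 : ∀ᶠ t in 𝓝[>] (1:ℝ), γ t ∈ interior ((↑) ⁻¹' squ v s : Set _) :=
      h1.filter_mono nhdsWithin_le_nhds
    obtain ⟨t, ht, ht1⟩ := (h2.and self_mem_nhdsWithin).exists
    exact ⟨t, ht1, (interior_subset ht : γ t ∈ (↑) ⁻¹' squ v s)⟩
  refine ⟨hxs.1, fun k hk => ?_⟩
  have h1 := hxs.2 k hk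
  have h2 := hts.2 k hk
  have h3 := (sc_mem (v := v) (s := s)).2 k hk
  rw [AffineMap.lineMap_apply] at h2
  simp only [vsub_eq_sub, vadd_eq_add, Pi.add_apply, Pi.smul_apply, Pi.sub_apply,
    smul_eq_mul] at h2
  constructor
  · by_contra h
    have h4 : (y : V) k = v k + s.1.2 k / 2 ^ s.1.1 := le_antisymm (not_lt.1 h) h1.1
    nlinarith [h2.1, h3.1]
  · by_contra h
    have h4 : (y : V) k = v k + (s.1.2 k + 1) / 2 ^ s.1.1 := le_antisymm h1.2 (not_lt.1 h)
    nlinarith [h2.2, h3.2]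

/-- **[T1] the mesh of a partition** -/
noncomputable def partMesh {Ω : Set V} {v : V} {I : Set Idx} (hΩ : IsOpen Ω) (hI : Part Ω v I) :
    Mesh Ω where
  ι := {q : Idx // q ∈ I}
  κ := {s : Idx × Fin 3 // MinSq v I s}
  Q := fun i => dyc v i.1.1 i.1.2
  F := fun k => squ v k.1
  c := fun _ => 1
  r := fun k => 1 / 2 ^ k.1.1.1
  poly := fun i => poly_dyc v _ _
  sub := fun i => hI.sub _ i.2
  cover := fun x hx => by
    obtain ⟨q, hq, hxq⟩ := hI.cover x hx
    exact ⟨⟨q, hq⟩, hxq⟩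
  disj := fun i j hij => by
    rw [interior_dyc]
    exact hI.disj _ i.2 _ j.2 fun h => hij (Subtype.ext h)
  fin := fun K hK hKc => by
    have h := hI.fin K hK hKc
    refine Set.Finite.of_finite_image (f := Subtype.val) (h.subset ?_) Subtype.val_injective.injOn
    rintro _ ⟨i, hi, rfl⟩
    exact ⟨i.2, hi⟩
  rpos := fun k => by positivity
  fat := fun k => fat_squ v k.1
  two := fun k => by
    obtain ⟨qp, qm, h⟩ := two_of_minSq hΩ hI k.2
    refine ⟨⟨qp, h.memp⟩, ⟨qm, h.memm⟩, fun he => ?_, fun x hx =>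
      ⟨h.subp (squ_sub_hi hx), h.subm (squ_sub_lo hx)⟩⟩
    -- the two cubes are different
    have he' : qp = qm := congrArg Subtype.val he
    subst he'
    obtain ⟨⟨c, hc, hf⟩, -⟩ := k.2
    have hne : lo k.1 ≠ k.1.1.2 := fun h => by
      have h2 := congrFun h k.1.2
      rw [lo_same] at h2
      omega
    rcases faceOf_iff.1 hf with h1 | h1
    · have h2 : c = qp := eq_of_sub hI hc h.memp (by rw [h1]; exact h.subp)
      have h3 := h.subm
      rw [← h2, h1] at h3
      exact hne (eq_of_sub_same h3)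
    · have h2 : c = qp := eq_of_sub hI hc h.memp (by rw [h1]; exact h.subm)
      have h3 := h.subp
      rw [← h2, h1] at h3
      exact hne (eq_of_sub_same h3).symm
  bd := fun i x hx => by
    have hxi : x ∈ dyc v i.1.1 i.1.2 := (isCompact_dyc v _ _).isClosed.frontier_subset hx
    have hxo : x ∉ dyo v i.1.1 i.1.2 := by
      rw [← interior_dyc]
      exact hx.2
    have hex : ∃ l : Fin 3, x l = v l + i.1.2 l / 2 ^ i.1.1 ∨
        x l = v l + (i.1.2 l + 1) / 2 ^ i.1.1 := by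
      by_contra hcon
      push Not at hcon
      refine hxo fun l => ⟨lt_of_le_of_ne (hxi l).1 (hcon l).1.symm,
        lt_of_le_of_ne (hxi l).2 (hcon l).2⟩
    obtain ⟨l, hl⟩ := hex
    obtain ⟨s, h1, h2, h3⟩ := bd_cover hΩ hI i.2 hxi hl
    exact ⟨⟨s, h1⟩, h2, h3⟩
  fdisj := fun k l hkl => by
    rw [Set.disjoint_left]
    intro x hx hxl
    exact hkl (Subtype.ext (sq_disj hΩ hI k.2 l.2 (intrinsic_squ v _ hx) hxl))
  ffin := fun K hK hKc => by
    have h1 := hI.fin K hK hKc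
    have h2 : {s : Idx × Fin 3 | MinSq v I s ∧ (squ v s ∩ K).Nonempty}.Finite := by
      refine (h1.biUnion (fun r _ => finite_face r)).subset ?_
      rintro s ⟨⟨⟨r, hr, hf⟩, -⟩, x, hx, hxK⟩
      exact mem_biUnion (x := r) ⟨hr, x, face_sub hf hx, hxK⟩ hf
    refine Set.Finite.of_finite_image (f := Subtype.val) (h2.subset ?_)
      Subtype.val_injective.injOn
    rintro _ ⟨k, hk, rfl⟩
    exact ⟨k.2, hk⟩

end Vale.Agent.P073.H194
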