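import Vale.Agent.P073.H194.MeshDefs
import Vale.Agent.P073.AB.SumDefs
import Mathlib.MeasureTheory.Integral.MeanInequalities
import Mathlib.Analysis.MeanInequalitiesPow

/-!
# P073, block A03-MESH: from lengths of edges to energies
-/

namespace Vale.Agent.P073.H194

open MeasureTheory Set Filter Topology Metric Vale.Agent.P073.St
open Vale.Agent.P073.SQ (ev)
open Vale.Agent.P073.AB (Idx Part pt edge eInt squ FaceOf EdgeOf EdgeOfSq MinSq sqE mem_sqE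
  card_sqE_le)
open P073.Net (dyc dyo)
open scoped ENNReal

/-- Jensen for the unit interval -/
theorem lintegral_rpow_le_unit {p : ℝ} (hp : 1 ≤ p) (g : ℝ → ℝ≥0∞) :
    (∫⁻ t in Icc (0:ℝ) 1, g t) ^ p ≤ ∫⁻ t in Icc (0:ℝ) 1, g t ^ p := by
  obtain ⟨φ, hφ, hle, he⟩ := exists_measurable_le_lintegral_eq (volume.restrict (Icc (0:ℝ) 1)) g
  rw [he]
  have h2 : ∫⁻ t in Icc (0:ℝ) 1, φ t ^ p ≤ ∫⁻ t in Icc (0:ℝ) 1, g t ^ p :=
    lintegral_mono fun t => ENNReal.rpow_le_rpow (hle t) (by linarith)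
  refine le_trans ?_ h2
  rcases eq_or_lt_of_le hp with h1 | h1
  · rw [← h1]
    simp
  · have hpq : p.HolderConjugate (p / (p - 1)) := Real.HolderConjugate.conjExponent h1
    have h3 := ENNReal.lintegral_mul_le_Lp_mul_Lq (volume.restrict (Icc (0:ℝ) 1)) hpq
      hφ.aemeasurable (aemeasurable_const (b := (1:ℝ≥0∞)))
    simp only [Pi.mul_apply, mul_one, ENNReal.one_rpow, lintegral_const,
      Measure.restrict_apply_univ, Real.volume_Icc, sub_zero, ENNReal.ofReal_one] at h3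
    have h4 := ENNReal.rpow_le_rpow h3 (by linarith : (0:ℝ) ≤ p)
    rwa [← ENNReal.rpow_mul, one_div, inv_mul_cancel₀ (by linarith), ENNReal.rpow_one] at h4

/-- Hoelder on an edge -/
theorem eInt_rpow_le {p : ℝ} (hp : 1 ≤ p) (v : V) (e : Idx × Fin 3) (g : V → ℝ≥0∞) :
    eInt v e g ^ p ≤ ENNReal.ofReal ((1 / 2 ^ e.1.1) ^ (p - 1)) * eInt v e (fun x => g x ^ p) := by
  have hr : (0:ℝ) < 1 / 2 ^ e.1.1 := by positivity
  unfold eInt
  rw [ENNReal.mul_rpow_of_nonneg _ _ (by linarith), ENNReal.ofReal_rpow_of_pos hr, ← mul_assoc,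
    ← ENNReal.ofReal_mul (by positivity)]
  have h1 : (1 / 2 ^ e.1.1 : ℝ) ^ (p - 1) * (1 / 2 ^ e.1.1) = (1 / 2 ^ e.1.1) ^ p := by
    conv_lhs => rw [← Real.rpow_one (1 / 2 ^ e.1.1 : ℝ), ← Real.rpow_mul hr.le, one_mul]
    rw [← Real.rpow_add hr]
    congr 1
    ring
  rw [h1]
  gcongr
  exact lintegral_rpow_le_unit hp _

/-- energies of the minimal squares of the cell `i`: a map which is Lipschitz on every minimal
square `F`, with constant `2^F` times the length of the boundary, has the face energies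
`faceT`. -/
noncomputable def faceT (p : ℝ) (v : V) (I : Set Idx) (A : Set V) (ℓ : Idx × Fin 3 → ℝ≥0∞)
    (i : Idx) : ℝ≥0∞ :=
  ∑' F : {F : Idx × Fin 3 // MinSq v I F ∧ squ v F ⊆ dyc v i.1 i.2 ∧ squ v F ⊆ A},
    ENNReal.ofReal (1 / 2 ^ i.1 * (1 / 2 ^ F.1.1.1) ^ (2 - p)) * (∑ e ∈ sqE F.1, ℓ e) ^ p

/-- Hoelder on a square -/
theorem sq_rpow_le {p : ℝ} (hp : 1 ≤ p) (v : V) (F : Idx × Fin 3) (g : V → ℝ≥0∞) :
    ENNReal.ofReal ((1 / 2 ^ F.1.1) ^ (2 - p)) * (∑ e ∈ sqE F, eInt v e g) ^ p ≤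
      4 ^ (p - 1) * (ENNReal.ofReal (1 / 2 ^ F.1.1) *
        ∑ e ∈ sqE F, eInt v e (fun x => g x ^ p)) := by
  have hr : (0:ℝ) < 1 / 2 ^ F.1.1 := by positivity
  have h1 : (∑ e ∈ sqE F, eInt v e g) ^ p ≤ 4 ^ (p - 1) * ∑ e ∈ sqE F, eInt v e g ^ p := by
    refine (ENNReal.rpow_sum_le_const_mul_sum_rpow _ _ hp).trans ?_
    gcongr
    exact_mod_cast card_sqE_le F
  have h2 : ∑ e ∈ sqE F, eInt v e g ^ p ≤ ENNReal.ofReal ((1 / 2 ^ F.1.1) ^ (p - 1)) *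
      ∑ e ∈ sqE F, eInt v e (fun x => g x ^ p) := by
    rw [Finset.mul_sum]
    refine Finset.sum_le_sum fun e he => ?_
    have h3 := eInt_rpow_le hp v e g
    rwa [(mem_sqE.1 he).1] at h3
  have h3 : (1 / 2 ^ F.1.1 : ℝ) ^ (2 - p) * (1 / 2 ^ F.1.1) ^ (p - 1) = 1 / 2 ^ F.1.1 := by
    rw [← Real.rpow_add hr]
    rw [show (2 - p + (p - 1) : ℝ) = 1 by ring, Real.rpow_one]
  calc ENNReal.ofReal ((1 / 2 ^ F.1.1) ^ (2 - p)) * (∑ e ∈ sqE F, eInt v e g) ^ p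
      ≤ ENNReal.ofReal ((1 / 2 ^ F.1.1) ^ (2 - p)) * (4 ^ (p - 1) *
        (ENNReal.ofReal ((1 / 2 ^ F.1.1) ^ (p - 1)) *
          ∑ e ∈ sqE F, eInt v e (fun x => g x ^ p))) := by
        gcongr
        exact h1.trans (by gcongr)
    _ = 4 ^ (p - 1) * ((ENNReal.ofReal ((1 / 2 ^ F.1.1) ^ (2 - p)) *
        ENNReal.ofReal ((1 / 2 ^ F.1.1) ^ (p - 1))) *
          ∑ e ∈ sqE F, eInt v e (fun x => g x ^ p)) := by ring
    _ = _ := by rw [← ENNReal.ofReal_mul (by positivity), h3]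

/-- **Face energies are bounded by the weighted edge sums.** -/
theorem faceT_le {p : ℝ} (hp : 1 ≤ p) (v : V) (I : Set Idx) (A : Set V) (g : V → ℝ≥0∞)
    (i : Idx) : faceT p v I A (fun e => eInt v e g) i ≤
      4 ^ (p - 1) * cellT v I A (fun x => g x ^ p) i := by
  unfold faceT cellT
  rw [← ENNReal.tsum_mul_left]
  refine ENNReal.tsum_le_tsum fun F => ?_
  have h1 : ∑' e : {e : Idx × Fin 3 // EdgeOfSq e F.1},
      ENNReal.ofReal (1 / 2 ^ i.1 * (1 / 2 ^ F.1.1.1)) * eInt v e.1 (fun x => g x ^ p) =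
      ENNReal.ofReal (1 / 2 ^ i.1 * (1 / 2 ^ F.1.1.1)) *
        ∑ e ∈ sqE F.1, eInt v e (fun x => g x ^ p) := by
    rw [ENNReal.tsum_mul_left]
    congr 1
    have h2 : {e : Idx × Fin 3 | EdgeOfSq e F.1} = ((sqE F.1 : Finset (Idx × Fin 3)) : Set _) := by
      ext e
      rw [Finset.mem_coe, mem_sqE]
      rfl
    show ∑' e : ({e : Idx × Fin 3 | EdgeOfSq e F.1} : Set (Idx × Fin 3)),
      eInt v e.1 (fun x => g x ^ p) = _
    rw [h2]
    exact Finset.tsum_subtype' (sqE F.1) (fun e => eInt v e (fun x => g x ^ p))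
  rw [h1, ENNReal.ofReal_mul (by positivity), ENNReal.ofReal_mul (by positivity), mul_assoc]
  calc _ ≤ ENNReal.ofReal (1 / 2 ^ i.1) * (4 ^ (p - 1) * (ENNReal.ofReal (1 / 2 ^ F.1.1.1) *
        ∑ e ∈ sqE F.1, eInt v e (fun x => g x ^ p))) :=
        mul_le_mul_right (sq_rpow_le hp v F.1 g) _
    _ = _ := by ring

end Vale.Agent.P073.H194
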