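import Vale.Agent.P073.H194.FaceTop
import Vale.Agent.P073.H142.FaceI
import Vale.Agent.P073.H193.BandT
import Vale.Agent.P073.H237.LipW

/-!
# P073, [CELL3]: the faces of a cell drawn in a tube which are neither peeled nor protected

* `S4.f5_wc_dir`: the direction of the tube on the passive cells with a given map;
* `faceCl_Tgiv`: the clauses of the face for the sum of the bands of the tube.
-/

open Set Metric Topology Filter MeasureTheory
open scoped ENNReal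

set_option linter.unusedSectionVars false

namespace Vale.Agent.P073.H193

open _root_.P073 _root_.P073.Net _root_.P073.PA691 _root_.P073.H936 _root_.P073.H936.K3
  _root_.P073.H142 _root_.P073.H880 _root_.P073.H880.RP _root_.P073.H345 _root_.P073.H236
  _root_.P073.H579 _root_.P073.H919 _root_.P073.H228 _root_.P073.H429
open Vale.Agent.P073
open Vale.Agent.P073.St (V)
open Vale.Agent.P073.AB (Idx squ)
open Vale.Agent.P073.H73 (Mesh)
open Vale.Agent.P073.H471 Vale.Agent.P073.H267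
open Vale.Agent.P073.H926
open Vale.Agent.P073.H238.K3 (Zd Wc Act TOut3)
open Vale.Agent.P073.H267.K3

variable {c₀ n δ : ℝ} {j : ℕ} {Ω Λ : Set V} {v w : V} {ρ : V → ℝ} {M : Mesh Ω} {h : ConHomeo Ω Λ}
  {J₀ J : Set (ℕ × (Fin 3 → ℤ))} {P Z : Set M.ι} {K : BoxCx Λ w}
  {D : KIn3 c₀ n j δ v w ρ M h J₀ J P Z} {C : Cells ρ w K} {C₀ μT : ℝ}
  {X : S1 D C C₀ μT} {Y₂ : S2 X} {Ys : Set M.κ} {sc : Sharp} {Y₃ : S3 Y₂ Ys sc} {Y₄ : S4 Y₃}

/-- the constants of a face, larger numbers -/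
theorem con_mono_b {k : M.κ} {T : FStar (edges M) k} {b bb : (edges M).ε → ℝ} {C₁ : ℝ}
    (hC : 0 ≤ C₁) (hb : ∀ e, (edges M).seg e ⊆ M.F k → b e ≤ bb e) {e : (edges M).ε}
    (he : (edges M).seg e ⊆ M.F k) : T.con C₁ b e ≤ T.con C₁ bb e := by
  unfold FStar.con
  refine mul_le_mul_of_nonneg_left (add_le_add ?_ ?_) hC
  · exact div_le_div_of_nonneg_right (hb e he) (norm_nonneg _)
  · refine div_le_div_of_nonneg_right (Finset.sum_le_sum fun e' he' => hb e' ?_) T.rho_pos.le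
    exact ((edges M).fin_face k).mem_toFinset.1 he'

/-- **the direction of the tube on the passive cells with a given map** -/
theorem f5_wc_dir (Y₄ : S4 Y₃) (hC : 1 ≤ C₀) {i : M.ι} (hi : i ∈ Wc D C) {L : ℝ} (hL : 0 < L)
    (hLip : ∀ x ∈ M.Q i, ∀ y ∈ M.Q i, ‖h.toFun x - h.toFun y‖ ≤ L * ‖x - y‖) {x : V}
    (hx : x ∈ M.Q i) {b : pG C J₀} (hb : Y₄.f5.toFun x ∈ (D.B C).E b.1) :
    ∀ᶠ y in 𝓝[M.Q i] x, |Y₄.f5.toFun y (K.dir b.1) - Y₄.f5.toFun x (K.dir b.1)| ≤
      C₀ * L * ‖y - x‖ := by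
  have h5 := Y₄.wc_f5 hi
  rw [h5 hx] at hb ⊢
  rcases X.wc_cases hC hi hL hLip hx with h1 | ⟨k, -, -, h2⟩ | ⟨e, -, h1, -, -, h4⟩
  · filter_upwards [h1, self_mem_nhdsWithin] with y h2 hy
    rw [h5 hy]
    refine (h2 _).trans (mul_le_mul_of_nonneg_right ?_ (norm_nonneg _))
    nlinarith
  · exact absurd hb (h2 b.1)
  · obtain rfl : e = b.1 := by
      by_contra hne
      exact Set.disjoint_left.1 (disjoint_se (W := D.W C) hne) h1
        (Ze_subset ((D.B C).E_subset b.1 hb))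
    filter_upwards [h4, self_mem_nhdsWithin] with y h6 hy
    rw [h5 hy]
    exact h6

/-- **the faces of a cell drawn in a tube** which are neither peeled nor protected -/
theorem faceCl_Tgiv (Y₅ : S5 Y₄) (hC : 1 ≤ C₀) {a₁ : ℝ} (ha₁ : 1 ≤ a₁) {τ : M.κ → ℝ}
    (hτe : ∀ k e, (edges M).seg e ⊆ M.F k → τ k * ‖(edges M).b e - (edges M).a e‖ ≤ X.bn e)
    {b : pG C J₀}
    -- 142's estimate of the bands
    (hTg : ∀ k, k ∈ (D.dat C).DF → k ∉ (D.dat C).Peel (D.G C) X.h1 → ∀ x ∈ M.F k,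
      Y₄.f5.toFun x ∈ YB (YT (D.G C) (pS C J₀)) b.1 → ∀ᶠ y in 𝓝[M.F k] x,
        bds (Y₅.Th b) (Y₄.f5.toFun y (K.dir b.1)) (Y₄.f5.toFun x (K.dir b.1)) ≤
          a₁ * wcst D C X.h1.toFun k x y + τ k * ‖y - x‖)
    {i : M.ι} (hi : i ∈ ZbT Y₄ b) {k : M.κ} (hk : M.F k ⊆ M.Q i)
    (hkP : ∀ i' ∈ P, ¬ M.F k ⊆ M.Q i') (hkn : k ∉ (D.dat C).Peel (D.G C) X.h1)
    {bb : (edges M).ε → ℝ} (hb : ∀ e, (edges M).seg e ⊆ M.F k → X.bn e ≤ bb e)
    (hL : ∀ i' ∈ Wc D C, M.F k ⊆ M.Q i' → ∃ L > 0,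
      (∀ x ∈ M.Q i', ∀ y ∈ M.Q i', ‖h.toFun x - h.toFun y‖ ≤ L * ‖x - y‖) ∧
      ∀ e, (edges M).seg e ⊆ M.F k → L * ‖(edges M).b e - (edges M).a e‖ ≤ bb e) {Cc : ℝ}
    (hCc : 55 * (6 * a₁ * C₀ + 1) ≤ Cc) :
    FaceCl M k (X.T k) bb Cc Cc (fun x y =>
      bds (Y₅.Th b) (Y₄.f5.toFun x (K.dir b.1)) (Y₄.f5.toFun y (K.dir b.1))) := by
  have hDF : k ∈ (D.dat C).DF := ⟨⟨i, hi.1.1, hk⟩, hkP⟩
  obtain ⟨sq, hsq⟩ := D.face_Zmax hi.1.1 hk
  have hσ : (0:ℝ) < 1 / 2 / 2 ^ sq.1.1 := by positivity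
  have hF := hsq.trans (H687.squ_eq_sqr v sq)
  have hC0 : 0 ≤ C₀ := by linarith
  have ha0 : 0 ≤ a₁ := by linarith
  have hA0 : 0 ≤ a₁ * C₀ := mul_nonneg ha0 hC0
  have hbb0 : ∀ e, (edges M).seg e ⊆ M.F k → 0 ≤ bb e := fun e he =>
    (X.num.b_pos e).le.trans (hb e he)
  have hf5 : ∀ x ∈ M.F k, Y₄.f5.toFun x ∈ YB (YT (D.G C) (pS C J₀)) b.1 := fun x hx =>
    interior_subset (hi.2.2 ⟨x, hk hx, rfl⟩)
  have hsum : ∀ e, (edges M).seg e ⊆ M.F k →
      0 ≤ (∑ e ∈ ((edges M).fin_face k).toFinset, bb e) / (X.T k).rho := fun e he =>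
    div_nonneg (Finset.sum_nonneg fun e' he' => hbb0 e' (((edges M).fin_face k).mem_toFinset.1 he'))
      (X.T k).rho_pos.le
  -- one local estimate
  have hloc : ∀ e, (edges M).seg e ⊆ M.F k → ∀ x ∈ coneSetAt (X.T k).O ((edges M).seg e),
      ∀ᶠ y in 𝓝[coneSetAt (X.T k).O ((edges M).seg e)] x,
        |tot (Y₅.Th b) (Y₄.f5.toFun y (K.dir b.1)) - tot (Y₅.Th b) (Y₄.f5.toFun x (K.dir b.1))| ≤
          (X.T k).con (6 * a₁ * C₀ + 1) bb e * ‖y - x‖ := by
    intro e he x hx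
    have hsub := (X.T k).cone_sub he
    have hcon0 : 0 ≤ (X.T k).con 1 bb e := (X.T k).con_nonneg zero_le_one hbb0 he
    by_cases hact : k ∈ Vale.Agent.P073.H238.K3.Act D C
    · filter_upwards [nhdsWithin_mono _ hsub (hTg k hDF hkn x (hsub hx) (hf5 x (hsub hx))),
        self_mem_nhdsWithin] with y h1 hy
      rw [bds_eq] at h1
      refine h1.trans ?_
      have h2 := X.num.Lf_le k e he
      obtain ⟨-, e1, e2⟩ := (X.T k).sq _ _ _ hσ hF
      rw [e1, e2, div_self hσ.ne'] at h2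
      have h3 : (X.T k).con (C₀ * (1 + 1)) X.bn e ≤ (X.T k).con (C₀ * (1 + 1)) bb e :=
        con_mono_b (by linarith) hb he
      have h4 : wcst D C X.h1.toFun k x y ≤ 3 * (X.Lf k e * ‖x - y‖) := by
        have h0 := X.num.Lf_nonneg k e
        refine wcst_le (by positivity) fun b' hb' hin => ?_
        exact X.out.cone k hact ⟨b', hb'⟩ hin e he x hx y hy
      have h5 : τ k ≤ (X.T k).con 1 bb e := by
        have h6 : τ k ≤ bb e / ‖(edges M).b e - (edges M).a e‖ := by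
          rw [le_div_iff₀ (elen_pos (edges M) e)]
          exact (hτe k e he).trans (hb e he)
        have := hsum e he
        unfold FStar.con
        linarith
      have hN := norm_nonneg (y - x)
      rw [norm_sub_rev x y] at h4
      have h6 := mul_le_mul_of_nonneg_right (h2.trans h3) hN
      have h7 := mul_le_mul_of_nonneg_right h5 hN
      have h8 : (X.T k).con (C₀ * (1 + 1)) bb e = 2 * C₀ * (X.T k).con 1 bb e := by
        rw [← (X.T k).con_mul]
        congr 1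
        ring
      have h9 : (X.T k).con (6 * a₁ * C₀ + 1) bb e = (6 * a₁ * C₀ + 1) * (X.T k).con 1 bb e := by
        rw [← (X.T k).con_mul]
        congr 1
        ring
      rw [h8] at h6
      rw [h9]
      calc a₁ * wcst D C X.h1.toFun k x y + τ k * ‖y - x‖
          ≤ a₁ * (3 * (2 * C₀ * (X.T k).con 1 bb e * ‖y - x‖)) +
            (X.T k).con 1 bb e * ‖y - x‖ := by
            refine add_le_add (mul_le_mul_of_nonneg_left ?_ ha0) h7
            exact h4.trans (mul_le_mul_of_nonneg_left h6 (by norm_num))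
        _ = (6 * a₁ * C₀ + 1) * (X.T k).con 1 bb e * ‖y - x‖ := by ring
    · -- the face of a passive cell with a given map
      obtain ⟨i', hi', hki'⟩ : ∃ i' ∈ Wc D C, M.F k ⊆ M.Q i' := by
        by_contra hno
        push Not at hno
        refine hact ?_
        rintro i' (h1 | h1) h2
        · exact hkP i' h1 h2
        · exact hno i' h1 h2
      obtain ⟨L, hL0, hLip, hLe⟩ := hL i' hi' hki'
      have h1 := f5_wc_dir Y₄ hC hi' hL0 hLip (hki' (hsub hx)) (b := b)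
        (YB_sub_E _ _ (hf5 x (hsub hx)))
      filter_upwards [nhdsWithin_mono _ (hsub.trans hki') h1] with y h2
      rw [← bds_eq]
      refine (bds_le _ _ _).trans (h2.trans (mul_le_mul_of_nonneg_right ?_ (norm_nonneg _)))
      have h3 : L ≤ (X.T k).con 1 bb e := by
        have h6 : L ≤ bb e / ‖(edges M).b e - (edges M).a e‖ := by
          rw [le_div_iff₀ (elen_pos (edges M) e)]
          exact hLe e he
        have := hsum e he
        unfold FStar.con
        linarith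
      have h9 : (X.T k).con (6 * a₁ * C₀ + 1) bb e = (6 * a₁ * C₀ + 1) * (X.T k).con 1 bb e := by
        rw [← (X.T k).con_mul]
        congr 1
        ring
      rw [h9]
      refine mul_le_mul ?_ h3 hL0.le (by linarith)
      nlinarith
  have h0 : 0 ≤ 6 * a₁ * C₀ + 1 := by linarith
  have key := faceCl_of_loc (T := X.T k) hsq hbb0 h0 zero_le_one
    (g := fun x => tot (Y₅.Th b) (Y₄.f5.toFun x (K.dir b.1))) hloc
  refine key.mono hbb0 (fun x _ y _ => ?_) (by linarith) (by linarith)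
  rw [one_mul, bds_eq]

end Vale.Agent.P073.H193
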