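import Vale.Agent.P073.H142.FaceJ
import Vale.Agent.P073.H193.BandT

/-!
# P073, [CELL3]: the bands of a tube on the drawn faces which are not peeled

`S5.hTg`: 142's `f5_tube` with the numbers `GivNum`.
-/

open Set Metric Topology Filter

set_option linter.unusedSectionVars false

namespace Vale.Agent.P073.H267.K3

open _root_.P073 _root_.P073.Net _root_.P073.PA691 _root_.P073.TM _root_.P073.H236
open _root_.P073.H429 _root_.P073.H880 _root_.P073.H880.RP _root_.P073.H936 _root_.P073.H936.K3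
open _root_.P073.H345 _root_.P073.H579 _root_.P073.H919 _root_.P073.H196 _root_.P073.H142
  _root_.P073.H228
open Vale.Agent.P073.St (V)
open Vale.Agent.P073.H73 (Mesh)
open Vale.Agent.P073.H471 Vale.Agent.P073.H267
open Vale.Agent.P073.H304 (Nb In Zmax)
open Vale.Agent.P073.H926
open Vale.Agent.P073.H238.K3 (Zd Wc Act TOut3)
open _root_.P073.H155 (TBand winE)
open Vale.Agent.P073.H233 (PSet Xp)
open Vale.Agent.P073.H193 (LAtC edges mesh_sub bds)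

variable {c₀ n δ : ℝ} {j : ℕ} {Ω Λ : Set V} {v w : V} {ρ : V → ℝ} {M : Mesh Ω} {h : ConHomeo Ω Λ}
  {J₀ J : Set (ℕ × (Fin 3 → ℤ))} {P Z : Set M.ι} {K : BoxCx Λ w}
  {D : KIn3 c₀ n j δ v w ρ M h J₀ J P Z} {C : Cells ρ w K} {C₀ μT : ℝ}
  {X : S1 D C C₀ μT} {Y₂ : S2 X} {Ys : Set M.κ} {sc : Sharp} {Y₃ : S3 Y₂ Ys sc}
  {Y₄ : S4 Y₃}

/-- **the map before the hook of the tubes, on the bands of a tube**, on the drawn faces which are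
not peeled -/
theorem S5.hTgE (Y₅ : S5 Y₄) {Lam τ : M.κ → ℝ} {η : pG C J₀ → ℝ} (GN : GivNum Y₄ Lam τ η)
    (hfat : ∀ b : pB C J₀, 2048 * ω3T δ C b.1 ≤ X.fat b) (b : pG C J₀)
    (hTB : TBand Y₃.Lt (Fsg Y₄) Y₄.ς b.1 (X.sl ⟨.inl b.1, inl_mem_pB.2 b.2⟩)
      (winE Y₂.R Y₂.Q b.1) (6 * η b) (Y₅.Th b)) :
    ∀ k ∈ (D.dat C).DF, k ∉ (D.dat C).Peel (D.G C) X.h1 → ∀ x ∈ M.F k,
      Y₄.f5.toFun x ∈ (D.B C).E b.1 → ∀ᶠ y in 𝓝[M.F k] x,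
        bds (Y₅.Th b) (Y₄.f5.toFun y (K.dir b.1)) (Y₄.f5.toFun x (K.dir b.1)) ≤
          100 * wcst D C X.h1.toFun k x y + τ k * ‖y - x‖ := by
  intro k hkD hnp x hx hE
  have hτk := GN.τ0 k
  have hLk := GN.lam0 k
  obtain ⟨⟨i, hi, hk⟩, hP⟩ := hkD
  have hden : 0 < 2000 * (Lam k + 1) := by positivity
  set e := min 1 (τ k / (2000 * (Lam k + 1))) with he
  have he0 : 0 ≤ e := le_min zero_le_one (by positivity)
  have he1 : e ≤ 1 := min_le_left _ _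
  have he2 : e * (2000 * (Lam k + 1)) ≤ τ k := by
    rw [← le_div_iff₀ hden]
    exact min_le_right _ _
  have hN := GN.numW ⟨⟨i, hi, hk⟩, hP⟩ hnp
  rw [← he] at hN
  have hcd : ∀ s β, Y₂.L.c s β = Y₂.dP s / 8 := fun s β => rfl
  have hd0 : ∀ s, 0 < Y₂.dP s := Y₂.Lw.δ0
  have key := f5_tube hfat hN hi hk hP hnp hx hTB (d₀ := η b) (GN.η0 b) (by linarith [GN.η0 b])
    (fun s hs β => ?_) (fun s hs => (GN.ηm b s.1 hs).1) (fun s hs β => ?_) hE (Q := 120 * e)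
    (a₁ := 30) (e' := τ k / 8) ?_ (by norm_num) (by norm_num) (by linarith) ?_
  · filter_upwards [key] with y hy
    refine hy.trans ?_
    have h1 : 0 ≤ wcst D C X.h1.toFun k x y := wcst_nonneg
    have h2 : 0 ≤ τ k * ‖y - x‖ := by positivity
    linarith
  · rw [hcd]
    linarith [(GN.ηm b s.1 hs).2, hd0 s.1]
  · refine le_trans ?_ (GN.ηm b s.1 hs).2
    rw [Fσe Y₄ s β]
    have h1 := Y₂.Lw.om_le_two s.1 β
    have h2 := mul_pos (Y₄.p0 s) (bw_pos' (_root_.P073.H919.PSt.of_PS3 Y₃.ps) β s)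
    have h3 : stp (Y₃.Lt.N s.1 β) (K.slo s.1 (tg s.1 β) + (D.G C).a s.1)
      (K.shi s.1 (tg s.1 β) - (D.G C).a s.1) = Y₂.L.om s.1 β := rfl
    change 0 < Y₄.q s * Y₄.r s * bw (Y₃.Lt.N s.1 β)
      (K.slo s.1 (tg s.1 β) + (D.G C).a s.1) (K.shi s.1 (tg s.1 β) - (D.G C).a s.1)
      ((Y₃.F β).e s) at h2
    rw [h3]
    have h4 : Y₂.L.om s.1 β ≤ 2 * Y₂.dP s.1 := h1
    linarith
  · nlinarith
  · nlinarith

/-- **the hypothesis `hTg` of the faces of the cells drawn in the tubes** (`a₁ = 100`) -/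
theorem S5.hTg (Y₅ : S5 Y₄) {Lam τ : M.κ → ℝ} {η : pG C J₀ → ℝ} (GN : GivNum Y₄ Lam τ η)
    (hfat : ∀ b : pB C J₀, 2048 * ω3T δ C b.1 ≤ X.fat b)
    (hTB : ∀ b : pG C J₀, TBand Y₃.Lt (Fsg Y₄) Y₄.ς b.1 (X.sl ⟨.inl b.1, inl_mem_pB.2 b.2⟩)
      (winE Y₂.R Y₂.Q b.1) (6 * η b) (Y₅.Th b)) (b : pG C J₀) :
    ∀ k, k ∈ (D.dat C).DF → k ∉ (D.dat C).Peel (D.G C) X.h1 → ∀ x ∈ M.F k,
      Y₄.f5.toFun x ∈ YB (YT (D.G C) (pS C J₀)) b.1 → ∀ᶠ y in 𝓝[M.F k] x,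
        bds (Y₅.Th b) (Y₄.f5.toFun y (K.dir b.1)) (Y₄.f5.toFun x (K.dir b.1)) ≤
          100 * wcst D C X.h1.toFun k x y + τ k * ‖y - x‖ := fun k hk hkn x hx hb =>
  Y₅.hTgE GN hfat b (hTB b) k hk hkn x hx (YB_sub_E _ _ hb)

end Vale.Agent.P073.H267.K3
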