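import Vale.Agent.P073.H194.BackV
import Vale.Agent.P073.H732.RedV

/-!
# P073: diffeomorphisms with uniform closeness, which tends to zero at the boundary, `1 ≤ p < 3`
-/

namespace Vale.Agent.P073.H194

open MeasureTheory Set Filter Topology Metric Vale.Agent.P073.St Vale.Agent.P073.AB
open Vale.Agent.P073.SQ (ev cube Cells dE faceE)
open Vale.Agent.P073.H73 (enL faceL faceE_le exists_small specSQ3 deriv_part3)
open _root_.P073 (ConHomeo)
open scoped ContDiff ENNReal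

variable {p : ℝ} {Ω Λ R : Set V}

/-- `ConFace` with uniform closeness, and closeness zero at the boundary -/
def ConFaceN (p ε : ℝ) (Ω Λ : Set V) (f : V → V) (F : V → Mat) : Prop :=
  ∃ (R : Set V) (W : Cells Ω R) (h : ConHomeo Ω Λ), (∀ q, q ∈ W.ctrl) ∧ MeasurableSet R ∧
    R ⊆ Ω ∧
    ∑ j, ∫⁻ x in R, ENNReal.ofReal (‖fderiv ℝ h.toFun x (ev j) - cl (F x) (ev j)‖ ^ p) ≤
      ENNReal.ofReal ε ∧
    ∑' i, enL W p h.toFun i ≤ ENNReal.ofReal ε ∧
    ∑ j, ∫⁻ x in Ω \ R, ENNReal.ofReal (‖cl (F x) (ev j)‖ ^ p) ≤ ENNReal.ofReal ε ∧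
    (∀ x ∈ R, ‖h.toFun x - f x‖ ≤ ε) ∧
    (∀ i, ∀ x ∈ cube (W.c i) (W.ρ i), ∀ y ∈ cube (W.c i) (W.ρ i), ‖h.toFun y - f x‖ ≤ ε) ∧
    ∀ η > 0, ∃ K ⊆ Ω, IsCompact K ∧ R ⊆ K ∧ ∀ i, cube (W.c i) (W.ρ i) ⊆ K ∨
      ∀ x ∈ cube (W.c i) (W.ρ i), ∀ y ∈ cube (W.c i) (W.ρ i), ‖h.toFun y - f x‖ ≤ η

/-- the cells which meet a compact set -/
theorem cells_finite {R : Set V} (W : Cells Ω R) {A : Set V} (hA : A ⊆ Ω) (hAc : IsCompact A) :
    {i | (cube (W.c i) (W.ρ i) ∩ A).Nonempty}.Finite := by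
  have hex : ∀ x ∈ A, ∃ N ∈ 𝓝 x, {i | (cube (W.c i) (W.ρ i) ∩ N).Nonempty}.Finite :=
    fun x hx => W.fin x (hA hx)
  choose! N hN hNf using hex
  obtain ⟨T, hTA, hTc⟩ := hAc.elim_nhds_subcover N hN
  refine (T.finite_toSet.biUnion fun x hx => hNf x (hTA x hx)).subset ?_
  rintro i ⟨y, hy, hyA⟩
  obtain ⟨x, hx, hyx⟩ := mem_iUnion₂.1 (hTc hyA)
  exact mem_iUnion₂.2 ⟨x, hx, ⟨y, hy, hyx⟩⟩

/-- the points far from the complement form a compact set -/
theorem isCompact_far {Ω : Set V} (hb : Bornology.IsBounded Ω) {r : ℝ} (hr : 0 < r) :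
    IsCompact {y | r ≤ infDist y Ωᶜ} ∧ {y | r ≤ infDist y Ωᶜ} ⊆ Ω := by
  have h1 : {y | r ≤ infDist y Ωᶜ} ⊆ Ω := by
    intro y hy
    by_contra hyΩ
    have h2 : infDist y Ωᶜ = 0 := infDist_zero_of_mem hyΩ
    have h3 : r ≤ infDist y Ωᶜ := hy
    linarith
  refine ⟨Metric.isCompact_of_isClosed_isBounded ?_ (hb.subset h1), h1⟩
  exact isClosed_le continuous_const (continuous_infDist_pt _)

/-- **diffeomorphisms with uniform closeness, zero at the boundary** -/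
theorem diffeoN {f : V → V} {F : V → Mat} (hp : 1 ≤ p) (hp3 : p < 3)
    (hΩ : St.IsBoundedDomain Ω) (hΛ : St.IsBoundedDomain Λ)
    (H : ∀ ε > 0, ConFaceN p ε Ω Λ f F) {ε : ℝ} (hε : 0 < ε) :
    ∃ g : V → V, St.IsDiffeo Ω Λ g ∧ err p Ω f F g ≤ ENNReal.ofReal ε ∧
      (∀ x ∈ Ω, ‖g x - f x‖ ≤ ε) ∧
      ∀ η > 0, ∃ K ⊆ Ω, IsCompact K ∧ ∀ x ∈ Ω \ K, ‖g x - f x‖ ≤ η := by
  have hp0 : 0 < p := by linarith
  have h2p : (1 : ℝ) ≤ 2 ^ (p - 1) := Real.one_le_rpow (by norm_num) (by linarith)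
  have hb : Bornology.IsBounded Ω := PK.isBounded_of_domain hΩ
  have hne : (Ωᶜ : Set V).Nonempty := by
    by_contra h
    rw [not_nonempty_iff_eq_empty, compl_empty_iff] at h
    exact (NormedSpace.unbounded_univ ℝ V) (h ▸ hb)
  obtain ⟨C, hC, hmain⟩ := specSQ3 p hp hp3
  obtain ⟨δ, hδ, hδε⟩ := exists_delta hp hΩ (half_pos hε)
  set m : ℝ := min ε δ with hm
  have hm0 : 0 < m := lt_min hε hδ
  -- the constant
  obtain ⟨e, he, heε⟩ := exists_small (c := 1 + 2 ^ (p - 1) * (C + 2))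
    (e := ENNReal.ofReal (ε / 2))
    (ENNReal.add_ne_top.2 ⟨by simp, ENNReal.mul_ne_top H880.two_rpow_ne_top
      (ENNReal.add_ne_top.2 ⟨hC, by simp⟩)⟩)
    (ENNReal.ofReal_pos.2 (half_pos hε)).ne'
  set ε₁ : ℝ := min (e / 2 ^ (p - 1) / 2) (m / 2) with hε₁
  have hε₁0 : 0 < ε₁ := lt_min (by positivity) (by positivity)
  have hε₁a : ε₁ ≤ e / 2 ^ (p - 1) / 2 := min_le_left _ _
  have hε₁m : ε₁ ≤ m / 2 := min_le_right _ _
  have hε₁e : ε₁ ≤ e := by
    have : e / 2 ^ (p - 1) ≤ e := div_le_self he.le h2p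
    linarith
  have hsum : 2 ^ (p - 1) * (ε₁ + ε₁) ≤ e := by
    calc 2 ^ (p - 1) * (ε₁ + ε₁) ≤ 2 ^ (p - 1) * (e / 2 ^ (p - 1) / 2 + e / 2 ^ (p - 1) / 2) := by
          gcongr
      _ = e := by field_simp; norm_num
  obtain ⟨R, W, h, hctrl, hRm, hRΩ, h1, h2, h3, hR, hcell, hK⟩ := H ε₁ hε₁0
  -- the weight
  set w : V → ℝ := fun x => min (m / 2) (infDist x Ωᶜ) with hw
  have hwc : Continuous w := continuous_const.min (continuous_infDist_pt _)
  have hw0 : ∀ x ∈ Ω, 0 < w x := fun x hx => lt_min (half_pos hm0)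
    ((hΩ.1.isClosed_compl.notMem_iff_infDist_pos hne).1 fun h => h hx)
  obtain ⟨G, hG, hGh, hG1, hG2⟩ := exists_smooth_face hp hΩ hΛ W h hctrl hRΩ hε₁0 hsum
    hwc.continuousOn hw0 h1 h2
  have := W.cnt
  have hGs := diffeo_smooth hG
  obtain ⟨ε', hε'0, hε'⟩ := ENNReal.exists_pos_sum_of_countable'
    (ε := ENNReal.ofReal e) (by simpa using he) W.ι
  obtain ⟨s, hs, hsR, hsi, -, hsE⟩ := hmain Ω Λ R W G ε' (fun _ => 1) hΩ.1 hΛ.1 hctrl hG
    (fun i => (hε'0 i).ne') fun _ => one_pos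
  have hg := isDiffeo_comp hs hG
  have hgs := diffeo_smooth hg
  have hin : ∀ x ∈ Ω, x ∉ R → ∃ i, x ∈ cube (W.c i) (W.ρ i) := by
    intro x hx hxR
    rcases W.cover hx with h' | h'
    · exact absurd h' hxR
    · exact mem_iUnion.1 h'
  have hclose : ∀ x ∈ Ω, ‖(G ∘ s) x - f x‖ ≤ m := by
    intro x hx
    by_cases hxR : x ∈ R
    · have e1 : (G ∘ s) x = G x := by simp only [Function.comp, hsR x hxR]
      rw [e1]
      have e2 := (hGh x hx).trans (min_le_left _ _)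
      have e3 := hR x hxR
      have e4 := norm_sub_le_norm_sub_add_norm_sub (G x) (h.toFun x) (f x)
      linarith
    · obtain ⟨i, hi⟩ := hin x hx hxR
      have hsx := hsi i x hi
      have e2 := (hGh (s x) (W.sub i hsx)).trans (min_le_left _ _)
      have e3 := hcell i x hi (s x) hsx
      have e7 := norm_sub_le_norm_sub_add_norm_sub (G (s x)) (h.toFun (s x)) (f x)
      simp only [Function.comp]
      linarith
  refine ⟨G ∘ s, hg, ?_, fun x hx => (hclose x hx).trans (min_le_left _ _), ?_⟩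
  · have hd := deriv_part3 hp hΩ.1 W hRm hRΩ hgs hGs
        (fun x hx => by simp only [Function.comp, hsR x hx]) hε'.le hG1 hG2
        (h3.trans (ENNReal.ofReal_le_ofReal hε₁e)) fun i => (hsE i).1
    have hz : ∫⁻ x in Ω, ENNReal.ofReal (‖(G ∘ s) x - f x‖ ^ p) ≤ ENNReal.ofReal (ε / 2) := by
      refine le_trans ?_ hδε
      rw [← setLIntegral_const]
      refine setLIntegral_mono' hΩ.1.measurableSet fun x hx => ?_
      exact ENNReal.ofReal_le_ofReal (Real.rpow_le_rpow (norm_nonneg _)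
        ((hclose x hx).trans (min_le_right _ _)) hp0.le)
    calc err p Ω f F (G ∘ s) ≤ ENNReal.ofReal (ε / 2) + ENNReal.ofReal (ε / 2) := by
          refine add_le_add hz (hd.trans (le_trans (le_of_eq ?_) heε))
          ring
      _ = ENNReal.ofReal ε := by
        rw [← ENNReal.ofReal_add (by positivity) (by positivity)]
        congr 1
        ring
  · intro η hη
    obtain ⟨K, hKΩ, hKc, hRK, hKi⟩ := hK (η / 2) (half_pos hη)
    obtain ⟨hAc, hAΩ⟩ := isCompact_far hb (half_pos hη)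
    set A : Set V := {y | η / 2 ≤ infDist y Ωᶜ} with hA
    have hfin := cells_finite W hAΩ hAc
    refine ⟨K ∪ ⋃ i ∈ {i | (cube (W.c i) (W.ρ i) ∩ A).Nonempty}, cube (W.c i) (W.ρ i),
      union_subset hKΩ (iUnion₂_subset fun i _ => W.sub i),
      hKc.union (hfin.isCompact_biUnion fun i _ => SQ.isCompact_cube _ (W.ρpos i).le), ?_⟩
    rintro x ⟨hx, hxK⟩
    rw [mem_union, not_or] at hxK
    obtain ⟨i, hi⟩ := hin x hx fun h' => hxK.1 (hRK h')
    have hsx := hsi i x hi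
    have e1 : ‖h.toFun (s x) - f x‖ ≤ η / 2 := by
      rcases hKi i with h' | h'
      · exact absurd (h' hi) hxK.1
      · exact h' x hi (s x) hsx
    have e2 : infDist (s x) Ωᶜ ≤ η / 2 := by
      by_contra hcon
      push Not at hcon
      exact hxK.2 (mem_iUnion₂.2 ⟨i, ⟨s x, hsx, hcon.le⟩, hi⟩)
    have e3 := ((hGh (s x) (W.sub i hsx)).trans (min_le_right _ _)).trans e2
    have e7 := norm_sub_le_norm_sub_add_norm_sub (G (s x)) (h.toFun (s x)) (f x)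
    simp only [Function.comp]
    linarith


/-- the conclusion for finite distortion, from `ConFaceN` -/
theorem closeFD_of {q : ℝ} (hq : 1 ≤ q) (hq3 : q < 3)
    (H : ∀ (Ω Λ : Set V) (f : V → V) (F : V → Mat), St.IsBoundedDomain Ω → St.IsBoundedDomain Λ →
      St.IsHomeo Ω Λ f → St.IsSobolev q Ω f F → UniformContinuousOn f Ω → FinDist Ω F →
      ∀ ε > 0, ConFaceN q ε Ω Λ f F) : H732.CloseFD q :=
  fun Ω Λ f F hΩ hΛ hf hF hu hD _ hε => diffeoN hq hq3 hΩ hΛ (H Ω Λ f F hΩ hΛ hf hF hu hD) hε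

end Vale.Agent.P073.H194
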