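import Vale.Agent.P073.H194.ConFaceV
import Vale.Agent.P073.RT.H739.Mesh

/-!
# P073: diffeomorphisms with closeness at all points, `1 ≤ p < 3`
-/

namespace Vale.Agent.P073.H194

open MeasureTheory Set Filter Topology Metric Vale.Agent.P073.St Vale.Agent.P073.AB
open Vale.Agent.P073.SQ (ev cube Cells dE faceE)
open Vale.Agent.P073.H73 (enL faceL faceE_le exists_small specSQ3 deriv_part3)
open _root_.P073 (ConHomeo)
open scoped ContDiff ENNReal

variable {p : ℝ} {Ω Λ R : Set V}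

/-- a slowly varying weight in the target -/
theorem exists_slow {f : V → V} (hΛ : IsOpen Λ) (hf : St.IsHomeo Ω Λ f) {σ : V → ℝ}
    (hσ : ContinuousOn σ Ω) (hσ0 : ∀ x ∈ Ω, 0 < σ x) :
    ∃ τ : V → ℝ, (∀ y z, τ y ≤ τ z + 1 / 8 * ‖y - z‖) ∧ (∀ y ∈ Λ, 0 < τ y) ∧
      Continuous τ ∧ ∀ x ∈ Ω, 8 * τ (f x) ≤ σ x := by
  obtain ⟨f', hff', hfc, hfc'⟩ := hf
  have hθ : ContinuousOn (fun y => σ (f' y)) Λ :=
    hσ.comp hfc' fun y hy => (hff'.2 y hy).1
  obtain ⟨ρ, hρ, hρ'⟩ := RT.H739.exists_minorant hΛ hθ fun y hy => hσ0 _ (hff'.2 y hy).1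
  have hlip : ∀ y z, 1 / 8 * ρ y ≤ 1 / 8 * ρ z + 1 / 8 * ‖y - z‖ := fun y z => by
    have := hρ.lip y z
    linarith
  refine ⟨fun y => 1 / 8 * ρ y, hlip, fun y hy => by have := hρ.pos y hy; positivity, ?_, ?_⟩
  · have h1 : LipschitzWith 1 (fun y => 1 / 8 * ρ y) := by
      refine LipschitzWith.of_dist_le_mul fun y z => ?_
      rw [Real.dist_eq, dist_eq_norm, NNReal.coe_one, one_mul, abs_le]
      have h2 := hlip y z
      have h3 := hlip z y
      rw [norm_sub_rev] at h3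
      have := norm_nonneg (y - z)
      constructor <;> linarith
    exact h1.continuous
  · intro x hx
    have h1 := hρ' (f x) (hff'.1 x hx).1
    rw [(hff'.1 x hx).2] at h1
    linarith

/-- the conical map replaced by a diffeomorphism -/
theorem exists_smooth_face (hp : 1 ≤ p) (hΩ : St.IsBoundedDomain Ω) (hΛ : St.IsBoundedDomain Λ)
    {F : V → Mat} (W : Cells Ω R) (h : ConHomeo Ω Λ) (hctrl : ∀ q, q ∈ W.ctrl) (hRΩ : R ⊆ Ω)
    {ε ε₁ : ℝ} (hε₁0 : 0 < ε₁) (hsum : 2 ^ (p - 1) * (ε₁ + ε₁) ≤ ε) {η : V → ℝ}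
    (hη : ContinuousOn η Ω) (hη0 : ∀ x ∈ Ω, 0 < η x)
    (h1 : ∑ j, ∫⁻ x in R, ENNReal.ofReal (‖fderiv ℝ h.toFun x (ev j) - cl (F x) (ev j)‖ ^ p) ≤
      ENNReal.ofReal ε₁)
    (h2 : ∑' i, enL W p h.toFun i ≤ ENNReal.ofReal ε₁) :
    ∃ G : V → V, St.IsDiffeo Ω Λ G ∧ (∀ x ∈ Ω, ‖G x - h.toFun x‖ ≤ η x) ∧
      ∑ j, ∫⁻ x in R, ENNReal.ofReal (‖fderiv ℝ G x (ev j) - cl (F x) (ev j)‖ ^ p) ≤
        ENNReal.ofReal ε ∧
      ∑' i, W.en p G i ≤ ENNReal.ofReal ε := by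
  have hp0 : 0 < p := by linarith
  have h2pos : (0 : ℝ) < 2 ^ (p - 1) := by positivity
  have h2E : (2 : ℝ≥0∞) ^ (p - 1) = ENNReal.ofReal (2 ^ (p - 1)) := by
    rw [← ENNReal.ofReal_rpow_of_pos (by norm_num)]
    simp
  have := W.cnt
  obtain ⟨ε', hε'0, hε'⟩ := ENNReal.exists_pos_sum_of_countable'
    (ε := ENNReal.ofReal ε₁) (by simpa using hε₁0) W.ι
  have hex : ∀ i, ∃ t : ℝ, 0 < t ∧ (((W.bd i).card : ℝ≥0∞) * 2) * ENNReal.ofReal t ≤ ε' i :=
    fun i => exists_small (ENNReal.mul_ne_top (ENNReal.natCast_ne_top _) (by norm_num))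
      (hε'0 i).ne'
  choose t ht0 ht using hex
  have hfin : ∀ A ⊆ Ω, IsCompact A → {i | (cube (W.c i) (W.ρ i) ∩ A).Nonempty}.Finite := by
    intro A hA hAc
    have hex : ∀ x ∈ A, ∃ N ∈ 𝓝 x, {i | (cube (W.c i) (W.ρ i) ∩ N).Nonempty}.Finite :=
      fun x hx => W.fin x (hA hx)
    choose! N hN hNf using hex
    obtain ⟨T, hTA, hTc⟩ := hAc.elim_nhds_subcover N hN
    refine (T.finite_toSet.biUnion fun x hx => hNf x (hTA x hx)).subset ?_
    rintro i ⟨y, hy, hyA⟩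
    obtain ⟨x, hx, hyx⟩ := mem_iUnion₂.1 (hTc hyA)
    exact mem_iUnion₂.2 ⟨x, hx, ⟨y, hy, hyx⟩⟩
  have hqi : ∀ i, ∀ q ∈ W.bd i, ∀ x ∈ cube (W.a q) (W.σ q),
      Function.update x (W.k q) (W.a q (W.k q)) ∈ cube (W.c i) (W.ρ i) := by
    intro i q hq x hx l
    obtain ⟨h4, h5⟩ := W.bd_sub i q hq
    by_cases hl : l = W.k q
    · subst hl
      rw [Function.update_self, h4]
    · rw [Function.update_of_ne hl]
      have h6 := abs_sub_le (x l) (W.a q l) (W.c i l)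
      linarith [hx l, h5 l hl]
  obtain ⟨G, hG, hGs, hclose, -, hface, hint⟩ := _root_.P073.SMF.specSmooth
    _root_.P073.SM.specSM p Ω Λ h η (ε₁ / 3) hp hΩ hΛ hη
    hη0 (by positivity)
    Empty inferInstance (fun i => i.elim) (fun i => i.elim) (fun i => i.elim) (fun i => i.elim)
    (fun i => i.elim) (fun K _ _ => Set.toFinite _) (fun i => i.elim)
    (Σ i : W.ι, {q // q ∈ W.bd i}) inferInstance (fun q => W.k q.2.1)
    (fun q => W.a q.2.1 (W.k q.2.1)) (fun q => cube (W.a q.2.1) (W.σ q.2.1))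
    (fun q => t q.1 * (W.σ q.2.1 / W.ρ q.1))
    (fun q => isCompact_cube _ _)
    (fun q x hx => W.sub q.1 (hqi q.1 q.2.1 q.2.2 x hx))
    (fun A hA hAc => by
      refine Set.Finite.subset ((hfin A hA hAc).biUnion fun i _ =>
        Set.finite_range (Sigma.mk (β := fun i => {q // q ∈ W.bd i}) i)) ?_
      rintro ⟨i, q⟩ ⟨x, hx, hxA⟩
      exact mem_iUnion₂.2 ⟨i, ⟨_, hqi i q.1 q.2 x hx, hxA⟩, q, rfl⟩)
    (fun q => mul_pos (ht0 _) (div_pos (W.σpos _) (W.ρpos _)))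
  have hsplit : ∀ a b : ℝ, 0 < a → 0 < b → 2 ^ (p - 1) * (a + b) ≤ ε →
      (2 : ℝ≥0∞) ^ (p - 1) * (ENNReal.ofReal a + ENNReal.ofReal b) ≤ ENNReal.ofReal ε := by
    intro a b ha hb hab
    rw [h2E, ← ENNReal.ofReal_add ha.le hb.le, ← ENNReal.ofReal_mul h2pos.le]
    exact ENNReal.ofReal_le_ofReal hab
  refine ⟨G, hG, hclose, ?_, ?_⟩
  · -- the protected set
    have e1 : ∀ j, ∫⁻ x in R, ENNReal.ofReal (‖fderiv ℝ G x (ev j) - cl (F x) (ev j)‖ ^ p) ≤
        2 ^ (p - 1) * (ENNReal.ofReal (ε₁ / 3) +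
          ∫⁻ x in R, ENNReal.ofReal (‖fderiv ℝ h.toFun x (ev j) - cl (F x) (ev j)‖ ^ p)) := by
      intro j
      have hm : Measurable fun x => ENNReal.ofReal
          (‖fderiv ℝ G x (ev j) - fderiv ℝ h.toFun x (ev j)‖ ^ p) :=
        (((measurable_fderiv_apply_const ℝ G (ev j)).sub
          (measurable_fderiv_apply_const ℝ h.toFun (ev j))).norm.pow_const p).ennreal_ofReal
      calc ∫⁻ x in R, ENNReal.ofReal (‖fderiv ℝ G x (ev j) - cl (F x) (ev j)‖ ^ p)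
          ≤ ∫⁻ x in R, 2 ^ (p - 1) * (ENNReal.ofReal
              (‖fderiv ℝ G x (ev j) - fderiv ℝ h.toFun x (ev j)‖ ^ p) +
              ENNReal.ofReal (‖fderiv ℝ h.toFun x (ev j) - cl (F x) (ev j)‖ ^ p)) := by
            refine lintegral_mono fun x => ?_
            have := H880.add_rpow_le hp (fderiv ℝ G x (ev j) - fderiv ℝ h.toFun x (ev j))
              (fderiv ℝ h.toFun x (ev j) - cl (F x) (ev j))
            rwa [sub_add_sub_cancel] at this
        _ = 2 ^ (p - 1) * ((∫⁻ x in R, ENNReal.ofReal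
              (‖fderiv ℝ G x (ev j) - fderiv ℝ h.toFun x (ev j)‖ ^ p)) +
              ∫⁻ x in R, ENNReal.ofReal
                (‖fderiv ℝ h.toFun x (ev j) - cl (F x) (ev j)‖ ^ p)) := by
            rw [lintegral_const_mul' _ _ H880.two_rpow_ne_top, lintegral_add_left hm]
        _ ≤ _ := by
            gcongr
            exact (lintegral_mono_set hRΩ).trans (hint j)
    calc ∑ j, ∫⁻ x in R, ENNReal.ofReal (‖fderiv ℝ G x (ev j) - cl (F x) (ev j)‖ ^ p)
        ≤ ∑ j, 2 ^ (p - 1) * (ENNReal.ofReal (ε₁ / 3) +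
          ∫⁻ x in R, ENNReal.ofReal
            (‖fderiv ℝ h.toFun x (ev j) - cl (F x) (ev j)‖ ^ p)) :=
          Finset.sum_le_sum fun j _ => e1 j
      _ = 2 ^ (p - 1) * ((3 * ENNReal.ofReal (ε₁ / 3)) +
          ∑ j, ∫⁻ x in R, ENNReal.ofReal
            (‖fderiv ℝ h.toFun x (ev j) - cl (F x) (ev j)‖ ^ p)) := by
          rw [← Finset.mul_sum, Finset.sum_add_distrib, Finset.sum_const, Finset.card_univ,
            Fintype.card_fin, nsmul_eq_mul]
          norm_num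
      _ ≤ 2 ^ (p - 1) * (ENNReal.ofReal ε₁ + ENNReal.ofReal ε₁) := by
          gcongr
          rw [show (3 : ℝ≥0∞) = ENNReal.ofReal 3 by simp, ← ENNReal.ofReal_mul (by norm_num)]
          exact ENNReal.ofReal_le_ofReal (by linarith)
      _ ≤ _ := hsplit _ _ hε₁0 hε₁0 hsum
  · -- the faces
    have e1 : ∀ i, W.en p G i ≤ 2 ^ (p - 1) * (enL W p h.toFun i + ε' i) := by
      intro i
      have e2 : ∀ q ∈ W.bd i, faceE p G (W.a q) (W.k q) (W.σ q) ≤
          2 ^ (p - 1) * (faceL p h.toFun (W.a q) (W.k q) (W.σ q) +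
            2 * ENNReal.ofReal (t i * (W.σ q / W.ρ i))) := by
        intro q hq
        exact faceE_le hp hΩ.1 h.cont (W.σpos q) (W.subκ q) fun j hj => hface ⟨i, q, hq⟩ j hj
      calc W.en p G i = ∑ q ∈ W.bd i, ENNReal.ofReal (W.ρ i / W.σ q) *
            faceE p G (W.a q) (W.k q) (W.σ q) := by
            unfold SQ.Cells.en
            refine Finset.sum_congr rfl fun q _ => ?_
            rw [if_pos (hctrl q)]
        _ ≤ ∑ q ∈ W.bd i, ENNReal.ofReal (W.ρ i / W.σ q) * (2 ^ (p - 1) *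
            (faceL p h.toFun (W.a q) (W.k q) (W.σ q) +
              2 * ENNReal.ofReal (t i * (W.σ q / W.ρ i)))) :=
            Finset.sum_le_sum fun q hq => mul_le_mul' le_rfl (e2 q hq)
        _ = 2 ^ (p - 1) * (enL W p h.toFun i +
            ∑ q ∈ W.bd i, ENNReal.ofReal (W.ρ i / W.σ q) *
              (2 * ENNReal.ofReal (t i * (W.σ q / W.ρ i)))) := by
            unfold enL
            rw [← Finset.sum_add_distrib, Finset.mul_sum]
            refine Finset.sum_congr rfl fun q _ => ?_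
            ring
        _ ≤ 2 ^ (p - 1) * (enL W p h.toFun i + ε' i) := by
            gcongr
            refine le_trans (le_of_eq ?_) (ht i)
            have e3 : ∀ q ∈ W.bd i, ENNReal.ofReal (W.ρ i / W.σ q) *
                (2 * ENNReal.ofReal (t i * (W.σ q / W.ρ i))) = 2 * ENNReal.ofReal (t i) := by
              intro q _
              have h5 := W.σpos q
              have h6 := W.ρpos i
              rw [mul_left_comm, ← ENNReal.ofReal_mul (by positivity)]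
              congr 2
              field_simp
            rw [Finset.sum_congr rfl e3, Finset.sum_const, nsmul_eq_mul, mul_assoc]
    calc ∑' i, W.en p G i ≤ ∑' i, 2 ^ (p - 1) * (enL W p h.toFun i + ε' i) :=
          ENNReal.tsum_le_tsum e1
      _ = 2 ^ (p - 1) * (∑' i, enL W p h.toFun i + ∑' i, ε' i) := by
          rw [ENNReal.tsum_mul_left, ENNReal.tsum_add]
      _ ≤ 2 ^ (p - 1) * (ENNReal.ofReal ε₁ + ENNReal.ofReal ε₁) := by
          gcongr
      _ ≤ _ := hsplit _ _ hε₁0 hε₁0 hsum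

/-- a small constant for the part of order zero -/
theorem exists_delta (hp : 1 ≤ p) (hΩ : St.IsBoundedDomain Ω) {ε : ℝ} (hε : 0 < ε) :
    ∃ δ : ℝ, 0 < δ ∧ ENNReal.ofReal (δ ^ p) * volume Ω ≤ ENNReal.ofReal ε := by
  have hp0 : 0 < p := by linarith
  have hv := PK.volume_ne_top_of_domain hΩ
  have h1 : Tendsto (fun k : ℕ => ENNReal.ofReal ((1 / ((k : ℝ) + 1)) ^ p) * volume Ω) atTop
      (𝓝 (0 * volume Ω)) := by
    have h2 : Tendsto (fun k : ℕ => (1 / ((k : ℝ) + 1)) ^ p) atTop (𝓝 (0 ^ p)) :=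
      tendsto_one_div_add_atTop_nhds_zero_nat.rpow_const (Or.inr hp0.le)
    rw [Real.zero_rpow hp0.ne'] at h2
    have h3 := ENNReal.tendsto_ofReal h2
    rw [ENNReal.ofReal_zero] at h3
    exact ENNReal.Tendsto.mul_const h3 (Or.inr hv)
  rw [zero_mul] at h1
  obtain ⟨k, hk⟩ := (h1.eventually (gt_mem_nhds (ENNReal.ofReal_pos.2 hε))).exists
  exact ⟨1 / ((k : ℝ) + 1), by positivity, hk.le⟩

/-- **diffeomorphisms with closeness at all points** -/
theorem diffeoV {f : V → V} {F : V → Mat} (hp : 1 ≤ p) (hp3 : p < 3)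
    (hΩ : St.IsBoundedDomain Ω) (hΛ : St.IsBoundedDomain Λ) (hf : St.IsHomeo Ω Λ f)
    (H : ∀ σ₀ : V → ℝ, ContinuousOn σ₀ Ω → (∀ x ∈ Ω, 0 < σ₀ x) → ∀ ε > 0,
      ConFaceV p ε σ₀ Ω Λ f F) {σ : V → ℝ} (hσ : ContinuousOn σ Ω) (hσ0 : ∀ x ∈ Ω, 0 < σ x)
    {ε : ℝ} (hε : 0 < ε) :
    ∃ g : V → V, St.IsDiffeo Ω Λ g ∧ (∀ x ∈ Ω, ‖g x - f x‖ ≤ σ x) ∧
      err p Ω f F g ≤ ENNReal.ofReal ε := by
  have hp0 : 0 < p := by linarith
  have h2p : (1 : ℝ) ≤ 2 ^ (p - 1) := Real.one_le_rpow (by norm_num) (by linarith)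
  obtain ⟨C, hC, hmain⟩ := specSQ3 p hp hp3
  obtain ⟨δ, hδ, hδε⟩ := exists_delta hp hΩ (half_pos hε)
  have hσ' : ContinuousOn (fun x => min (σ x) δ) Ω := fun x hx =>
    (hσ x hx).min continuousWithinAt_const
  obtain ⟨τ, hτl, hτ0, hτc, hτσ⟩ := exists_slow hΛ.1 hf hσ' fun x hx => lt_min (hσ0 x hx) hδ
  have hfm : ∀ x ∈ Ω, f x ∈ Λ := by
    obtain ⟨f', hff', -, -⟩ := hf
    exact fun x hx => (hff'.1 x hx).1
  have hfc : ContinuousOn f Ω := by
    obtain ⟨f', -, hfc, -⟩ := hf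
    exact hfc
  have hσ₀ : ContinuousOn (fun x => τ (f x)) Ω := hτc.comp_continuousOn hfc
  have hσ₀0 : ∀ x ∈ Ω, 0 < τ (f x) := fun x hx => hτ0 _ (hfm x hx)
  -- the constant
  obtain ⟨e, he, heε⟩ := exists_small (c := 1 + 2 ^ (p - 1) * (C + 2))
    (e := ENNReal.ofReal (ε / 2))
    (ENNReal.add_ne_top.2 ⟨by simp, ENNReal.mul_ne_top H880.two_rpow_ne_top
      (ENNReal.add_ne_top.2 ⟨hC, by simp⟩)⟩)
    (ENNReal.ofReal_pos.2 (half_pos hε)).ne'
  set ε₁ : ℝ := e / 2 ^ (p - 1) / 2 with hε₁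
  have hε₁0 : 0 < ε₁ := by positivity
  have hε₁e : ε₁ ≤ e := by
    rw [hε₁]
    have : e / 2 ^ (p - 1) ≤ e := div_le_self he.le h2p
    linarith
  have hsum : 2 ^ (p - 1) * (ε₁ + ε₁) ≤ e := by
    rw [hε₁]
    field_simp
    norm_num
  obtain ⟨R, W, h, hctrl, hRm, hRΩ, h1, h2, h3, hR, hcell⟩ := H _ hσ₀ hσ₀0 ε₁ hε₁0
  obtain ⟨G, hG, hGh, hG1, hG2⟩ := exists_smooth_face hp hΩ hΛ W h hctrl hRΩ hε₁0 hsum hσ₀ hσ₀0
    h1 h2
  have := W.cnt
  have hGs := diffeo_smooth hG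
  obtain ⟨ε', hε'0, hε'⟩ := ENNReal.exists_pos_sum_of_countable'
    (ε := ENNReal.ofReal e) (by simpa using he) W.ι
  obtain ⟨s, hs, hsR, hsi, -, hsE⟩ := hmain Ω Λ R W G ε' (fun _ => 1) hΩ.1 hΛ.1 hctrl hG
    (fun i => (hε'0 i).ne') fun _ => one_pos
  have hg := isDiffeo_comp hs hG
  have hgs := diffeo_smooth hg
  have hclose : ∀ x ∈ Ω, ‖(G ∘ s) x - f x‖ ≤ min (σ x) δ := by
    intro x hx
    have hx8 := hτσ x hx
    have hx0 := hσ₀0 x hx
    by_cases hxR : x ∈ R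
    · have e1 : (G ∘ s) x = G x := by simp only [Function.comp, hsR x hxR]
      rw [e1]
      have e2 := hGh x hx
      have e3 := hR x hxR
      have e4 := norm_sub_le_norm_sub_add_norm_sub (G x) (h.toFun x) (f x)
      linarith
    · obtain ⟨i, hi⟩ : ∃ i, x ∈ cube (W.c i) (W.ρ i) := by
        rcases W.cover hx with h' | h'
        · exact absurd h' hxR
        · exact mem_iUnion.1 h'
      have hsx := hsi i x hi
      have hsΩ := W.sub i hsx
      have e2 := hGh (s x) hsΩ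
      have e3 := hcell i x hi (s x) hsx
      have e4 := hcell i (s x) hsx (s x) hsx
      have e5 := norm_sub_le_norm_sub_add_norm_sub (f (s x)) (h.toFun (s x)) (f x)
      rw [norm_sub_rev (f (s x)) (h.toFun (s x))] at e5
      have e6 := hτl (f (s x)) (f x)
      have e7 := norm_sub_le_norm_sub_add_norm_sub (G (s x)) (h.toFun (s x)) (f x)
      simp only [Function.comp]
      simp only at e2 e3 e4
      linarith
  refine ⟨G ∘ s, hg, fun x hx => (hclose x hx).trans (min_le_left _ _), ?_⟩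
  have hd := deriv_part3 hp hΩ.1 W hRm hRΩ hgs hGs
        (fun x hx => by simp only [Function.comp, hsR x hx]) hε'.le hG1 hG2
        (h3.trans (ENNReal.ofReal_le_ofReal hε₁e)) fun i => (hsE i).1
  have hz : ∫⁻ x in Ω, ENNReal.ofReal (‖(G ∘ s) x - f x‖ ^ p) ≤ ENNReal.ofReal (ε / 2) := by
    refine le_trans ?_ hδε
    rw [← setLIntegral_const]
    refine setLIntegral_mono' hΩ.1.measurableSet fun x hx => ?_
    exact ENNReal.ofReal_le_ofReal (Real.rpow_le_rpow (norm_nonneg _)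
      ((hclose x hx).trans (min_le_right _ _)) hp0.le)
  calc err p Ω f F (G ∘ s) ≤ ENNReal.ofReal (ε / 2) + ENNReal.ofReal (ε / 2) := by
        refine add_le_add hz (hd.trans (le_trans (le_of_eq ?_) heε))
        ring
    _ = ENNReal.ofReal ε := by
      rw [← ENNReal.ofReal_add (by positivity) (by positivity)]
      congr 1
      ring

end Vale.Agent.P073.H194
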