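import Vale.Agent.P073.H73.Final3C

/-!
# P073: `ConFace` with closeness at all points
-/

namespace Vale.Agent.P073.H194

open MeasureTheory Set Filter Topology Metric Vale.Agent.P073.St Vale.Agent.P073.AB
open Vale.Agent.P073.SQ (ev cube Cells dE faceE)
open Vale.Agent.P073.H73 (enL)
open _root_.P073 (ConHomeo)
open scoped ContDiff ENNReal

/-- `ConFace` with closeness at all points -/
def ConFaceV (p ε : ℝ) (σ₀ : V → ℝ) (Ω Λ : Set V) (f : V → V) (F : V → Mat) : Prop :=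
  ∃ (R : Set V) (W : Cells Ω R) (h : ConHomeo Ω Λ), (∀ q, q ∈ W.ctrl) ∧ MeasurableSet R ∧
    R ⊆ Ω ∧
    ∑ j, ∫⁻ x in R, ENNReal.ofReal (‖fderiv ℝ h.toFun x (ev j) - cl (F x) (ev j)‖ ^ p) ≤
      ENNReal.ofReal ε ∧
    ∑' i, enL W p h.toFun i ≤ ENNReal.ofReal ε ∧
    ∑ j, ∫⁻ x in Ω \ R, ENNReal.ofReal (‖cl (F x) (ev j)‖ ^ p) ≤ ENNReal.ofReal ε ∧
    (∀ x ∈ R, ‖h.toFun x - f x‖ ≤ σ₀ x) ∧
    ∀ i, ∀ x ∈ cube (W.c i) (W.ρ i), ∀ y ∈ cube (W.c i) (W.ρ i), ‖h.toFun y - f x‖ ≤ σ₀ x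

end Vale.Agent.P073.H194
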