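import Vale.Agent.P073.H655.FinT

/-!
# P073: conical homeomorphisms close to a diffeomorphism
-/

namespace Vale.Agent.P073.H194

open MeasureTheory Set Filter Topology Metric Vale.Agent.P073.St Vale.Agent.P073.AB
open _root_.P073 (ConHomeo)
open scoped ContDiff ENNReal

variable {Ω Λ : Set V}

/-- the derivative of a diffeomorphism is injective -/
theorem fderiv_inj (hΩ : IsOpen Ω) (hΛ : IsOpen Λ) {g : V → V} (hg : St.IsDiffeo Ω Λ g) {x : V}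
    (hx : x ∈ Ω) {v : V} (hv : fderiv ℝ g x v = 0) : v = 0 := by
  have hgs := diffeo_smooth hg
  obtain ⟨k, hk, hg1, hk1⟩ := hg
  have hks : ContDiffOn ℝ ∞ k Λ := smooth_of_sm hk1
  have h1 := diffeo_diff hΩ hgs hx
  have h2 := diffeo_diff hΛ hks (hk.1 x hx).1
  have h3 : HasFDerivAt (k ∘ g) ((fderiv ℝ k (g x)).comp (fderiv ℝ g x)) x := h2.comp x h1
  have h4 : k ∘ g =ᶠ[𝓝 x] id := by
    filter_upwards [hΩ.mem_nhds hx] with y hy
    exact (hk.1 y hy).2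
  have h5 : HasFDerivAt (k ∘ g) (ContinuousLinearMap.id ℝ V) x :=
    (hasFDerivAt_id x).congr_of_eventuallyEq h4
  have h6 := h3.unique h5
  have h7 : (fderiv ℝ k (g x)) (fderiv ℝ g x v) = v := by
    have := congrArg (fun L : V →L[ℝ] V => L v) h6
    simpa using this
  rw [← h7, hv, map_zero]

/-- **a conical homeomorphism close to a diffeomorphism** -/
theorem con_of_diffeo (hΩ : IsOpen Ω) (hΩb : Bornology.IsBounded Ω) (hΛ : IsOpen Λ)
    (hΛb : Bornology.IsBounded Λ) {g : V → V} (hg : St.IsDiffeo Ω Λ g) {σ : V → ℝ}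
    (hσ : ContinuousOn σ Ω) (hσ0 : ∀ x ∈ Ω, 0 < σ x) :
    ∃ φ : ConHomeo Ω Λ, (∀ x ∈ Ω, ‖φ.toFun x - g x‖ ≤ σ x) ∧
      (∀ x ∈ Ω, ∀ᶠ y in 𝓝 x, ‖(φ.toFun y - φ.toFun x) - (g y - g x)‖ ≤ σ x * ‖y - x‖) ∧
      ∀ᵐ x ∂(volume : Measure V), x ∈ Ω → ‖fderiv ℝ φ.toFun x - fderiv ℝ g x‖ ≤ σ x := by
  have hgs := diffeo_smooth hg
  have hhomeo : St.IsHomeo Ω Λ g := by
    obtain ⟨k, hk, hg1, hk1⟩ := hg
    exact ⟨k, hk, hgs.continuousOn, (smooth_of_sm hk1).continuousOn⟩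
  obtain ⟨h, hh, -, hcon, hclose, hlip⟩ := H655.specFine' Ω Λ ∅ g σ hΩ hΩb hΛ hΛb
    (empty_subset _) (by simpa using hΩ) hhomeo
    (by simpa using hgs.of_le (by exact_mod_cast le_top))
    (fun x hx v hv => fderiv_inj hΩ hΛ hg hx.1 hv) (by simpa using hσ)
    (fun x hx => hσ0 x hx.1)
  have hcon' : _root_.P073.ConicalOn h Ω := fun x hx => hcon x ⟨hx, fun h => h⟩
  refine ⟨H880.toCon hh hcon', fun x hx => hclose x ⟨hx, fun h => h⟩,
    fun x hx => hlip x ⟨hx, fun h => h⟩, ?_⟩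
  filter_upwards [H655.ae_differentiable hΩ (H880.toCon hh hcon')] with x hx hxΩ
  have h1 : HasFDerivAt h (fderiv ℝ h x) x := (hx hxΩ).hasFDerivAt
  have h2 := diffeo_diff hΩ hgs hxΩ
  have h3 : HasFDerivAt (fun y => h y - g y) (fderiv ℝ h x - fderiv ℝ g x) x := h1.sub h2
  show ‖fderiv ℝ h x - fderiv ℝ g x‖ ≤ σ x
  refine HasFDerivAt.le_of_lip' h3 (hσ0 x hxΩ).le ?_
  filter_upwards [hlip x ⟨hxΩ, fun h => h⟩] with y hy
  refine le_trans (le_of_eq ?_) hy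
  congr 1
  abel

end Vale.Agent.P073.H194
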