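import Vale.Agent.P073.H194.MeshPre

/-!
# P073, block A15-MESH: the mesh for the data `Pre`, the theorem
-/

namespace Vale.Agent.P073.H194

open MeasureTheory Set Filter Topology Metric Vale.Agent.P073.St
open Vale.Agent.P073.SQ (ev)
open Vale.Agent.P073.AB Vale.Agent.P073.AB.P86
open P073.Net (dyc dyo)
open Vale.Agent.P073.H73 (Bix)
open Vale.Agent.P073.H471 (Cubes wgt wt)
open Vale.Agent.P073.H83 (Bw GenB)
open Vale.Agent.P073.H193 (refine_cases)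
open scoped ENNReal

theorem isOpen_shrink_sub {v : V} {n k₁ : ℕ} {z : Fin 3 → ℤ} : IsClosed (boxR v n k₁ z) := by
  have : boxR v n k₁ z = Set.pi univ fun k => Icc (v k + z k / 2 ^ n + 2 / 2 ^ (n + k₁))
      (v k + (z k + 1) / 2 ^ n - 2 / 2 ^ (n + k₁)) := by
    ext x
    exact ⟨fun h k _ => h k, fun h k => h k (mem_univ k)⟩
  rw [this]
  exact isClosed_set_pi fun _ _ => isClosed_Icc

theorem isCompact_boxR {v : V} {n k₁ : ℕ} {z : Fin 3 → ℤ} : IsCompact (boxR v n k₁ z) :=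
  (isCompact_dyc v n z).of_isClosed_subset isOpen_shrink_sub
    (boxR_sub_dyo.trans dyo_sub_dyc)

theorem dyo_ae (v : V) (m : ℕ) (z : Fin 3 → ℤ) :
    (dyo v m z : Set V) =ᵐ[volume] (dyc v m z : Set V) := by
  have h1 : dyo v m z = Set.pi univ fun k => Ioo (v k + z k / 2 ^ m) (v k + (z k + 1) / 2 ^ m) := by
    ext x
    exact ⟨fun h k _ => h k, fun h k => h k (mem_univ k)⟩
  have h2 : dyc v m z = Icc (fun k => v k + z k / 2 ^ m) (fun k => v k + (z k + 1) / 2 ^ m) := by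
    ext x
    exact ⟨fun h => ⟨fun k => (h k).1, fun k => (h k).2⟩, fun h k => ⟨h.1 k, h.2 k⟩⟩
  rw [h1, h2]
  exact Measure.univ_pi_Ioo_ae_eq_Icc

/-- the cubes of a partition are disjoint up to null sets -/
theorem tsum_lintegral_le {Ω : Set V} {v : V} {I S : Set Idx} (hI : Part Ω v I) (hS : S ⊆ I)
    (H : V → ℝ≥0∞) : ∑' q : S, ∫⁻ x in dyc v q.1.1 q.1.2, H x ≤
      ∫⁻ x in ⋃ q ∈ S, dyc v q.1 q.2, H x := by
  have h1 : ∀ q : S, ∫⁻ x in dyc v q.1.1 q.1.2, H x = ∫⁻ x in dyo v q.1.1 q.1.2, H x :=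
    fun q => (setLIntegral_congr (dyo_ae v _ _)).symm
  simp_rw [h1]
  have h2 : S.PairwiseDisjoint fun q : Idx => dyo v q.1 q.2 := by
    intro q hq q' hq' hne
    exact (hI.disj q (hS hq) q' (hS hq') hne).mono_right dyo_sub_dyc
  rw [← lintegral_biUnion (Set.to_countable S) (fun q _ => (isOpen_dyo v _ _).measurableSet) h2]
  refine lintegral_mono_set (iUnion₂_mono fun q _ => dyo_sub_dyc)

namespace MeshIn

variable {ι : Type*} {p : ℝ} {Ω Λ : Set V} {f : V → V} {G : V → ℝ≥0∞} {v : V}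
  {nn : ℕ → ℕ} {n k₁ : ℕ} {J : Finset (Fin 3 → ℤ)} {A : (Fin 3 → ℤ) → V → V}
  {L : (Fin 3 → ℤ) → V →L[ℝ] V} {I P : Set Idx} {Bx : Finset Bix} {c : ι → V}

/-- the cubes in the protected boxes -/
def core (v : V) (n k₁ : ℕ) (J : Finset (Fin 3 → ℤ)) (I P : Set Idx) : Set Idx :=
  {q | q ∈ I \ P ∧ ∃ z ∈ J, dyc v q.1 q.2 ⊆ boxR v n k₁ z}

theorem finite_core (D : MeshIn p Ω Λ f G v nn n k₁ J A L I P Bx c) :
    (core v n k₁ J I P).Finite := by
  have h1 : IsCompact (⋃ z ∈ J, boxR v n k₁ z) := J.isCompact_biUnion fun _ _ => isCompact_boxR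
  refine (D.part.fin _ (iUnion₂_subset D.subR) h1).subset ?_
  rintro q ⟨hq, z, hz, h⟩
  exact ⟨hq.1, cen v q.1 q.2, dyo_sub_dyc (cen_mem v q.1 q.2),
    mem_biUnion hz (h (dyo_sub_dyc (cen_mem v q.1 q.2)))⟩

theorem isClosed_cell (D : MeshIn p Ω Λ f G v nn n k₁ J A L I P Bx c) (b : Bix) :
    IsClosed (b.cell A) := isClosed_Icc.preimage (D.cont_A b.1)

theorem isCompact_cell (D : MeshIn p Ω Λ f G v nn n k₁ J A L I P Bx c) {b : Bix} (hb : b ∈ Bx) :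
    IsCompact (b.cell A) :=
  isCompact_boxR.of_isClosed_subset (D.isClosed_cell b) ((D.cellR b hb).trans interior_subset)

/-- a neighbourhood of the cells -/
theorem exists_d0 (D : MeshIn p Ω Λ f G v nn n k₁ J A L I P Bx c) :
    ∃ d > 0, ∀ b ∈ Bx, ∀ y ∈ b.cell A, ∀ x, ‖x - y‖ ≤ d → x ∈ interior (boxR v n k₁ b.1) := by
  have h1 : ∀ b ∈ Bx, ∀ᶠ d in 𝓝[>] (0:ℝ), ∀ y ∈ b.cell A, ∀ x, ‖x - y‖ ≤ d →
      x ∈ interior (boxR v n k₁ b.1) := by
    intro b hb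
    obtain ⟨r, hr, h⟩ := (D.isCompact_cell hb).exists_cthickening_subset_open isOpen_interior
      (D.cellR b hb)
    filter_upwards [Ioo_mem_nhdsGT hr] with d hd y hy x hx
    exact h (mem_cthickening_of_dist_le x y r _ hy (by rw [dist_eq_norm]; exact hx.trans hd.2.le))
  have h2 : ∀ᶠ d in 𝓝[>] (0:ℝ), ∀ b ∈ Bx, ∀ y ∈ b.cell A, ∀ x, ‖x - y‖ ≤ d →
      x ∈ interior (boxR v n k₁ b.1) := (eventually_all_finset Bx).2 h1
  obtain ⟨d, hd, hd0⟩ := (h2.and self_mem_nhdsWithin).exists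
  exact ⟨d, hd0, hd⟩

/-- the preimages of the centres are not in the cells -/
theorem notMem_cell (D : MeshIn p Ω Λ f G v nn n k₁ J A L I P Bx c) {q : Idx}
    (hq : q ∈ core v n k₁ J I P) {x : V} (hx : x ∈ cpt v (fs v n k₁ J A f) c q) {b : Bix}
    (hb : b ∈ Bx) : x ∉ b.cell A := by
  intro hxb
  obtain ⟨hq, z, hz, h⟩ := hq
  obtain ⟨hx1, i, hi⟩ := hx
  rw [fs_core hz h hx1] at hi
  have h2 : b.1 = z := by
    rw [← idx_of_boxR (interior_subset (D.cellR b hb hxb)), idx_of_boxR (h hx1)]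
  refine D.cbox i b hb ?_
  rw [← hi, ← h2]
  exact hxb

theorem exists_d1 (D : MeshIn p Ω Λ f G v nn n k₁ J A L I P Bx c) (hp : 0 ≤ p) {Λ' : Set V}
    {z : ι → V} {σ : ι → ℝ} (W : Cubes Λ' z σ) (hΛ : Λ' = Λ)
    (hc : ∀ i, ‖c i - z i‖ ≤ σ i / 2) :
    ∃ d > 0, ∀ q ∈ core v n k₁ J I P, ∀ x ∈ cpt v (fs v n k₁ J A f) c q, ∀ b ∈ Bx,
      ∀ y ∈ b.cell A, d ≤ ‖x - y‖ := by
  subst hΛ
  have hM := D.meshData hp
  have key : ∀ q ∈ core v n k₁ J I P, ∀ᶠ d in 𝓝[>] (0:ℝ),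
      ∀ x ∈ cpt v (fs v n k₁ J A f) c q, ∀ b ∈ Bx, ∀ y ∈ b.cell A, d ≤ ‖x - y‖ := by
    intro q hq
    have hfin : (cpt v (fs v n k₁ J A f) c q).Finite :=
      finite_cpt W hc (hM.cont q hq.1) (hM.maps q hq.1) (hM.inj q hq.1)
    refine (eventually_all_finite hfin).2 fun x hx => (eventually_all_finset Bx).2 fun b hb => ?_
    obtain ⟨r, hr, h⟩ := Metric.isOpen_iff.1 (D.isClosed_cell b).isOpen_compl x
      (D.notMem_cell hq hx hb)
    filter_upwards [Ioo_mem_nhdsGT hr] with d hd y hy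
    by_contra hlt
    rw [not_le] at hlt
    refine h ?_ hy
    rw [mem_ball, dist_eq_norm, norm_sub_rev]
    exact hlt.trans hd.2
  have h2 := (eventually_all_finite D.finite_core).2 key
  obtain ⟨d, hd, hd0⟩ := (h2.and self_mem_nhdsWithin).exists
  exact ⟨d, hd0, hd⟩

end MeshIn

end Vale.Agent.P073.H194
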