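import Vale.Agent.P073.H194.DomPart
import Vale.Agent.P073.H194.MeshPre2
import Vale.Agent.P073.H696.BSpec

/-!
# P073, block B09, [DOM]: the partition of the domain
-/

namespace Vale.Agent.P073.H194

open MeasureTheory Set Filter Topology Metric Vale.Agent.P073.St
open Vale.Agent.P073.SQ (ev)
open Vale.Agent.P073.AB Vale.Agent.P073.AB.P86
open _root_.P073.Net (dyc dyo)
open _root_.P073.Net.NC (fine_sub fine_sub' dyc_sub parent_sub exists_mem)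
open Vale.Agent.P073.H696 (Dom SpecDom blk blkS IsNear)
open Vale.Agent.P073.H193 (refine_cases squ_gen_le squ_dyc_ineq)
open scoped ENNReal

/-! ### Sums -/

/-- sums over fibres -/
theorem tsum_fib {α β : Type*} {S : Set α} {T : Set β} {R : α → β → Prop}
    (h : ∀ i ∈ S, ∃ q ∈ T, R i q) (g : α → ℝ≥0∞) :
    ∑' i : S, g i.1 ≤ ∑' q : T, ∑' i : {i // i ∈ S ∧ R i q.1}, g i.1 := by
  choose φ hφT hφ using h
  have h1 := ENNReal.tsum_sigma (β := fun q : T => {i // i ∈ S ∧ R i q.1}) (fun _ i => g i.1)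
  rw [← h1]
  let ψ : S → (q : T) × {i // i ∈ S ∧ R i q.1} := fun i =>
    ⟨⟨φ i.1 i.2, hφT _ i.2⟩, ⟨i.1, i.2, hφ _ i.2⟩⟩
  have hψ : Function.Injective ψ := by
    intro i i' h
    have h2 := congrArg (fun a : (q : T) × {i // i ∈ S ∧ R i q.1} => a.2.1) h
    exact Subtype.ext h2
  exact ENNReal.tsum_comp_le_tsum_of_injective hψ
    (fun a : (q : T) × {i // i ∈ S ∧ R i q.1} => g a.2.1)

/-- the cubes of a partition are disjoint up to null sets -/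
theorem tsum_int_le {Ω : Set V} {v : V} {I S : Set Idx} (hI : Part Ω v I) (hS : S ⊆ I)
    (H : V → ℝ≥0∞) {X : Set V} (hX : ∀ q ∈ S, dyo v q.1 q.2 ⊆ X) :
    ∑' q : S, ∫⁻ x in dyc v q.1.1 q.1.2, H x ≤ ∫⁻ x in X, H x := by
  have h1 : ∀ q : S, ∫⁻ x in dyc v q.1.1 q.1.2, H x = ∫⁻ x in dyo v q.1.1 q.1.2, H x :=
    fun q => (setLIntegral_congr (dyo_ae v _ _)).symm
  simp_rw [h1]
  have h2 : S.PairwiseDisjoint fun q : Idx => dyo v q.1 q.2 := by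
    intro q hq q' hq' hne
    exact (hI.disj q (hS hq) q' (hS hq') hne).mono_right dyo_sub_dyc
  rw [← lintegral_biUnion (Set.to_countable S) (fun q _ => (isOpen_dyo v _ _).measurableSet) h2]
  exact lintegral_mono_set (iUnion₂_subset hX)

/-- an open set which meets a closed cube meets the open cube -/
theorem open_meets {v : V} {m : ℕ} {z : Fin 3 → ℤ} {U : Set V} (hU : IsOpen U) {x : V}
    (hx : x ∈ U) (hx' : x ∈ dyc v m z) : (U ∩ dyo v m z).Nonempty := by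
  have h1 : Tendsto (fun t : ℝ => x + t • (cen v m z - x)) (𝓝[>] 0) (𝓝 x) := by
    have : ContinuousAt (fun t : ℝ => x + t • (cen v m z - x)) 0 := by fun_prop
    have h2 := this.tendsto
    simp only [zero_smul, add_zero] at h2
    exact h2.mono_left nhdsWithin_le_nhds
  have h2 : ∀ᶠ t in 𝓝[>] (0:ℝ), x + t • (cen v m z - x) ∈ U := h1.eventually (hU.mem_nhds hx)
  have h3 : ∀ᶠ t in 𝓝[>] (0:ℝ), t ∈ Ioc (0:ℝ) 1 := Ioc_mem_nhdsGT (by norm_num)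
  obtain ⟨t, ht, ht'⟩ := (h2.and h3).exists
  exact ⟨_, ht, seg_mem hx' ht'.1 ht'.2⟩

/-- a square of the same generation in a cube is a face -/
theorem faceOf_same {v : V} {s : Idx × Fin 3} {q : Idx} (h : squ v s ⊆ dyc v q.1 q.2)
    (hg : s.1.1 = q.1) : FaceOf s q := by
  obtain ⟨⟨h1, h2⟩, h3⟩ := squ_dyc_ineq h
  rw [hg] at h1 h2
  have hp : (0:ℝ) < 2 ^ q.1 := by positivity
  rw [div_le_div_iff_of_pos_right hp] at h1 h2
  refine ⟨hg, ?_, fun j hj => ?_⟩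
  · have h4 : q.2 s.2 ≤ s.1.2 s.2 := by exact_mod_cast h1
    have h5 : s.1.2 s.2 ≤ q.2 s.2 + 1 := by exact_mod_cast h2
    omega
  · obtain ⟨h4, h5⟩ := h3 j hj
    rw [hg] at h4 h5
    rw [div_le_div_iff_of_pos_right hp] at h4 h5
    have h6 : q.2 j ≤ s.1.2 j := by exact_mod_cast h4
    have h7 : s.1.2 j + 1 ≤ q.2 j + 1 := by exact_mod_cast h5
    omega

/-- the edges of a face are edges -/
theorem edgeOf_face {e F : Idx × Fin 3} {q : Idx} (he : EdgeOfSq e F) (hF : FaceOf F q) :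
    EdgeOf e q := by
  obtain ⟨h1, h2, h3, h4, h5⟩ := he
  obtain ⟨f1, f2, f3⟩ := hF
  refine ⟨h1.trans f1, ?_, fun j hj => ?_⟩
  · rw [h3, f3 _ h2]
  · by_cases hjF : j = F.2
    · subst hjF
      rw [h4]
      exact f2
    · rw [← f3 j hjF]
      exact h5 j hj hjF

/-- at most six faces -/
theorem tsum_face_le (q : Idx) (g : Idx × Fin 3 → ℝ≥0∞) (t : ℝ≥0∞)
    (h : ∀ F, FaceOf F q → g F ≤ t) : ∑' F : {F : Idx × Fin 3 // FaceOf F q}, g F.1 ≤ 6 * t := by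
  classical
  have h1 := tsum_subtype_le_sum (S := {F : Idx × Fin 3 | FaceOf F q})
    ((Finset.univ : Finset (Fin 3)) ×ˢ (Finset.univ : Finset Bool))
    (fun a => faceP q a.1 a.2) g (fun F hF => by
      obtain ⟨j, σ, h⟩ := faceOf_param hF
      exact ⟨(j, σ), by simp, h.symm⟩)
  refine h1.trans ?_
  refine (Finset.sum_le_card_nsmul _ _ t fun a _ => h _ (faceOf_faceP q a.1 a.2)).trans ?_
  rw [Finset.card_product]
  simp

/-! ### The base partition -/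

/-- the class of cubes which are compatible with the boxes -/
def DA (Ω : Set V) (v : V) (K : Set Idx) (N : Idx → ℕ) : Set Idx :=
  {q | dyc v q.1 q.2 ⊆ Ω ∧ ∀ k ∈ K, (dyo v q.1 q.2 ∩ dyc v k.1 k.2).Nonempty →
    dyc v q.1 q.2 ⊆ dyc v k.1 k.2 ∧ N k ≤ q.1}

structure DomIn (Ω : Set V) (v : V) (K : Set Idx) (n N : Idx → ℕ) : Prop where
  oΩ : IsOpen Ω
  sub : ∀ k ∈ K, dyc v k.1 k.2 ⊆ Ω
  gn : ∀ k ∈ K, k.1 + 2 ≤ n k
  gN : ∀ k ∈ K, n k + 2 ≤ N k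
  disj : ∀ k ∈ K, ∀ k' ∈ K, k ≠ k' → Disjoint (dyo v k.1 k.2) (dyo v k'.1 k'.2)
  fin : ∀ C ⊆ Ω, IsCompact C → {k ∈ K | (dyc v k.1 k.2 ∩ C).Nonempty}.Finite

namespace DomIn

variable {Ω : Set V} {v : V} {K : Set Idx} {n N : Idx → ℕ}

/-- a cube in a box determines the box -/
theorem uniq (D : DomIn Ω v K n N) {k k' : Idx} (hk : k ∈ K) (hk' : k' ∈ K) {x : V}
    (hx : x ∈ dyo v k.1 k.2) (hx' : x ∈ dyc v k'.1 k'.2) : k = k' := by
  by_contra hne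
  obtain ⟨y, hy, hy'⟩ := open_meets (isOpen_dyo v k.1 k.2) hx hx'
  exact Set.disjoint_left.1 (D.disj k hk k' hk' hne) hy hy'

theorem uniq_sub (D : DomIn Ω v K n N) {k k' q : Idx} (hk : k ∈ K) (hk' : k' ∈ K)
    (h : dyc v q.1 q.2 ⊆ dyc v k.1 k.2) (h' : dyc v q.1 q.2 ⊆ dyc v k'.1 k'.2) : k = k' :=
  D.uniq hk hk' (dyo_mono h (cen_mem v q.1 q.2)) (h' (dyo_sub_dyc (cen_mem v q.1 q.2)))

theorem kN (D : DomIn Ω v K n N) {k : Idx} (hk : k ∈ K) : k.1 ≤ N k := by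
  have := D.gn k hk
  have := D.gN k hk
  omega

theorem loc (D : DomIn Ω v K n N) : ∀ x ∈ Ω, ∃ M : ℕ, ∀ᶠ y in 𝓝 x, ∀ q : Idx, M ≤ q.1 →
    y ∈ dyc v q.1 q.2 → q ∈ DA Ω v K N := by
  intro x hx
  obtain ⟨C, hC, hCΩ, hCc⟩ := local_compact_nhds (D.oΩ.mem_nhds hx)
  obtain ⟨δ, hδ, hδC⟩ := Metric.mem_nhds_iff.1 hC
  have hf := D.fin C hCΩ hCc
  obtain ⟨M₀, hM₀⟩ := exists_pow_lt_of_lt_one (half_pos hδ) (by norm_num : (1/2:ℝ) < 1)
  obtain ⟨M₁, hM₁⟩ : ∃ M₁ : ℕ, ∀ k ∈ {k ∈ K | (dyc v k.1 k.2 ∩ C).Nonempty}, N k ≤ M₁ := by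
    obtain ⟨M₁, h⟩ := (hf.image N).bddAbove
    exact ⟨M₁, fun k hk => h ⟨k, hk, rfl⟩⟩
  refine ⟨max M₀ M₁, ?_⟩
  filter_upwards [ball_mem_nhds x (half_pos hδ)] with y hy q hq hyq
  have hqC : dyc v q.1 q.2 ⊆ C := by
    intro w hw
    apply hδC
    rw [mem_ball, dist_eq_norm]
    rw [mem_ball, dist_eq_norm] at hy
    have h1 := _root_.P073.Net.NC.dist_le hw hyq
    have h2 : (1:ℝ) / 2 ^ q.1 ≤ (1 / 2) ^ M₀ := by
      rw [one_div_pow]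
      exact one_div_le_one_div_of_le (by positivity)
        (pow_le_pow_right₀ (by norm_num) ((le_max_left _ _).trans hq))
    calc ‖w - x‖ = ‖(w - y) + (y - x)‖ := by congr 1; abel
      _ ≤ ‖w - y‖ + ‖y - x‖ := norm_add_le _ _
      _ < δ := by linarith
  refine ⟨hqC.trans hCΩ, ?_⟩
  rintro k hk ⟨w, hw, hwk⟩
  have h1 : N k ≤ q.1 := (hM₁ k ⟨hk, w, hwk, hqC (dyo_sub_dyc hw)⟩).trans
    ((le_max_right _ _).trans hq)
  exact ⟨sub_open' ((D.kN hk).trans h1) hw hwk, h1⟩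

theorem part (D : DomIn Ω v K n N) : Part Ω v (mx v (DA Ω v K N)) :=
  part_mx (fun _ hq => hq.1) D.loc

theorem da_in (D : DomIn Ω v K n N) {k : Idx} (hk : k ∈ K) {q : Idx}
    (hq : dyc v q.1 q.2 ⊆ dyc v k.1 k.2) (hN : N k ≤ q.1) : q ∈ DA Ω v K N := by
  refine ⟨hq.trans (D.sub k hk), ?_⟩
  rintro k' hk' ⟨x, hx, hx'⟩
  obtain rfl := D.uniq hk hk' (dyo_mono hq hx) hx'
  exact ⟨hq, hN⟩

/-- in a box the base partition has generation `N k` -/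
theorem mx_box (D : DomIn Ω v K n N) {k : Idx} (hk : k ∈ K) {q : Idx}
    (hq : dyc v q.1 q.2 ⊆ dyc v k.1 k.2) : q ∈ mx v (DA Ω v K N) ↔ q.1 = N k :=
  mx_in (D.kN hk) (fun _ h h' => D.da_in hk h h') (fun _ h h' => h.2 k hk h') hq

/-- near cubes are in the open box -/
theorem near_sub (D : DomIn Ω v K n N) {k : Idx} (hk : k ∈ K) {q : Idx} (hq : N k ≤ q.1)
    (h : (dyc v q.1 q.2 ∩ blkS v k (n k)).Nonempty) : dyc v q.1 q.2 ⊆ dyo v k.1 k.2 := by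
  obtain ⟨y, hy, hyb⟩ := h
  simp only [blkS, mem_iUnion] at hyb
  obtain ⟨z, hz, hyz⟩ := hyb
  intro x hx i
  obtain ⟨h1, h2⟩ := hz i
  obtain ⟨h3, h4⟩ := hyz i
  obtain ⟨a1, a2⟩ := hx i
  obtain ⟨b1, b2⟩ := hy i
  have hgn := D.gn k hk
  have hgN := D.gN k hk
  have hlt : (1:ℝ) / 2 ^ q.1 < 1 / 2 ^ n k :=
    one_div_lt_one_div_of_lt (by positivity) (pow_lt_pow_right₀ (by norm_num) (by omega))
  obtain ⟨d, hd⟩ := Nat.exists_eq_add_of_le (show k.1 ≤ n k by omega)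
  have hdd : n k - k.1 = d := by omega
  rw [hdd] at h1 h2
  have e1 : ((2 ^ d * k.2 i + 1 : ℤ) : ℝ) / 2 ^ n k ≤ (z i : ℝ) / 2 ^ n k :=
    (div_le_div_iff_of_pos_right (by positivity)).2
      (by exact_mod_cast (show (2:ℤ) ^ d * k.2 i + 1 ≤ z i by linarith [h1]))
  have e2 : ((z i + 2 : ℤ) : ℝ) / 2 ^ n k ≤ ((2 ^ d * (k.2 i + 1) : ℤ) : ℝ) / 2 ^ n k :=
    (div_le_div_iff_of_pos_right (by positivity)).2
      (by exact_mod_cast (show z i + 2 ≤ (2:ℤ) ^ d * (k.2 i + 1) by linarith [h2]))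
  have e3 : ((2 ^ d * k.2 i + 1 : ℤ) : ℝ) / 2 ^ n k = k.2 i / 2 ^ k.1 + 1 / 2 ^ n k := by
    rw [hd, pow_add]; push_cast; field_simp
  have e4 : ((2 ^ d * (k.2 i + 1) : ℤ) : ℝ) / 2 ^ n k = (k.2 i + 1) / 2 ^ k.1 := by
    rw [hd, pow_add]; push_cast; field_simp
  have e5 : ((z i + 2 : ℤ) : ℝ) / 2 ^ n k = (z i + 1) / 2 ^ n k + 1 / 2 ^ n k := by
    push_cast; ring
  have e6 : ((q.2 i : ℝ) + 1) / 2 ^ q.1 = q.2 i / 2 ^ q.1 + 1 / 2 ^ q.1 := div_add_one _ _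
  rw [e6] at a2 b2
  constructor <;> linarith

/-- the near cubes -/
def PN (v : V) (K : Set Idx) (n N : Idx → ℕ) : Set Idx := {q | ∃ k ∈ K, IsNear v n N k q}

theorem pn_sub (D : DomIn Ω v K n N) : PN v K n N ⊆ mx v (DA Ω v K N) := by
  rintro q ⟨k, hk, hq, hne⟩
  exact (D.mx_box hk ((D.near_sub hk hq.ge hne).trans dyo_sub_dyc)).2 hq

/-- a cube of the base partition in or off the box -/
theorem box_or {q : Idx} (hq : q ∈ mx v (DA Ω v K N)) {k : Idx}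
    (hk : k ∈ K) : dyc v q.1 q.2 ⊆ dyc v k.1 k.2 ∨ Disjoint (dyo v q.1 q.2) (dyc v k.1 k.2) := by
  by_cases h : (dyo v q.1 q.2 ∩ dyc v k.1 k.2).Nonempty
  · exact Or.inl (hq.1.2 k hk h).1
  · right
    rw [Set.not_nonempty_iff_eq_empty] at h
    exact Set.disjoint_iff_inter_eq_empty.2 h

/-- a cube of the base partition, which touches a near cube -/
theorem touch_near (D : DomIn Ω v K n N) {k : Idx} (hk : k ∈ K) {q : Idx}
    (hq : IsNear v n N k q) {r : Idx} (hr : r ∈ mx v (DA Ω v K N))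
    (h : (dyc v r.1 r.2 ∩ dyc v q.1 q.2).Nonempty) :
    dyc v r.1 r.2 ⊆ dyc v k.1 k.2 ∧ r.1 = q.1 := by
  obtain ⟨x, hxr, hxq⟩ := h
  have h1 := D.near_sub hk hq.1.ge hq.2 hxq
  obtain ⟨y, hy, hy'⟩ := open_meets (isOpen_dyo v k.1 k.2) h1 hxr
  have h2 := (hr.1.2 k hk ⟨y, hy', dyo_sub_dyc hy⟩).1
  exact ⟨h2, ((D.mx_box hk h2).1 hr).trans hq.1.symm⟩

end DomIn

end Vale.Agent.P073.H194
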