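import Vale.Agent.P073.H194.Dom

/-!
# P073, block B09, [DOM]: the theorem
-/

namespace Vale.Agent.P073.H194

open MeasureTheory Set Filter Topology Metric Vale.Agent.P073.St
open Vale.Agent.P073.SQ (ev)
open Vale.Agent.P073.AB Vale.Agent.P073.AB.P86
open _root_.P073.Net (dyc dyo)
open Vale.Agent.P073.H696 (Dom SpecDom blk blkS IsNear)
open Vale.Agent.P073.H193 (refine_cases squ_gen_le squ_dyc_ineq)
open scoped ENNReal

namespace DomIn

variable {Ω : Set V} {v : V} {K : Set Idx} {n N : Idx → ℕ}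

/-- tolerances -/
theorem exists_tol (D : DomIn Ω v K n N) {ε : ℝ≥0∞} (hε : ε ≠ 0) {tol : Idx → ℝ≥0∞}
    (htol : ∀ k, tol k ≠ 0) : ∃ ε' : Idx → ℝ≥0∞, (∀ q, ε' q ≠ 0) ∧
      ∑' q : {q : Idx | ∀ k ∈ K, ¬ dyc v q.1 q.2 ⊆ dyc v k.1 k.2}, ε' q.1 ≤ ε ∧
      ∀ k ∈ K, ∑' q : {q : Idx | dyc v q.1 q.2 ⊆ dyc v k.1 k.2}, ε' q.1 ≤ tol k := by
  classical
  obtain ⟨e0, he0, he0'⟩ := ENNReal.exists_pos_sum_of_countable' hε Idx
  have h1 : ∀ k, ∃ e : Idx → ℝ≥0∞, (∀ q, 0 < e q) ∧ ∑' q, e q < tol k := fun k =>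
    ENNReal.exists_pos_sum_of_countable' (htol k) Idx
  choose e he he' using h1
  set ε' : Idx → ℝ≥0∞ := fun q =>
    if h : ∃ k ∈ K, dyc v q.1 q.2 ⊆ dyc v k.1 k.2 then e h.choose q else e0 q with hε'
  refine ⟨ε', fun q => ?_, ?_, fun k hk => ?_⟩
  · simp only [hε']
    split_ifs with h
    · exact (he _ q).ne'
    · exact (he0 q).ne'
  · have h2 : ∀ q : {q : Idx | ∀ k ∈ K, ¬ dyc v q.1 q.2 ⊆ dyc v k.1 k.2}, ε' q.1 = e0 q.1 := by
      rintro ⟨q, hq⟩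
      simp only [hε']
      rw [dif_neg]
      rintro ⟨k, hk, hqk⟩
      exact hq k hk hqk
    rw [tsum_congr h2]
    exact (ENNReal.tsum_comp_le_tsum_of_injective Subtype.val_injective e0).trans he0'.le
  · have h2 : ∀ q : {q : Idx | dyc v q.1 q.2 ⊆ dyc v k.1 k.2}, ε' q.1 = e k q.1 := by
      rintro ⟨q, hq⟩
      simp only [hε']
      have h : ∃ k ∈ K, dyc v q.1 q.2 ⊆ dyc v k.1 k.2 := ⟨k, hk, hq⟩
      rw [dif_pos h, D.uniq_sub h.choose_spec.1 hk h.choose_spec.2 hq]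
    rw [tsum_congr h2]
    exact (ENNReal.tsum_comp_le_tsum_of_injective Subtype.val_injective (e k)).trans (he' k).le

/-- the groups -/
noncomputable def grp (v : V) (K : Set Idx) (q : Idx) : Set Idx × Option Idx := by
  classical
  exact ({k | k ∈ K ∧ dyc v q.1 q.2 ⊆ dyc v k.1 k.2},
    if ∃ k ∈ K, dyc v q.1 q.2 ⊆ dyc v k.1 k.2 then none else some q)

theorem grp_eq (D : DomIn Ω v K n N) {k : Idx} (hk : k ∈ K) {q q' : Idx}
    (h : dyc v q.1 q.2 ⊆ dyc v k.1 k.2) (h' : dyc v q'.1 q'.2 ⊆ dyc v k.1 k.2) :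
    grp v K q = grp v K q' := by
  unfold grp
  refine Prod.ext ?_ ?_
  · ext k'
    constructor
    · rintro ⟨h1, h2⟩
      obtain rfl := D.uniq_sub hk h1 h h2
      exact ⟨hk, h'⟩
    · rintro ⟨h1, h2⟩
      obtain rfl := D.uniq_sub hk h1 h' h2
      exact ⟨hk, h⟩
  · simp only
    rw [if_pos ⟨k, hk, h⟩, if_pos ⟨k, hk, h'⟩]

theorem grp_finite (D : DomIn Ω v K n N) (S : Set Idx) (hS : S ⊆ mx v (DA Ω v K N))
    (a : Set Idx × Option Idx) : {q | q ∈ S ∧ grp v K q = a}.Finite := by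
  classical
  obtain ⟨a1, a2⟩ := a
  rcases a2 with _ | q₀
  · by_cases h : ∃ q₁ ∈ S, grp v K q₁ = (a1, none)
    · obtain ⟨q₁, hq₁, h1⟩ := h
      have h2 : ∃ k ∈ K, dyc v q₁.1 q₁.2 ⊆ dyc v k.1 k.2 := by
        by_contra hcon
        have h3 := congrArg Prod.snd h1
        unfold grp at h3
        simp only at h3
        rw [if_neg hcon] at h3
        exact absurd h3 (by simp)
      obtain ⟨k, hk, hkq⟩ := h2
      refine (D.part.fin _ (D.sub k hk) (isCompact_dyc v k.1 k.2)).subset ?_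
      rintro q ⟨hq, h3⟩
      have h4 : k ∈ (grp v K q).1 := by
        rw [h3, ← h1]
        exact ⟨hk, hkq⟩
      refine ⟨hS hq, cen v q.1 q.2, dyo_sub_dyc (cen_mem v q.1 q.2), ?_⟩
      exact h4.2 (dyo_sub_dyc (cen_mem v q.1 q.2))
    · refine Set.finite_empty.subset ?_
      rintro q ⟨hq, h3⟩
      exact h ⟨q, hq, h3⟩
  · refine (Set.finite_singleton q₀).subset ?_
    rintro q ⟨hq, h3⟩
    have h4 := congrArg Prod.snd h3
    unfold grp at h4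
    simp only at h4
    split_ifs at h4 with h5
    exact Option.some.inj h4

end DomIn

/-- minimal squares of the base partition in a near cube are its faces -/
theorem DomIn.minSq_near {Ω : Set V} {v : V} {K : Set Idx} {n N : Idx → ℕ}
    (D : DomIn Ω v K n N) {k : Idx} (hk : k ∈ K) {q : Idx} (hq : IsNear v n N k q)
    {s : Idx × Fin 3} (hs : MinSq v (mx v (DA Ω v K N)) s) (hsq : squ v s ⊆ dyc v q.1 q.2) :
    FaceOf s q := by
  obtain ⟨c, hc, hf⟩ := hs.1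
  have h1 : sc v s ∈ squ v s := rel_sub sc_mem
  have h2 := (D.touch_near hk hq hc ⟨_, face_sub hf h1, hsq h1⟩).2
  exact faceOf_same hsq (hf.1.trans h2)

/-- minimal squares of the refined partition in a near cube -/
theorem DomIn.minSq_near' {Ω : Set V} {v : V} {K : Set Idx} {n N : Idx → ℕ}
    (D : DomIn Ω v K n N) {nf : Idx → ℕ} (hB : Big v (mx v (DA Ω v K N)) (PN v K n N) ∅ nf)
    {k : Idx} (hk : k ∈ K) {q : Idx} (hq : IsNear v n N k q)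
    {s : Idx × Fin 3} (hs : MinSq v (refine v (mx v (DA Ω v K N)) (PN v K n N) ∅ nf) s)
    (hsq : squ v s ⊆ dyc v q.1 q.2) :
    squ v s ⊆ (⋃ r ∈ mx v (DA Ω v K N) \ PN v K n N, dyc v r.1 r.2) ∨ FaceOf s q := by
  obtain ⟨c, hc, hf⟩ := hs.1
  have h1 : sc v s ∈ squ v s := rel_sub sc_mem
  rcases refine_cases hB hc with h | ⟨r, hr, h, -⟩
  · right
    have h2 := (D.touch_near hk hq (D.pn_sub h) ⟨_, face_sub hf h1, hsq h1⟩).2
    exact faceOf_same hsq (hf.1.trans h2)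
  · left
    intro x hx
    exact mem_biUnion hr (h (face_sub hf hx))

/-- the sum over the near cubes -/
theorem DomIn.ring_le {Ω : Set V} {v : V} {K : Set Idx} {n N : Idx → ℕ}
    (D : DomIn Ω v K n N) {H : V → ℝ≥0∞} {nf : Idx → ℕ} {t : ℝ≥0∞}
    (hB : Big v (mx v (DA Ω v K N)) (PN v K n N) ∅ nf)
    {k : Idx} (hk : k ∈ K) {q : Idx} (hq : IsNear v n N k q)
    (h : cellT v (refine v (mx v (DA Ω v K N)) (PN v K n N) ∅ nf)
      (⋃ r ∈ mx v (DA Ω v K N) \ PN v K n N, dyc v r.1 r.2) H q ≤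
        36 * (∑' s : {s : Idx × Fin 3 // MinSq v (mx v (DA Ω v K N)) s ∧
          squ v s ⊆ dyc v q.1 q.2 ∧
          ∃ r ∈ mx v (DA Ω v K N) \ PN v K n N, squ v s ⊆ dyc v r.1 r.2},
            ENNReal.ofReal (1 / 2 ^ q.1) * sInt v s.1 H) + t) :
    cellT v (refine v (mx v (DA Ω v K N)) (PN v K n N) ∅ nf) univ H q ≤
    36 * (∑' t : {t : Idx × Fin 3 // FaceOf t q}, ENNReal.ofReal (1 / 2 ^ q.1) * sInt v t.1 H) +
    36 * (∑' e : {e : Idx × Fin 3 // EdgeOf e q},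
      ENNReal.ofReal ((1 / 2 ^ q.1) ^ 2) * eInt v e.1 H) + t := by
  classical
  set I₀ := mx v (DA Ω v K N) with hI₀
  set P := PN v K n N with hP
  set I := refine v I₀ P ∅ nf with hI
  set U := ⋃ r ∈ I₀ \ P, dyc v r.1 r.2 with hU
  set φ : Idx × Fin 3 → ℝ≥0∞ := fun F => ∑' e : {e : Idx × Fin 3 // EdgeOfSq e F},
    ENNReal.ofReal (1 / 2 ^ q.1 * (1 / 2 ^ F.1.1)) * eInt v e.1 H with hφ
  -- splitting
  have h1 : cellT v I univ H q ≤ cellT v I U H q + ∑' F : {F : Idx × Fin 3 // FaceOf F q}, φ F.1 := by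
    have h2 : ({F : Idx × Fin 3 | MinSq v I F ∧ squ v F ⊆ dyc v q.1 q.2 ∧ squ v F ⊆ univ}) ⊆
        {F : Idx × Fin 3 | MinSq v I F ∧ squ v F ⊆ dyc v q.1 q.2 ∧ squ v F ⊆ U} ∪
          {F : Idx × Fin 3 | FaceOf F q} := by
      rintro F ⟨h3, h4, -⟩
      rcases D.minSq_near' hB hk hq h3 h4 with h5 | h5
      · exact Or.inl ⟨h3, h4, h5⟩
      · exact Or.inr h5
    exact (ENNReal.tsum_mono_subtype φ h2).trans (ENNReal.tsum_union_le φ _ _)
  have h3 : ∑' s : {s : Idx × Fin 3 // MinSq v I₀ s ∧ squ v s ⊆ dyc v q.1 q.2 ∧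
      ∃ r ∈ I₀ \ P, squ v s ⊆ dyc v r.1 r.2}, ENNReal.ofReal (1 / 2 ^ q.1) * sInt v s.1 H ≤
      ∑' t : {t : Idx × Fin 3 // FaceOf t q}, ENNReal.ofReal (1 / 2 ^ q.1) * sInt v t.1 H := by
    refine ENNReal.tsum_mono_subtype (fun s => ENNReal.ofReal (1 / 2 ^ q.1) * sInt v s H)
      (s := {s | MinSq v I₀ s ∧ squ v s ⊆ dyc v q.1 q.2 ∧
        ∃ r ∈ I₀ \ P, squ v s ⊆ dyc v r.1 r.2}) (t := {t | FaceOf t q}) ?_
    rintro s ⟨h4, h5, -⟩
    exact D.minSq_near hk hq h4 h5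
  set E := ∑' e : {e : Idx × Fin 3 // EdgeOf e q},
      ENNReal.ofReal ((1 / 2 ^ q.1) ^ 2) * eInt v e.1 H with hE
  have h4 : ∑' F : {F : Idx × Fin 3 // FaceOf F q}, φ F.1 ≤ 6 * E := by
    refine tsum_face_le q φ E fun F hF => ?_
    have h5 : φ F = ∑' e : {e : Idx × Fin 3 // EdgeOfSq e F},
        ENNReal.ofReal ((1 / 2 ^ q.1) ^ 2) * eInt v e.1 H := by
      simp only [hφ]
      rw [hF.1, sq]
    rw [h5]
    exact ENNReal.tsum_mono_subtype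
      (fun e : Idx × Fin 3 => ENNReal.ofReal ((1 / 2 ^ q.1) ^ 2) * eInt v e H)
      (s := {e | EdgeOfSq e F}) (t := {e | EdgeOf e q}) fun e he => edgeOf_face he hF
  calc cellT v I univ H q ≤ cellT v I U H q + ∑' F : {F : Idx × Fin 3 // FaceOf F q}, φ F.1 := h1
    _ ≤ (36 * (∑' t : {t : Idx × Fin 3 // FaceOf t q},
          ENNReal.ofReal (1 / 2 ^ q.1) * sInt v t.1 H) + t) + 36 * E := by
        refine add_le_add (h.trans (by gcongr)) (h4.trans ?_)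
        gcongr
        norm_num
    _ = _ := by ring

theorem cSum_mono_all (v : V) (q : Idx) (n : ℕ) (k : Fin 3) {H H' : V → ℝ≥0∞}
    (h : ∀ x, H x ≤ H' x) : cSum v q n k H ≤ cSum v q n k H' := by
  unfold cSum
  refine Finset.sum_le_sum fun w _ => ?_
  gcongr
  exact eInt_mono fun _ _ => h _

/-- sums over cells, by base cubes -/
theorem sum_cells {I I₀ P : Set Idx} {v : V} {g a ε' : Idx → ℝ≥0∞}
    (hsum : ∀ q ∈ I₀ \ P, ∑' i : {i : Idx // i ∈ I ∧ i ∉ P ∧ i ∉ (∅ : Set Idx) ∧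
      dyc v i.1 i.2 ⊆ dyc v q.1 q.2}, g i.1 ≤ 36 * a q + ε' q) {S T : Set Idx}
    (hT : T ⊆ I₀ \ P)
    (hS : ∀ i ∈ S, i ∈ I ∧ i ∉ P ∧ ∃ q ∈ T, dyc v i.1 i.2 ⊆ dyc v q.1 q.2) :
    ∑' i : S, g i.1 ≤ 36 * ∑' q : T, a q.1 + ∑' q : T, ε' q.1 := by
  refine (tsum_fib (S := S) (T := T) (R := fun i q => dyc v i.1 i.2 ⊆ dyc v q.1 q.2)
    (fun i hi => (hS i hi).2.2) g).trans ?_
  rw [← ENNReal.tsum_mul_left, ← ENNReal.tsum_add]
  refine ENNReal.tsum_le_tsum fun q => ?_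
  refine le_trans ?_ (hsum q.1 (hT q.2))
  refine ENNReal.tsum_mono_subtype g
    (s := {i | i ∈ S ∧ dyc v i.1 i.2 ⊆ dyc v q.1.1 q.1.2})
    (t := {i | i ∈ I ∧ i ∉ P ∧ i ∉ (∅ : Set Idx) ∧ dyc v i.1 i.2 ⊆ dyc v q.1.1 q.1.2}) ?_
  rintro i ⟨h1, h2⟩
  exact ⟨(hS i h1).1, (hS i h1).2.1, by simp, h2⟩

/-- **(L3)** -/
theorem specDom : SpecDom := by
  classical
  intro Ω v nn H K n N r ε tol hΩ hnn hG hfin hK hdisj hKfin hr hε htol
  have D : DomIn Ω v K n N := ⟨hΩ.1, fun k hk => (hK k hk).1, fun k hk => (hK k hk).2.1,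
    fun k hk => (hK k hk).2.2, hdisj, hKfin⟩
  obtain ⟨ε', hε'0, hε'1, hε'2⟩ := D.exists_tol hε htol
  set I₀ := mx v (DA Ω v K N) with hI₀
  set P := DomIn.PN v K n N with hP
  -- thresholds
  have hth : ∀ q ∈ I₀, ∃ t : ℕ, ∀ y ∈ dyc v q.1 q.2, 1 / 2 ^ t ≤ r y := by
    intro q hq
    obtain ⟨c, hc, h⟩ := hr.exists_le (isCompact_dyc v q.1 q.2) (D.part.sub q hq)
    obtain ⟨t, ht⟩ := exists_pow_lt_of_lt_one hc (by norm_num : (1/2:ℝ) < 1)
    refine ⟨t, fun y hy => (h y hy).trans' ?_⟩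
    rw [← one_div_pow]
    exact ht.le
  choose! t ht using hth
  obtain ⟨nf, hB, hnf, hgrp, hsum, -, hkept⟩ := mesh_loc (DomIn.grp v K) (I := I₀) (P := P)
    (B := ∅) (nn := nn) (H := H) (ε := ε') (β := fun _ => 0)
    (a := fun q => ∫⁻ x in dyc v q.1 q.2, H x) (th := t) D.oΩ D.part D.pn_sub hnn hε'0
    (fun a => D.grp_finite (I₀ \ P) sdiff_subset a) (by simp) (by simp) (by simp)
    (fun q hq k δ hδ => by
      refine (hG.cube q k δ hδ).mono fun l hl => ?_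
      exact (cSum_mono_all v q (nn l) k (offB_le v ∅ H)).trans hl)
    (fun q hq s hs => hG.sfin s) (fun q hq s hs k hk δ hδ => hG.square s k hk δ hδ)
    (by simp) (by simp)
  set I := refine v I₀ P ∅ nf with hI
  set N' : Idx → ℕ := fun k =>
    if h : ∃ q ∈ I₀ \ P, dyc v q.1 q.2 ⊆ dyc v k.1 k.2 then nf h.choose else N k with hN'
  have hN'1 : ∀ k ∈ K, ∀ q ∈ I₀ \ P, dyc v q.1 q.2 ⊆ dyc v k.1 k.2 → nf q = N' k := by
    intro k hk q hq hqk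
    have h : ∃ q ∈ I₀ \ P, dyc v q.1 q.2 ⊆ dyc v k.1 k.2 := ⟨q, hq, hqk⟩
    simp only [hN']
    rw [dif_pos h]
    exact hgrp q hq _ h.choose_spec.1 (D.grp_eq hk hqk h.choose_spec.2)
  have hN'2 : ∀ k ∈ K, N k ≤ N' k := by
    intro k hk
    by_cases h : ∃ q ∈ I₀ \ P, dyc v q.1 q.2 ⊆ dyc v k.1 k.2
    · obtain ⟨q, hq, hqk⟩ := h
      rw [← hN'1 k hk q hq hqk, ← (D.mx_box hk hqk).1 hq.1]
      exact hB.gen q hq
    · simp only [hN']
      rw [dif_neg h]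
  have hPart : Part Ω v I := _root_.Vale.Agent.P073.H193.specRefine Ω v I₀ P ∅ nf D.oΩ D.part hB
  -- cells which are not in `P`
  have hcase : ∀ q ∈ I, q ∉ P → ∃ q₀ ∈ I₀ \ P, dyc v q.1 q.2 ⊆ dyc v q₀.1 q₀.2 ∧ q.1 = nf q₀ := by
    intro q hq hqP
    rcases refine_cases hB hq with h | ⟨q₀, hq₀, h, h'⟩
    · exact absurd h hqP
    · refine ⟨q₀, hq₀, h, ?_⟩
      rcases h' with h' | h'
      · exact absurd h'.1 (by simp)
      · exact h'.1
  have hPbox : ∀ q ∈ P, ∃ k ∈ K, IsNear v n N k q ∧ dyc v q.1 q.2 ⊆ dyc v k.1 k.2 := by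
    rintro q ⟨k, hk, hq⟩
    exact ⟨k, hk, hq, (D.near_sub hk hq.1.ge hq.2).trans dyo_sub_dyc⟩
  -- up to the base cube
  have hup : ∀ k ∈ K, ∀ q₀ ∈ I₀, ∀ q : Idx, dyc v q.1 q.2 ⊆ dyc v q₀.1 q₀.2 →
      dyc v q.1 q.2 ⊆ dyc v k.1 k.2 → dyc v q₀.1 q₀.2 ⊆ dyc v k.1 k.2 := by
    intro k hk q₀ hq₀ q h h'
    have h1 := cen_mem v q.1 q.2
    exact (hq₀.1.2 k hk ⟨_, dyo_mono h h1, h' (dyo_sub_dyc h1)⟩).1
  refine ⟨I, N', ?_⟩
  constructor
  case part => exact hPart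
  case near =>
    intro k hk z hz
    exact Or.inl (Or.inl ⟨k, hk, rfl, hz⟩)
  case gen => exact hN'2
  case box =>
    intro q hq k hk
    obtain ⟨q₀, hq₀, h⟩ := refine_sub hB hq
    rcases DomIn.box_or hq₀ hk with h1 | h1
    · exact Or.inl (h.trans h1)
    · exact Or.inr (h1.mono_left (dyo_mono h))
  case out =>
    intro k hk q hq hqk
    by_cases hqP : q ∈ P
    · obtain ⟨k', hk', h1, h2⟩ := hPbox q hqP
      obtain rfl := D.uniq_sub hk hk' hqk h2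
      exact Or.inl h1
    · right
      obtain ⟨q₀, hq₀, h1, h2⟩ := hcase q hq hqP
      have h3 := hup k hk q₀ hq₀.1 q h1 hqk
      refine ⟨h2.trans (hN'1 k hk q₀ hq₀ h3), ?_⟩
      have h4 : q₀.1 = N k := (D.mx_box hk h3).1 hq₀.1
      rw [Set.disjoint_left]
      intro x hx hxb
      exact hq₀.2 ⟨k, hk, h4, x, h1 hx, hxb⟩
  case small =>
    intro q hq hqn y hy
    have hqP : q ∉ P := fun ⟨k, hk, h⟩ => hqn k hk h
    obtain ⟨q₀, hq₀, h1, h2⟩ := hcase q hq hqP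
    refine le_trans ?_ (ht q₀ hq₀.1 y (h1 hy))
    rw [h2]
    exact one_div_le_one_div_of_le (by positivity)
      (pow_le_pow_right₀ (by norm_num) (hnf q₀ hq₀).1)
  case sumOut =>
    set T : Set Idx := {q | q ∈ I₀ \ P ∧ ∀ k ∈ K, ¬ dyc v q.1 q.2 ⊆ dyc v k.1 k.2} with hT
    have h1 := sum_cells (v := v) (g := fun i => cellT v I univ H i) hsum
      (S := {q | q ∈ I ∧ ∀ k ∈ K, ¬ dyc v q.1 q.2 ⊆ dyc v k.1 k.2}) (T := T)
      (fun q hq => hq.1) (by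
        rintro i ⟨hi, hik⟩
        have hiP : i ∉ P := fun h => by
          obtain ⟨k, hk, -, h'⟩ := hPbox i h
          exact hik k hk h'
        obtain ⟨q₀, hq₀, h1, -⟩ := hcase i hi hiP
        exact ⟨hi, hiP, q₀, ⟨hq₀, fun k hk h => hik k hk (h1.trans h)⟩, h1⟩)
    refine h1.trans (add_le_add ?_ ?_)
    · gcongr
      refine tsum_int_le D.part (fun q hq => hq.1.1) H ?_
      rintro q ⟨hq, hqk⟩ x hx
      refine ⟨D.part.sub q hq.1 (dyo_sub_dyc hx), ?_⟩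
      simp only [mem_iUnion, not_exists]
      intro k hk hxk
      exact hqk k hk (hq.1.1.2 k hk ⟨x, hx, hxk⟩).1
    · refine le_trans ?_ hε'1
      exact ENNReal.tsum_mono_subtype ε' (fun q hq => hq.2)
  case sumBox =>
    intro k hk
    set T : Set Idx := {q | q ∈ I₀ \ P ∧ dyc v q.1 q.2 ⊆ dyc v k.1 k.2} with hT
    have h1 := sum_cells (v := v) (g := fun i => cellT v I univ H i) hsum
      (S := {q | q ∈ I ∧ dyc v q.1 q.2 ⊆ dyc v k.1 k.2 ∧ ¬ IsNear v n N k q}) (T := T)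
      (fun q hq => hq.1) (by
        rintro i ⟨hi, hik, hin⟩
        have hiP : i ∉ P := fun h => by
          obtain ⟨k', hk', h1, h'⟩ := hPbox i h
          obtain rfl := D.uniq_sub hk hk' hik h'
          exact hin h1
        obtain ⟨q₀, hq₀, h1, -⟩ := hcase i hi hiP
        exact ⟨hi, hiP, q₀, ⟨hq₀, hup k hk q₀ hq₀.1 i h1 hik⟩, h1⟩)
    refine h1.trans (add_le_add ?_ ?_)
    · gcongr
      refine tsum_int_le D.part (fun q hq => hq.1.1) H ?_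
      rintro q ⟨hq, hqk⟩ x hx
      refine ⟨hqk (dyo_sub_dyc hx), fun hxb => ?_⟩
      exact hq.2 ⟨k, hk, (D.mx_box hk hqk).1 hq.1, x, dyo_sub_dyc hx, hxb⟩
    · refine le_trans ?_ (hε'2 k hk)
      exact ENNReal.tsum_mono_subtype ε' (fun q hq => hq.2)
  case ring =>
    intro k hk q hq
    have h1 : q ∈ P := ⟨k, hk, hq⟩
    refine (D.ring_le hB hk hq (hkept q h1)).trans ?_
    gcongr
    have h2 : dyc v q.1 q.2 ⊆ dyc v k.1 k.2 := (D.near_sub hk hq.1.ge hq.2).trans dyo_sub_dyc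
    exact (ENNReal.le_tsum (f := fun q : {q : Idx | dyc v q.1 q.2 ⊆ dyc v k.1 k.2} => ε' q.1)
      ⟨q, h2⟩).trans (hε'2 k hk)

end Vale.Agent.P073.H194
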