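import Vale.Agent.P073.H194.Dom2
import Vale.Agent.P073.H194.FlatN

/-!
# P073, block B10, [DOM]: the partition of the domain, with a middle plane and local sums
-/

namespace Vale.Agent.P073.H194

open MeasureTheory Set Filter Topology Metric Vale.Agent.P073.St
open Vale.Agent.P073.SQ (ev)
open Vale.Agent.P073.AB Vale.Agent.P073.AB.P86
open _root_.P073.Net (dyc dyo)
open _root_.P073.Net.NC (fine_sub fine_sub' dyc_sub parent_sub exists_mem)
open Vale.Agent.P073.H696 (Dom SpecDom blk blkS IsNear)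
open Vale.Agent.P073.H193 (refine_cases squ_gen_le squ_dyc_ineq)
open Vale.Agent.P073.H726 (LBOn)
open scoped ENNReal

/-- the class of the base cubes: compatible with the boxes; outside of the boxes the generation is
at least `m` and the size at most `r₀` -/
def DB (Ω : Set V) (v : V) (K : Set Idx) (N : Idx → ℕ) (m : ℕ) (r₀ : V → ℝ) : Set Idx :=
  {q | q ∈ DA Ω v K N ∧ ((∀ k ∈ K, ¬ dyc v q.1 q.2 ⊆ dyc v k.1 k.2) →
    m ≤ q.1 ∧ ∀ y ∈ dyc v q.1 q.2, 1 / 2 ^ q.1 ≤ r₀ y)}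

namespace DomIn

variable {Ω : Set V} {v : V} {K : Set Idx} {n N : Idx → ℕ} {m : ℕ} {r₀ : V → ℝ}

theorem locB (D : DomIn Ω v K n N) (hr₀ : LBOn Ω r₀) : ∀ x ∈ Ω, ∃ M : ℕ, ∀ᶠ y in 𝓝 x,
    ∀ q : Idx, M ≤ q.1 → y ∈ dyc v q.1 q.2 → q ∈ DB Ω v K N m r₀ := by
  intro x hx
  obtain ⟨M, hM⟩ := D.loc x hx
  obtain ⟨c, hc, hcx⟩ := hr₀ x hx
  obtain ⟨δ, hδ, hδC⟩ := Metric.mem_nhds_iff.1 (hcx.and (D.oΩ.mem_nhds hx))
  obtain ⟨M₀, hM₀⟩ := exists_pow_lt_of_lt_one (show 0 < min c (δ / 2) by positivity)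
    (by norm_num : (1/2:ℝ) < 1)
  refine ⟨max M (max m M₀), ?_⟩
  filter_upwards [hM, ball_mem_nhds x (half_pos hδ)] with y hy1 hy q hq hyq
  have h2 : (1:ℝ) / 2 ^ q.1 ≤ (1 / 2) ^ M₀ := by
    rw [one_div_pow]
    exact one_div_le_one_div_of_le (by positivity) (pow_le_pow_right₀ (by norm_num)
      ((le_max_right _ _).trans ((le_max_right _ _).trans hq)))
  refine ⟨hy1 q ((le_max_left _ _).trans hq) hyq, fun _ =>
    ⟨(le_max_left _ _).trans ((le_max_right _ _).trans hq), fun w hw => ?_⟩⟩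
  have h3 : w ∈ ball x δ := by
    rw [mem_ball, dist_eq_norm]
    rw [mem_ball, dist_eq_norm] at hy
    have h1 := _root_.P073.Net.NC.dist_le hw hyq
    calc ‖w - x‖ = ‖(w - y) + (y - x)‖ := by congr 1; abel
      _ ≤ ‖w - y‖ + ‖y - x‖ := norm_add_le _ _
      _ < δ := by linarith [hM₀.trans_le (min_le_right c (δ / 2))]
  have h4 := hδC h3
  exact (h2.trans (hM₀.le.trans (min_le_left _ _))).trans (h4.1 h4.2)

theorem partB (D : DomIn Ω v K n N) (hr₀ : LBOn Ω r₀) :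
    Part Ω v (mx v (DB Ω v K N m r₀)) :=
  part_mx (fun _ hq => hq.1.1) (D.locB hr₀)

/-- in a box the base partition has generation `N k` -/
theorem mx_boxB (D : DomIn Ω v K n N) {k : Idx} (hk : k ∈ K) {q : Idx}
    (hq : dyc v q.1 q.2 ⊆ dyc v k.1 k.2) : q ∈ mx v (DB Ω v K N m r₀) ↔ q.1 = N k :=
  mx_in (D.kN hk) (fun q' h h' => show q' ∈ DB Ω v K N m r₀ from
    ⟨D.da_in hk h h', fun hcon => absurd h (hcon k hk)⟩) (fun _ h h' => h.1.2 k hk h') hq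

theorem pn_subB (D : DomIn Ω v K n N) : PN v K n N ⊆ mx v (DB Ω v K N m r₀) := by
  rintro q ⟨k, hk, hq, hne⟩
  exact (D.mx_boxB hk ((D.near_sub hk hq.ge hne).trans dyo_sub_dyc)).2 hq

theorem box_orB {q : Idx} (hq : q ∈ mx v (DB Ω v K N m r₀)) {k : Idx}
    (hk : k ∈ K) : dyc v q.1 q.2 ⊆ dyc v k.1 k.2 ∨ Disjoint (dyo v q.1 q.2) (dyc v k.1 k.2) := by
  by_cases h : (dyo v q.1 q.2 ∩ dyc v k.1 k.2).Nonempty
  · exact Or.inl (hq.1.1.2 k hk h).1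
  · right
    rw [Set.not_nonempty_iff_eq_empty] at h
    exact Set.disjoint_iff_inter_eq_empty.2 h

theorem touch_nearB (D : DomIn Ω v K n N) {k : Idx} (hk : k ∈ K) {q : Idx}
    (hq : IsNear v n N k q) {r : Idx} (hr : r ∈ mx v (DB Ω v K N m r₀))
    (h : (dyc v r.1 r.2 ∩ dyc v q.1 q.2).Nonempty) :
    dyc v r.1 r.2 ⊆ dyc v k.1 k.2 ∧ r.1 = q.1 := by
  obtain ⟨x, hxr, hxq⟩ := h
  have h1 := D.near_sub hk hq.1.ge hq.2 hxq
  obtain ⟨y, hy, hy'⟩ := open_meets (isOpen_dyo v k.1 k.2) h1 hxr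
  have h2 := (hr.1.1.2 k hk ⟨y, hy', dyo_sub_dyc hy⟩).1
  exact ⟨h2, ((D.mx_boxB hk h2).1 hr).trans hq.1.symm⟩

/-- the generations of the base cubes -/
theorem gen_base (D : DomIn Ω v K n N) (hmN : ∀ k ∈ K, m ≤ N k) {q : Idx}
    (hq : q ∈ mx v (DB Ω v K N m r₀)) : m ≤ q.1 := by
  by_cases h : ∃ k ∈ K, dyc v q.1 q.2 ⊆ dyc v k.1 k.2
  · obtain ⟨k, hk, hqk⟩ := h
    rw [(D.mx_boxB hk hqk).1 hq]
    exact hmN k hk
  · push Not at h
    exact (hq.1.2 h).1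

theorem minSq_nearB (D : DomIn Ω v K n N) {k : Idx} (hk : k ∈ K) {q : Idx}
    (hq : IsNear v n N k q) {s : Idx × Fin 3} (hs : MinSq v (mx v (DB Ω v K N m r₀)) s)
    (hsq : squ v s ⊆ dyc v q.1 q.2) : FaceOf s q := by
  obtain ⟨c, hc, hf⟩ := hs.1
  have h1 : sc v s ∈ squ v s := rel_sub sc_mem
  have h2 := (D.touch_nearB hk hq hc ⟨_, face_sub hf h1, hsq h1⟩).2
  exact faceOf_same hsq (hf.1.trans h2)

theorem minSq_nearB' (D : DomIn Ω v K n N) {nf : Idx → ℕ}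
    (hB : Big v (mx v (DB Ω v K N m r₀)) (PN v K n N) ∅ nf)
    {k : Idx} (hk : k ∈ K) {q : Idx} (hq : IsNear v n N k q)
    {s : Idx × Fin 3} (hs : MinSq v (refine v (mx v (DB Ω v K N m r₀)) (PN v K n N) ∅ nf) s)
    (hsq : squ v s ⊆ dyc v q.1 q.2) :
    squ v s ⊆ (⋃ r ∈ mx v (DB Ω v K N m r₀) \ PN v K n N, dyc v r.1 r.2) ∨ FaceOf s q := by
  obtain ⟨c, hc, hf⟩ := hs.1
  have h1 : sc v s ∈ squ v s := rel_sub sc_mem
  rcases refine_cases hB hc with h | ⟨r, hr, h, -⟩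
  · right
    have h2 := (D.touch_nearB (m := m) (r₀ := r₀) hk hq (D.pn_subB h)
      ⟨_, face_sub hf h1, hsq h1⟩).2
    exact faceOf_same hsq (hf.1.trans h2)
  · left
    intro x hx
    exact mem_biUnion hr (h (face_sub hf hx))

end DomIn

/-- the sum over a kept cube all of whose minimal squares are faces or in divided neighbours -/
theorem kept_sum {v : V} {I I₀ : Set Idx} {U : Set V} {H : V → ℝ≥0∞} {t : ℝ≥0∞} {q : Idx}
    {Q : Idx × Fin 3 → Prop}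
    (h1 : ∀ s, MinSq v I s → squ v s ⊆ dyc v q.1 q.2 → squ v s ⊆ U ∨ FaceOf s q)
    (h2 : ∀ s, MinSq v I₀ s → squ v s ⊆ dyc v q.1 q.2 → FaceOf s q)
    (h : cellT v I U H q ≤
        36 * (∑' s : {s : Idx × Fin 3 // MinSq v I₀ s ∧ squ v s ⊆ dyc v q.1 q.2 ∧ Q s},
            ENNReal.ofReal (1 / 2 ^ q.1) * sInt v s.1 H) + t) :
    cellT v I univ H q ≤
    36 * (∑' t : {t : Idx × Fin 3 // FaceOf t q}, ENNReal.ofReal (1 / 2 ^ q.1) * sInt v t.1 H) +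
    36 * (∑' e : {e : Idx × Fin 3 // EdgeOf e q},
      ENNReal.ofReal ((1 / 2 ^ q.1) ^ 2) * eInt v e.1 H) + t := by
  classical
  set φ : Idx × Fin 3 → ℝ≥0∞ := fun F => ∑' e : {e : Idx × Fin 3 // EdgeOfSq e F},
    ENNReal.ofReal (1 / 2 ^ q.1 * (1 / 2 ^ F.1.1)) * eInt v e.1 H with hφ
  -- splitting
  have h3 : cellT v I univ H q ≤ cellT v I U H q + ∑' F : {F : Idx × Fin 3 // FaceOf F q}, φ F.1 := by
    have h4 : ({F : Idx × Fin 3 | MinSq v I F ∧ squ v F ⊆ dyc v q.1 q.2 ∧ squ v F ⊆ univ}) ⊆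
        {F : Idx × Fin 3 | MinSq v I F ∧ squ v F ⊆ dyc v q.1 q.2 ∧ squ v F ⊆ U} ∪
          {F : Idx × Fin 3 | FaceOf F q} := by
      rintro F ⟨h3, h4, -⟩
      rcases h1 F h3 h4 with h5 | h5
      · exact Or.inl ⟨h3, h4, h5⟩
      · exact Or.inr h5
    exact (ENNReal.tsum_mono_subtype φ h4).trans (ENNReal.tsum_union_le φ _ _)
  have h5 : ∑' s : {s : Idx × Fin 3 // MinSq v I₀ s ∧ squ v s ⊆ dyc v q.1 q.2 ∧ Q s},
      ENNReal.ofReal (1 / 2 ^ q.1) * sInt v s.1 H ≤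
      ∑' t : {t : Idx × Fin 3 // FaceOf t q}, ENNReal.ofReal (1 / 2 ^ q.1) * sInt v t.1 H := by
    refine ENNReal.tsum_mono_subtype (fun s => ENNReal.ofReal (1 / 2 ^ q.1) * sInt v s H)
      (s := {s | MinSq v I₀ s ∧ squ v s ⊆ dyc v q.1 q.2 ∧ Q s}) (t := {t | FaceOf t q}) ?_
    rintro s ⟨h4, h5, -⟩
    exact h2 s h4 h5
  set E := ∑' e : {e : Idx × Fin 3 // EdgeOf e q},
      ENNReal.ofReal ((1 / 2 ^ q.1) ^ 2) * eInt v e.1 H with hE
  have h6 : ∑' F : {F : Idx × Fin 3 // FaceOf F q}, φ F.1 ≤ 6 * E := by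
    refine tsum_face_le q φ E fun F hF => ?_
    have h5 : φ F = ∑' e : {e : Idx × Fin 3 // EdgeOfSq e F},
        ENNReal.ofReal ((1 / 2 ^ q.1) ^ 2) * eInt v e.1 H := by
      simp only [hφ]
      rw [hF.1, sq]
    rw [h5]
    exact ENNReal.tsum_mono_subtype
      (fun e : Idx × Fin 3 => ENNReal.ofReal ((1 / 2 ^ q.1) ^ 2) * eInt v e H)
      (s := {e | EdgeOfSq e F}) (t := {e | EdgeOf e q}) fun e he => edgeOf_face he hF
  calc cellT v I univ H q ≤ cellT v I U H q + ∑' F : {F : Idx × Fin 3 // FaceOf F q}, φ F.1 := h3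
    _ ≤ (36 * (∑' t : {t : Idx × Fin 3 // FaceOf t q},
          ENNReal.ofReal (1 / 2 ^ q.1) * sInt v t.1 H) + t) + 36 * E := by
        refine add_le_add (h.trans (by gcongr)) (h6.trans ?_)
        gcongr
        norm_num
    _ = _ := by ring

/-- the partition with a middle plane: `I₀ = mx v (DB ..)`, `P = PN v K n N` -/
structure DomM (Ω : Set V) (v : V) (H : V → ℝ≥0∞) (K : Set Idx) (n N : Idx → ℕ) (m : ℕ)
    (r₀ r : V → ℝ) (e : Idx → ℝ≥0∞) (R : Set V) (S : Finset ((Idx × Fin 3) × Fin 3))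
    (δ₁ : ℝ≥0∞) (I : Set Idx) (nf N' : Idx → ℕ) (nS : ℕ) : Prop where
  big : Big v (mx v (DB Ω v K N m r₀)) (DomIn.PN v K n N) ∅ nf
  eqI : I = refine v (mx v (DB Ω v K N m r₀)) (DomIn.PN v K n N) ∅ nf
  part₀ : Part Ω v (mx v (DB Ω v K N m r₀))
  part : Part Ω v I
  near : ∀ k ∈ K, ∀ z, (dyc v (N k) z ∩ blkS v k (n k)).Nonempty → ((N k, z) : Idx) ∈ I
  gen : ∀ k ∈ K, N k ≤ N' k
  box : ∀ q ∈ I, ∀ k ∈ K, dyc v q.1 q.2 ⊆ dyc v k.1 k.2 ∨ Disjoint (dyo v q.1 q.2) (dyc v k.1 k.2)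
  out : ∀ k ∈ K, ∀ q ∈ I, dyc v q.1 q.2 ⊆ dyc v k.1 k.2 →
    IsNear v n N k q ∨ (q.1 = N' k ∧ Disjoint (dyc v q.1 q.2) (blkS v k (n k)))
  small : ∀ q ∈ I, (∀ k ∈ K, ¬ IsNear v n N k q) → ∀ y ∈ dyc v q.1 q.2, 1 / 2 ^ q.1 ≤ r y
  /-- cells which touch `R` -/
  touch : ∀ x ∈ R, ∀ i ∈ I, x ∈ dyc v i.1 i.2 → i.1 = nS
  /-- the sums over the cells of a base cube -/
  sum : ∀ q ∈ mx v (DB Ω v K N m r₀) \ DomIn.PN v K n N,
    ∑' i : {i : Idx // i ∈ I ∧ i ∉ DomIn.PN v K n N ∧ i ∉ (∅ : Set Idx) ∧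
      dyc v i.1 i.2 ⊆ dyc v q.1 q.2}, cellT v I univ H i.1 ≤
    36 * (∫⁻ x in dyc v q.1 q.2, H x) + e q
  ring : ∀ k ∈ K, ∀ q, IsNear v n N k q → cellT v I univ H q ≤
    36 * (∑' t : {t : Idx × Fin 3 // FaceOf t q}, ENNReal.ofReal (1 / 2 ^ q.1) * sInt v t.1 H) +
    36 * (∑' e : {e : Idx × Fin 3 // EdgeOf e q},
      ENNReal.ofReal ((1 / 2 ^ q.1) ^ 2) * eInt v e.1 H) + e q
  /-- the sums on the given squares -/
  surf : ∀ s ∈ S, sInt v s.1 H ≠ ⊤ ∧ fSum v s.1 nS s.2 H ≤ sInt v s.1 H + δ₁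

theorem exists_domM {Ω : Set V} {v : V} {nn : ℕ → ℕ} {H : V → ℝ≥0∞} {K : Set Idx}
    {n N : Idx → ℕ} {m : ℕ} {r₀ r : V → ℝ} {e : Idx → ℝ≥0∞} {R : Set V}
    {S : Finset ((Idx × Fin 3) × Fin 3)} {δ₁ : ℝ≥0∞} (D : DomIn Ω v K n N)
    (hnn : StrictMono nn) (hG : Gen v nn H) (hr₀ : LBOn Ω r₀) (hr : LBOn Ω r)
    (he : ∀ q, e q ≠ 0) (hR : IsCompact R) (hRΩ : R ⊆ Ω)
    (hRK : ∀ k ∈ K, Disjoint (dyc v k.1 k.2) R) (hS : ∀ s ∈ S, s.2 ≠ s.1.2) (hδ₁ : δ₁ ≠ 0)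
    (N₁ : ℕ) : ∃ (I : Set Idx) (nf N' : Idx → ℕ) (nS : ℕ), N₁ ≤ nS ∧ nS ∈ range nn ∧
      (∀ k ∈ K, N' k ∈ range nn) ∧ DomM Ω v H K n N m r₀ r e R S δ₁ I nf N' nS := by
  classical
  set I₀ := mx v (DB Ω v K N m r₀) with hI₀
  set P := DomIn.PN v K n N with hP
  have hpart := D.partB (m := m) hr₀
  have hpn : P ⊆ I₀ := D.pn_subB
  -- thresholds
  have hth : ∀ q ∈ I₀, ∃ t : ℕ, ∀ y ∈ dyc v q.1 q.2, 1 / 2 ^ t ≤ r y := by
    intro q hq
    obtain ⟨c, hc, h⟩ := hr.exists_le (isCompact_dyc v q.1 q.2) (hpart.sub q hq)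
    obtain ⟨t, ht⟩ := exists_pow_lt_of_lt_one hc (by norm_num : (1/2:ℝ) < 1)
    refine ⟨t, fun y hy => (h y hy).trans' ?_⟩
    rw [← one_div_pow]
    exact ht.le
  choose! t ht using hth
  have hsurf : ∀ᶠ l in atTop, ∀ s ∈ S, fSum v s.1 (nn l) s.2 H ≤ sInt v s.1 H + δ₁ := by
    rw [Filter.eventually_all_finset]
    exact fun s hs => hG.square s.1 s.2 (hS s hs) δ₁ hδ₁
  obtain ⟨l₀, hl₀⟩ := eventually_atTop.1 hsurf
  set T₁ : ℕ := max N₁ (nn l₀) with hT₁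
  -- groups
  set gr : Idx → Option (Set Idx × Option Idx) := fun q =>
    if (dyc v q.1 q.2 ∩ R).Nonempty then none else some (DomIn.grp v K q) with hgr
  have hgrf : ∀ a, {q | q ∈ I₀ \ P ∧ gr q = a}.Finite := by
    rintro (_ | a)
    · refine (hpart.fin R hRΩ hR).subset ?_
      rintro q ⟨hq, h⟩
      refine ⟨hq.1, ?_⟩
      by_contra hcon
      simp only [hgr] at h
      rw [if_neg hcon] at h
      exact absurd h (by simp)
    · obtain ⟨a1, a2⟩ := a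
      rcases a2 with _ | q₀
      · by_cases h : ∃ q₁ ∈ I₀ \ P, gr q₁ = some (a1, none)
        · obtain ⟨q₁, hq₁, h1⟩ := h
          have h1' : DomIn.grp v K q₁ = (a1, none) := by
            simp only [hgr] at h1
            split_ifs at h1 with h2
            exact Option.some.inj h1
          have h2 : ∃ k ∈ K, dyc v q₁.1 q₁.2 ⊆ dyc v k.1 k.2 := by
            by_contra hcon
            have h3 := congrArg Prod.snd h1'
            unfold DomIn.grp at h3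
            simp only at h3
            rw [if_neg hcon] at h3
            exact absurd h3 (by simp)
          obtain ⟨k, hk, hkq⟩ := h2
          refine (hpart.fin _ (D.sub k hk) (isCompact_dyc v k.1 k.2)).subset ?_
          rintro q ⟨hq, h3⟩
          have h3' : DomIn.grp v K q = (a1, none) := by
            simp only [hgr] at h3
            split_ifs at h3 with h2
            exact Option.some.inj h3
          have h4 : k ∈ (DomIn.grp v K q).1 := by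
            rw [h3', ← h1']
            exact ⟨hk, hkq⟩
          refine ⟨hq.1, cen v q.1 q.2, dyo_sub_dyc (cen_mem v q.1 q.2), ?_⟩
          exact h4.2 (dyo_sub_dyc (cen_mem v q.1 q.2))
        · refine Set.finite_empty.subset ?_
          rintro q ⟨hq, h3⟩
          exact h ⟨q, hq, h3⟩
      · refine (Set.finite_singleton q₀).subset ?_
        rintro q ⟨hq, h3⟩
        simp only [hgr] at h3
        split_ifs at h3 with h2
        have h4 := congrArg Prod.snd (Option.some.inj h3)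
        unfold DomIn.grp at h4
        simp only at h4
        split_ifs at h4 with h5
        exact Option.some.inj h4
  obtain ⟨nf, hB, hnf, hgrp, hsum, -, hkept⟩ := mesh_loc gr (I := I₀) (P := P)
    (B := ∅) (nn := nn) (H := H) (ε := e) (β := fun _ => 0)
    (a := fun q => ∫⁻ x in dyc v q.1 q.2, H x) (th := fun q => max (t q) T₁) D.oΩ hpart hpn hnn he
    hgrf (by simp) (by simp) (by simp)
    (fun q hq k δ hδ => by
      refine (hG.cube q k δ hδ).mono fun l hl => ?_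
      exact (cSum_mono_all v q (nn l) k (offB_le v ∅ H)).trans hl)
    (fun q hq s hs => hG.sfin s) (fun q hq s hs k hk δ hδ => hG.square s k hk δ hδ)
    (by simp) (by simp)
  set I := refine v I₀ P ∅ nf with hI
  set N' : Idx → ℕ := fun k =>
    if h : ∃ q ∈ I₀ \ P, dyc v q.1 q.2 ⊆ dyc v k.1 k.2 then nf h.choose else nn (N k) with hN'
  have hgr1 : ∀ k ∈ K, ∀ q, dyc v q.1 q.2 ⊆ dyc v k.1 k.2 → gr q = some (DomIn.grp v K q) := by
    intro k hk q hq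
    simp only [hgr]
    rw [if_neg]
    rintro ⟨x, hx, hxR⟩
    exact Set.disjoint_left.1 (hRK k hk) (hq hx) hxR
  have hN'1 : ∀ k ∈ K, ∀ q ∈ I₀ \ P, dyc v q.1 q.2 ⊆ dyc v k.1 k.2 → nf q = N' k := by
    intro k hk q hq hqk
    have h : ∃ q ∈ I₀ \ P, dyc v q.1 q.2 ⊆ dyc v k.1 k.2 := ⟨q, hq, hqk⟩
    simp only [hN']
    rw [dif_pos h]
    refine hgrp q hq _ h.choose_spec.1 ?_
    rw [hgr1 k hk q hqk, hgr1 k hk _ h.choose_spec.2, D.grp_eq hk hqk h.choose_spec.2]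
  have hN'2 : ∀ k ∈ K, N k ≤ N' k := by
    intro k hk
    by_cases h : ∃ q ∈ I₀ \ P, dyc v q.1 q.2 ⊆ dyc v k.1 k.2
    · obtain ⟨q, hq, hqk⟩ := h
      rw [← hN'1 k hk q hq hqk, ← (D.mx_boxB hk hqk).1 hq.1]
      exact hB.gen q hq
    · simp only [hN']
      rw [dif_neg h]
      exact hnn.le_apply
  have hN'3 : ∀ k ∈ K, N' k ∈ range nn := by
    intro k hk
    by_cases h : ∃ q ∈ I₀ \ P, dyc v q.1 q.2 ⊆ dyc v k.1 k.2
    · obtain ⟨q, hq, hqk⟩ := h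
      rw [← hN'1 k hk q hq hqk]
      exact (hnf q hq).2
    · simp only [hN']
      rw [dif_neg h]
      exact ⟨_, rfl⟩
  have hPart : Part Ω v I := _root_.Vale.Agent.P073.H193.specRefine Ω v I₀ P ∅ nf D.oΩ hpart hB
  -- cells which are not in `P`
  have hcase : ∀ q ∈ I, q ∉ P → ∃ q₀ ∈ I₀ \ P, dyc v q.1 q.2 ⊆ dyc v q₀.1 q₀.2 ∧ q.1 = nf q₀ := by
    intro q hq hqP
    rcases refine_cases hB hq with h | ⟨q₀, hq₀, h, h'⟩
    · exact absurd h hqP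
    · refine ⟨q₀, hq₀, h, ?_⟩
      rcases h' with h' | h'
      · exact absurd h'.1 (by simp)
      · exact h'.1
  have hPbox : ∀ q ∈ P, ∃ k ∈ K, IsNear v n N k q ∧ dyc v q.1 q.2 ⊆ dyc v k.1 k.2 := by
    rintro q ⟨k, hk, hq⟩
    exact ⟨k, hk, hq, (D.near_sub hk hq.1.ge hq.2).trans dyo_sub_dyc⟩
  have hup : ∀ k ∈ K, ∀ q₀ ∈ I₀, ∀ q : Idx, dyc v q.1 q.2 ⊆ dyc v q₀.1 q₀.2 →
      dyc v q.1 q.2 ⊆ dyc v k.1 k.2 → dyc v q₀.1 q₀.2 ⊆ dyc v k.1 k.2 := by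
    intro k hk q₀ hq₀ q h h'
    have h1 := cen_mem v q.1 q.2
    exact (hq₀.1.1.2 k hk ⟨_, dyo_mono h h1, h' (dyo_sub_dyc h1)⟩).1
  -- the generation at `R`
  obtain ⟨nS, hnS1, hnS2, hnS3⟩ : ∃ nS, nS ∈ range nn ∧ T₁ ≤ nS ∧
      ∀ q ∈ I₀ \ P, (dyc v q.1 q.2 ∩ R).Nonempty → nf q = nS := by
    by_cases h : ∃ q ∈ I₀ \ P, (dyc v q.1 q.2 ∩ R).Nonempty
    · obtain ⟨q, hq, hqR⟩ := h
      refine ⟨nf q, (hnf q hq).2, (le_max_right _ _).trans (hnf q hq).1, fun q' hq' hqR' => ?_⟩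
      refine hgrp q' hq' q hq ?_
      simp only [hgr]
      rw [if_pos hqR, if_pos hqR']
    · push Not at h
      obtain ⟨l, hl⟩ := (hnn.tendsto_atTop.eventually_ge_atTop T₁).exists
      refine ⟨nn l, ⟨l, rfl⟩, hl, fun q hq hqR => ?_⟩
      rw [h q hq] at hqR
      exact absurd hqR (by simp)
  refine ⟨I, nf, N', nS, (le_max_left _ _).trans hnS2, hnS1, hN'3, ?_⟩
  constructor
  case big => exact hB
  case eqI => rfl
  case part₀ => exact hpart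
  case part => exact hPart
  case near =>
    intro k hk z hz
    exact Or.inl (Or.inl ⟨k, hk, rfl, hz⟩)
  case gen => exact hN'2
  case box =>
    intro q hq k hk
    obtain ⟨q₀, hq₀, h⟩ := refine_sub hB hq
    rcases DomIn.box_orB hq₀ hk with h1 | h1
    · exact Or.inl (h.trans h1)
    · exact Or.inr (h1.mono_left (dyo_mono h))
  case out =>
    intro k hk q hq hqk
    by_cases hqP : q ∈ P
    · obtain ⟨k', hk', h1, h2⟩ := hPbox q hqP
      obtain rfl := D.uniq_sub hk hk' hqk h2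
      exact Or.inl h1
    · right
      obtain ⟨q₀, hq₀, h1, h2⟩ := hcase q hq hqP
      have h3 := hup k hk q₀ hq₀.1 q h1 hqk
      refine ⟨h2.trans (hN'1 k hk q₀ hq₀ h3), ?_⟩
      have h4 : q₀.1 = N k := (D.mx_boxB hk h3).1 hq₀.1
      rw [Set.disjoint_left]
      intro x hx hxb
      exact hq₀.2 ⟨k, hk, h4, x, h1 hx, hxb⟩
  case small =>
    intro q hq hqn y hy
    have hqP : q ∉ P := fun ⟨k, hk, h⟩ => hqn k hk h
    obtain ⟨q₀, hq₀, h1, h2⟩ := hcase q hq hqP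
    refine le_trans ?_ (ht q₀ hq₀.1 y (h1 hy))
    rw [h2]
    exact one_div_le_one_div_of_le (by positivity)
      (pow_le_pow_right₀ (by norm_num) ((le_max_left _ _).trans (hnf q₀ hq₀).1))
  case touch =>
    intro x hx i hi hxi
    have hiP : i ∉ P := fun h => by
      obtain ⟨k, hk, -, h'⟩ := hPbox i h
      exact Set.disjoint_left.1 (hRK k hk) (h' hxi) hx
    obtain ⟨q₀, hq₀, h1, h2⟩ := hcase i hi hiP
    rw [h2]
    exact hnS3 q₀ hq₀ ⟨x, h1 hxi, hx⟩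
  case sum =>
    intro q hq
    exact hsum q hq
  case ring =>
    intro k hk q hq
    have h1 : q ∈ P := ⟨k, hk, hq⟩
    exact kept_sum (I := I) (I₀ := I₀)
      (fun s hs hsq => D.minSq_nearB' hB hk hq hs hsq)
      (fun s hs hsq => D.minSq_nearB hk hq hs hsq) (hkept q h1)
  case surf =>
    intro s hs
    obtain ⟨l, rfl⟩ := hnS1
    have h1 : l₀ ≤ l := hnn.le_iff_le.1 ((le_max_right _ _).trans hnS2)
    exact ⟨hG.sfin _, hl₀ l h1 s hs⟩

end Vale.Agent.P073.H194
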