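import Vale.Agent.P073.H194.Flat
import Vale.Agent.P073.H235.R2Spec
import Vale.Agent.P073.AB.Graph907

/-!
# P073, block A16, [R2-MESH]: the core rectangle of a dyadic plane
-/

namespace Vale.Agent.P073.H194

open MeasureTheory Set Filter Topology Metric Vale.Agent.P073.St
open Vale.Agent.P073.SQ (ev)
open Vale.Agent.P073.AB Vale.Agent.P073.AB.P86
open P073.Net (dyc dyo)
open Vale.Agent.P073.H73 (MinEdge)
open Vale.Agent.P073.H235 (rect redge)
open scoped ENNReal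

/-- the closed rectangle `[a 0, b 0] × [a 1, b 1]` (generation `m`) in the plane `a 2` -/
def Rg (v : V) (m : ℕ) (a b : Fin 3 → ℤ) : Set V :=
  {x | x 2 = v 2 + a 2 / 2 ^ m ∧ ∀ j, j ≠ 2 → v j + a j / 2 ^ m ≤ x j ∧ x j ≤ v j + b j / 2 ^ m}

theorem isCompact_Rg (v : V) (m : ℕ) (a b : Fin 3 → ℤ) : IsCompact (Rg v m a b) := by
  have : Rg v m a b = Set.pi univ fun j => if j = 2 then {v 2 + a 2 / 2 ^ m}
      else Icc (v j + a j / 2 ^ m) (v j + b j / 2 ^ m) := by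
    ext x
    simp only [Rg, mem_ofPred_eq, Set.mem_pi, mem_univ, forall_true_left]
    constructor
    · rintro ⟨h1, h2⟩ j
      by_cases hj : j = 2
      · subst hj; simpa using h1
      · rw [if_neg hj]; exact h2 j hj
    · intro h
      refine ⟨by simpa using h 2, fun j hj => ?_⟩
      have := h j
      rwa [if_neg hj] at this
  rw [this]
  refine isCompact_univ_pi fun j => ?_
  split_ifs
  · exact isCompact_singleton
  · exact isCompact_Icc

/-- a plane of a lower generation does not meet the open cubes -/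
theorem plane_off {v : V} {m : ℕ} {q : Idx} (h : m ≤ q.1) {a : ℤ} {x : V} {k : Fin 3}
    (hx : x k = v k + a / 2 ^ m) : x ∉ dyo v q.1 q.2 := by
  intro hxq
  obtain ⟨h1, h2⟩ := hxq k
  rw [hx] at h1 h2
  obtain ⟨d, hd⟩ := Nat.exists_eq_add_of_le h
  have e1 : (a : ℝ) / 2 ^ m = ((2 ^ d * a : ℤ) : ℝ) / 2 ^ q.1 := by
    rw [hd, pow_add]; push_cast; field_simp
  rw [e1] at h1 h2
  have hp : (0:ℝ) < 2 ^ q.1 := by positivity
  have h3 : ((q.2 k : ℤ) : ℝ) / 2 ^ q.1 < ((2 ^ d * a : ℤ) : ℝ) / 2 ^ q.1 := by linarith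
  have h4 : ((2 ^ d * a : ℤ) : ℝ) / 2 ^ q.1 < ((q.2 k + 1 : ℤ) : ℝ) / 2 ^ q.1 := by
    push_cast; push_cast at h2; linarith
  rw [div_lt_div_iff_of_pos_right hp] at h3 h4
  have h5 : q.2 k < 2 ^ d * a := by exact_mod_cast h3
  have h6 : 2 ^ d * a < q.2 k + 1 := by exact_mod_cast h4
  omega

section

variable {v : V} {m nS : ℕ} {α β a b : Fin 3 → ℤ}

/-- the same rectangle, at a higher generation -/
structure Sc (m nS : ℕ) (α β a b : Fin 3 → ℤ) : Prop where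
  le : m ≤ nS
  a : ∀ j, a j = 2 ^ (nS - m) * α j
  b : ∀ j, b j = 2 ^ (nS - m) * β j

theorem Sc.div_a (H : Sc m nS α β a b) (j : Fin 3) : (a j : ℝ) / 2 ^ nS = α j / 2 ^ m := by
  obtain ⟨d, hd⟩ := Nat.exists_eq_add_of_le H.le
  have e : nS - m = d := by omega
  rw [H.a j, e, hd, pow_add]; push_cast; field_simp

theorem Sc.div_b (H : Sc m nS α β a b) (j : Fin 3) : (b j : ℝ) / 2 ^ nS = β j / 2 ^ m := by
  obtain ⟨d, hd⟩ := Nat.exists_eq_add_of_le H.le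
  have e : nS - m = d := by omega
  rw [H.b j, e, hd, pow_add]; push_cast; field_simp

theorem mem_rect {k : Fin 3 → ℤ} : k ∈ rect a b ↔ k 2 = a 2 ∧ ∀ j, j ≠ 2 → a j ≤ k j ∧ k j < b j := by
  unfold rect
  rw [Fintype.mem_piFinset]
  constructor
  · intro h
    refine ⟨by simpa using h 2, fun j hj => ?_⟩
    have := h j
    rwa [if_neg hj, Finset.mem_Ico] at this
  · rintro ⟨h1, h2⟩ j
    by_cases hj : j = 2
    · subst hj; simpa using h1
    · rw [if_neg hj, Finset.mem_Ico]; exact h2 j hj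

theorem mem_redge {k : Fin 3 → ℤ} {i : Fin 3} (hi : i ≠ 2) : k ∈ redge a b i ↔ k 2 = a 2 ∧
    (a i ≤ k i ∧ k i < b i) ∧ ∀ j, j ≠ 2 → j ≠ i → a j ≤ k j ∧ k j ≤ b j := by
  unfold redge
  rw [Fintype.mem_piFinset]
  constructor
  · intro h
    refine ⟨by simpa using h 2, ?_, fun j hj hji => ?_⟩
    · have := h i
      rwa [if_neg hi, if_pos rfl, Finset.mem_Ico] at this
    · have := h j
      rwa [if_neg hj, if_neg hji, Finset.mem_Icc] at this
  · rintro ⟨h1, h2, h3⟩ j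
    by_cases hj : j = 2
    · subst hj; simpa using h1
    · rw [if_neg hj]
      by_cases hji : j = i
      · rw [if_pos hji, Finset.mem_Ico]; subst hji; exact h2
      · rw [if_neg hji, Finset.mem_Icc]; exact h3 j hj hji

theorem squ_sub_Rg (H : Sc m nS α β a b) {k : Fin 3 → ℤ} (hk : k ∈ rect a b) :
    squ v ((nS, k), 2) ⊆ Rg v m α β := by
  obtain ⟨h1, h2⟩ := mem_rect.1 hk
  rintro x ⟨hx1, hx2⟩
  have hp : (0:ℝ) < 2 ^ nS := by positivity
  refine ⟨?_, fun j hj => ?_⟩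
  · have hx1' : x 2 = v 2 + (k 2 : ℝ) / 2 ^ nS := hx1
    rw [hx1', ← H.div_a 2, h1]
  · obtain ⟨h3, h4⟩ := h2 j hj
    obtain ⟨h5, h6⟩ := hx2 j hj
    rw [← H.div_a j, ← H.div_b j]
    have h7 : (a j : ℝ) / 2 ^ nS ≤ k j / 2 ^ nS :=
      (div_le_div_iff_of_pos_right hp).2 (by exact_mod_cast h3)
    have h8 : ((k j : ℝ) + 1) / 2 ^ nS ≤ b j / 2 ^ nS :=
      (div_le_div_iff_of_pos_right hp).2 (by exact_mod_cast (Int.add_one_le_iff.2 h4))
    exact ⟨by linarith, by linarith⟩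

theorem edge_sub_Rg (H : Sc m nS α β a b) {i : Fin 3} (hi : i ≠ 2) {k : Fin 3 → ℤ}
    (hk : k ∈ redge a b i) : edge v ((nS, k), i) ⊆ Rg v m α β := by
  obtain ⟨h1, h2, h3⟩ := (mem_redge hi).1 hk
  intro x hx
  obtain ⟨hx1, hx2, hx3⟩ := Gr.mem_edge.1 hx
  have hp : (0:ℝ) < 2 ^ nS := by positivity
  refine ⟨?_, fun j hj => ?_⟩
  · have hx1' : x 2 = v 2 + (k 2 : ℝ) / 2 ^ nS := hx1 2 (Ne.symm hi)
    rw [hx1', ← H.div_a 2, h1]
  · rw [← H.div_a j, ← H.div_b j]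
    by_cases hji : j = i
    · subst hji
      have h7 : (a j : ℝ) / 2 ^ nS ≤ k j / 2 ^ nS :=
        (div_le_div_iff_of_pos_right hp).2 (by exact_mod_cast h2.1)
      have h8 : ((k j : ℝ) + 1) / 2 ^ nS ≤ b j / 2 ^ nS :=
        (div_le_div_iff_of_pos_right hp).2 (by exact_mod_cast (Int.add_one_le_iff.2 h2.2))
      have hx2' : v j + (k j : ℝ) / 2 ^ nS ≤ x j := hx2
      have hx3' : x j ≤ v j + ((k j : ℝ) + 1) / 2 ^ nS := hx3
      exact ⟨by linarith, by linarith⟩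
    · obtain ⟨h4, h5⟩ := h3 j hj hji
      have hxj : x j = v j + (k j : ℝ) / 2 ^ nS := hx1 j hji
      have h7 : (a j : ℝ) / 2 ^ nS ≤ k j / 2 ^ nS :=
        (div_le_div_iff_of_pos_right hp).2 (by exact_mod_cast h4)
      have h8 : (k j : ℝ) / 2 ^ nS ≤ b j / 2 ^ nS :=
        (div_le_div_iff_of_pos_right hp).2 (by exact_mod_cast h5)
      exact ⟨by linarith, by linarith⟩

/-- the position of a cube of generation `n` which contains an inner point -/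
theorem pos_half {n : ℕ} {w : Fin 3 → ℤ} {x : V} (hx : x ∈ dyc v n w) {j : Fin 3} {k : ℤ}
    (h : x j = v j + (k + 1 / 2) / 2 ^ n) : w j = k := by
  have hp : (0:ℝ) < 2 ^ n := by positivity
  obtain ⟨h1, h2⟩ := hx j
  rw [h] at h1 h2
  have h3 : (w j : ℝ) / 2 ^ n ≤ (k + 1 / 2) / 2 ^ n := by linarith
  have h4 : ((k : ℝ) + 1 / 2) / 2 ^ n ≤ (w j + 1) / 2 ^ n := by linarith
  rw [div_le_div_iff_of_pos_right hp] at h3 h4
  have h5 : w j < k + 1 := by
    have : (w j : ℝ) < (k : ℝ) + 1 := by linarith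
    exact_mod_cast this
  have h6 : k < w j + 1 := by
    have : (k : ℝ) < (w j : ℝ) + 1 := by linarith
    exact_mod_cast this
  omega

theorem pos_int {n : ℕ} {w : Fin 3 → ℤ} {x : V} (hx : x ∈ dyc v n w) {j : Fin 3} {k : ℤ}
    (h : x j = v j + k / 2 ^ n) : k = w j ∨ k = w j + 1 := by
  have hp : (0:ℝ) < 2 ^ n := by positivity
  obtain ⟨h1, h2⟩ := hx j
  rw [h] at h1 h2
  have h3 : (w j : ℝ) / 2 ^ n ≤ k / 2 ^ n := by linarith
  have h4 : (k : ℝ) / 2 ^ n ≤ (w j + 1) / 2 ^ n := by linarith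
  rw [div_le_div_iff_of_pos_right hp] at h3 h4
  have h5 : w j ≤ k := by exact_mod_cast h3
  have h6 : k ≤ w j + 1 := by exact_mod_cast h4
  omega

variable {Ω : Set V} {I : Set Idx}

/-- **(minS)** if all cells which touch the rectangle have generation `nS` -/
theorem minSq_rect (hI : Part Ω v I) (hR : Rg v m α β ⊆ Ω) (H : Sc m nS α β a b)
    (ht : ∀ x ∈ Rg v m α β, ∀ i ∈ I, x ∈ dyc v i.1 i.2 → i.1 = nS) {k : Fin 3 → ℤ}
    (hk : k ∈ rect a b) : MinSq v I ((nS, k), 2) := by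
  set s : Idx × Fin 3 := ((nS, k), 2) with hs
  have hsub := squ_sub_Rg (v := v) H hk
  have hsc : sc v s ∈ squ v s := rel_sub sc_mem
  obtain ⟨i, hi, hxi⟩ := hI.cover _ (hR (hsub hsc))
  have hgen := ht _ (hsub hsc) i hi hxi
  obtain ⟨n, w⟩ := i
  simp only at hgen hxi
  subst hgen
  refine ⟨⟨(n, w), hi, rfl, ?_, fun j hj => ?_⟩, ?_⟩
  · exact pos_int hxi hsc.1
  · have h1 : sc v s j = v j + (k j + 1 / 2) / 2 ^ n := by
      have hj' : j ≠ 2 := hj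
      simp [sc, hs, hj']
    exact (pos_half hxi h1).symm
  · rintro s' ⟨q, hq, hf⟩ hlt - hsub'
    have h1 : sc v s' ∈ squ v s' := rel_sub sc_mem
    have h2 := ht _ (hsub (hsub' h1)) q hq (face_sub hf h1)
    have h3 : s'.1.1 = q.1 := hf.1
    have h4 : s.1.1 = n := rfl
    omega

/-- **(minE)** -/
theorem minEdge_rect (hI : Part Ω v I) (hR : Rg v m α β ⊆ Ω) (H : Sc m nS α β a b)
    (ht : ∀ x ∈ Rg v m α β, ∀ i ∈ I, x ∈ dyc v i.1 i.2 → i.1 = nS) {i : Fin 3} (hi2 : i ≠ 2)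
    {k : Fin 3 → ℤ} (hk : k ∈ redge a b i) : MinEdge v I ((nS, k), i) := by
  set e : Idx × Fin 3 := ((nS, k), i) with he
  have hsub := edge_sub_Rg (v := v) H hi2 hk
  set x : V := fun j => if j = i then v j + (k j + 1 / 2) / 2 ^ nS else v j + k j / 2 ^ nS with hx
  have hp : (0:ℝ) < 1 / 2 ^ nS := by positivity
  have hxe : x ∈ edge v e := by
    refine Gr.mem_edge.2 ⟨fun j hj => ?_, ?_, ?_⟩
    · show (if j = i then _ else _) = _
      rw [if_neg hj]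
    · show v i + (k i : ℝ) / 2 ^ nS ≤ x i
      have e1 : x i = v i + (k i : ℝ) / 2 ^ nS + 1 / 2 ^ nS / 2 := by
        show (if i = i then _ else _) = _
        rw [if_pos rfl]; ring
      rw [e1]; linarith
    · show x i ≤ v i + ((k i : ℝ) + 1) / 2 ^ nS
      have e1 : x i = v i + (k i : ℝ) / 2 ^ nS + 1 / 2 ^ nS / 2 := by
        show (if i = i then _ else _) = _
        rw [if_pos rfl]; ring
      have e2 : ((k i : ℝ) + 1) / 2 ^ nS = (k i : ℝ) / 2 ^ nS + 1 / 2 ^ nS := by ring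
      rw [e1, e2]; linarith
  obtain ⟨q, hq, hxq⟩ := hI.cover _ (hR (hsub hxe))
  have hgen := ht _ (hsub hxe) q hq hxq
  obtain ⟨n, w⟩ := q
  simp only at hgen hxq
  subst hgen
  refine ⟨⟨(n, w), hq, rfl, ?_, fun j hj => ?_⟩, ?_⟩
  · refine (pos_half hxq (j := i) (k := k i) ?_).symm
    show (if i = i then _ else _) = _
    rw [if_pos rfl]
  · refine pos_int hxq (j := j) (k := k j) ?_
    show (if j = i then _ else _) = _
    rw [if_neg hj]
  · rintro e' ⟨q', hq', hf⟩ hlt hsub'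
    have h1 : pt v e'.1.1 e'.1.2 ∈ edge v e' := left_mem_segment ℝ _ _
    have h2 : pt v e'.1.1 e'.1.2 ∈ dyc v q'.1 q'.2 := by
      intro j
      obtain ⟨f1, f2, f3⟩ := hf
      have hp' : (0:ℝ) < 1 / 2 ^ q'.1 := by positivity
      have e2 : ∀ t : ℝ, (t + 1) / 2 ^ q'.1 = t / 2 ^ q'.1 + 1 / 2 ^ q'.1 := fun t => by ring
      show v j + (q'.2 j : ℝ) / 2 ^ q'.1 ≤ v j + (e'.1.2 j : ℝ) / 2 ^ e'.1.1 ∧
        v j + (e'.1.2 j : ℝ) / 2 ^ e'.1.1 ≤ v j + ((q'.2 j : ℝ) + 1) / 2 ^ q'.1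
      rw [f1]
      by_cases hj : j = e'.2
      · subst hj
        rw [f2, e2]
        exact ⟨le_rfl, by linarith⟩
      · rcases f3 j hj with h | h
        · rw [h, e2]
          exact ⟨le_rfl, by linarith⟩
        · rw [h]
          push_cast
          rw [e2]
          exact ⟨by linarith, le_rfl⟩
    have h3 := ht _ (hsub (hsub' h1)) q' hq' h2
    have h4 : e'.1.1 = q'.1 := hf.1
    have h5 : e.1.1 = n := rfl
    omega

/-- **(cov)** -/
theorem cov_rect (H : Sc m nS α β a b) (x : V) (hlt : ∀ j, j ≠ 2 → α j < β j)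
    (hx : ∀ j, j ≠ 2 → v j + α j / 2 ^ m ≤ x j ∧ x j ≤ v j + β j / 2 ^ m) :
    ∃ k ∈ rect a b, Function.update x 2 (v 2 + a 2 / 2 ^ nS) ∈ squ v ((nS, k), 2) := by
  have hp : (0:ℝ) < 2 ^ nS := by positivity
  have h1 : ∀ j, j ≠ 2 → ∃ kj : ℤ, (a j ≤ kj ∧ kj < b j) ∧
      v j + (kj : ℝ) / 2 ^ nS ≤ x j ∧ x j ≤ v j + ((kj : ℝ) + 1) / 2 ^ nS := by
    intro j hj
    obtain ⟨h2, h3⟩ := hx j hj
    rw [← H.div_a j] at h2
    rw [← H.div_b j] at h3
    have hab : a j < b j := by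
      rw [H.a j, H.b j]
      exact mul_lt_mul_of_pos_left (hlt j hj) (by positivity)
    have h4 : (a j : ℝ) ≤ 2 ^ nS * (x j - v j) := by
      have : (a j : ℝ) / 2 ^ nS ≤ x j - v j := by linarith
      rw [div_le_iff₀ hp] at this
      linarith
    have h5 : 2 ^ nS * (x j - v j) ≤ (b j : ℝ) := by
      have : x j - v j ≤ (b j : ℝ) / 2 ^ nS := by linarith
      rw [le_div_iff₀ hp] at this
      linarith
    rcases eq_or_lt_of_le h5 with h6 | h6
    · refine ⟨b j - 1, ⟨by omega, by omega⟩, ?_, ?_⟩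
      · have e1 : x j = v j + (b j : ℝ) / 2 ^ nS := by
          rw [← h6]; field_simp; ring
        have e2 : ((b j - 1 : ℤ) : ℝ) / 2 ^ nS = (b j : ℝ) / 2 ^ nS - 1 / 2 ^ nS := by
          push_cast; ring
        have : (0:ℝ) < 1 / 2 ^ nS := by positivity
        rw [e1, e2]; linarith
      · have e1 : x j = v j + (b j : ℝ) / 2 ^ nS := by
          rw [← h6]; field_simp; ring
        have e2 : (((b j - 1 : ℤ) : ℝ) + 1) / 2 ^ nS = (b j : ℝ) / 2 ^ nS := by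
          push_cast; ring
        rw [e1, e2]
    · refine ⟨⌊2 ^ nS * (x j - v j)⌋, ⟨Int.le_floor.2 h4, Int.floor_lt.2 h6⟩, ?_, ?_⟩
      · have := Int.floor_le (2 ^ nS * (x j - v j))
        have h7 : (⌊2 ^ nS * (x j - v j)⌋ : ℝ) / 2 ^ nS ≤ x j - v j := by
          rw [div_le_iff₀ hp]; linarith
        linarith
      · have := Int.lt_floor_add_one (2 ^ nS * (x j - v j))
        have h7 : x j - v j ≤ ((⌊2 ^ nS * (x j - v j)⌋ : ℝ) + 1) / 2 ^ nS := by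
          rw [le_div_iff₀ hp]; linarith
        linarith
  choose! kf hkf using h1
  refine ⟨fun j => if j = 2 then a 2 else kf j, mem_rect.2 ⟨by simp, fun j hj => ?_⟩, ?_, ?_⟩
  · simp only [if_neg hj]
    exact (hkf j hj).1
  · simp
  · intro j hj
    have hj' : j ≠ 2 := hj
    rw [Function.update_of_ne hj']
    simp only [if_neg hj']
    exact (hkf j hj').2

/-- **(plane)** the plane of the rectangle misses the open cells -/
theorem plane_refine {P B : Set Idx} {nf : Idx → ℕ} (hB : Big v I P B nf) (hm : ∀ q ∈ I, m ≤ q.1)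
    {i : Idx} (hi : i ∈ refine v I P B nf) {t : ℤ} {x : V} {k : Fin 3}
    (hx : x k = v k + t / 2 ^ m) : x ∉ dyo v i.1 i.2 := by
  obtain ⟨q, hq, hsub⟩ := refine_sub hB hi
  exact plane_off ((hm q hq).trans (gen_le hsub)) hx

/-- the cubes which meet the rectangle -/
def KR (v : V) (I : Set Idx) (m : ℕ) (α β : Fin 3 → ℤ) : Set Idx :=
  {q | q ∈ I ∧ (dyc v q.1 q.2 ∩ Rg v m α β).Nonempty}

theorem KR_finite (hI : Part Ω v I) (hR : Rg v m α β ⊆ Ω) : (KR v I m α β).Finite :=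
  hI.fin _ hR (isCompact_Rg v m α β)

theorem KR_touch (hm : ∀ q ∈ I, m ≤ q.1) {x : V} (hx : x ∈ Rg v m α β) :
    ∀ q ∈ I, x ∈ dyc v q.1 q.2 → q ∈ KR v I m α β ∧ x ∉ dyo v q.1 q.2 :=
  fun q hq hxq => ⟨⟨hq, x, hxq, hx⟩, plane_off (hm q hq) hx.1⟩

end

/-- positions at a higher generation -/
def up (m nS : ℕ) (α : Fin 3 → ℤ) : Fin 3 → ℤ := fun j => 2 ^ (nS - m) * α j

theorem sc_up {m nS : ℕ} (h : m ≤ nS) (α β : Fin 3 → ℤ) : Sc m nS α β (up m nS α) (up m nS β) :=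
  ⟨h, fun _ => rfl, fun _ => rfl⟩

namespace FlatOut

variable {ι : Type*} {p δ : ℝ} {Ω Λ : Set V} {f : V → V} {G : V → ℝ≥0∞} {v : V}
  {I : Set Idx} {z c : ι → V} {σ : ι → ℝ} {e : Idx → ℝ≥0∞} {τ : Idx → ℝ} {m : ℕ}
  {α β : Fin 3 → ℤ} {S : Finset ((Idx × Fin 3) × Fin 3)} {δ₁ : ℝ≥0∞} {B : Set Idx}
  {nf : Idx → ℕ} {nS : ℕ}

theorem gen_eq (H : FlatOut p δ Ω Λ f G v I z σ c e τ (KR v I m α β) S δ₁ B nf nS)
    (hm : ∀ q ∈ I, m ≤ q.1) : ∀ x ∈ Rg v m α β, ∀ i ∈ refine v I ∅ B nf,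
      x ∈ dyc v i.1 i.2 → i.1 = nS :=
  fun x hx => H.touch x (KR_touch hm hx)

/-- **(plane)** -/
theorem plane (H : FlatOut p δ Ω Λ f G v I z σ c e τ (KR v I m α β) S δ₁ B nf nS)
    (hm : ∀ q ∈ I, m ≤ q.1) (hmn : m ≤ nS) {i : Idx} (hi : i ∈ refine v I ∅ B nf) {x : V}
    {k : Fin 3} (hx : x k = v k + up m nS α k / 2 ^ nS) : x ∉ dyo v i.1 i.2 := by
  rw [(sc_up hmn α β).div_a k] at hx
  exact plane_refine H.big hm hi hx

/-- **(minS)** -/
theorem minS (H : FlatOut p δ Ω Λ f G v I z σ c e τ (KR v I m α β) S δ₁ B nf nS)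
    (hR : Rg v m α β ⊆ Ω) (hm : ∀ q ∈ I, m ≤ q.1) (hmn : m ≤ nS) {k : Fin 3 → ℤ}
    (hk : k ∈ rect (up m nS α) (up m nS β)) : MinSq v (refine v I ∅ B nf) ((nS, k), 2) :=
  minSq_rect H.part hR (sc_up hmn α β) (H.gen_eq hm) hk

/-- **(minE)** -/
theorem minE (H : FlatOut p δ Ω Λ f G v I z σ c e τ (KR v I m α β) S δ₁ B nf nS)
    (hR : Rg v m α β ⊆ Ω) (hm : ∀ q ∈ I, m ≤ q.1) (hmn : m ≤ nS) {i : Fin 3} (hi : i ≠ 2)
    {k : Fin 3 → ℤ} (hk : k ∈ redge (up m nS α) (up m nS β) i) :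
    MinEdge v (refine v I ∅ B nf) ((nS, k), i) :=
  minEdge_rect H.part hR (sc_up hmn α β) (H.gen_eq hm) hi hk

end FlatOut

end Vale.Agent.P073.H194
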