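import Vale.Agent.P073.H194.DomB
import Vale.Agent.P073.H239.FSpec

/-!
# P073, block B10, **(F5) [DOM-L]**
-/

namespace Vale.Agent.P073.H194

open MeasureTheory Set Filter Topology Metric Vale.Agent.P073.St
open Vale.Agent.P073.SQ (ev)
open Vale.Agent.P073.AB Vale.Agent.P073.AB.P86
open _root_.P073.Net (dyc dyo)
open Vale.Agent.P073.H696 (Dom SpecDom blk blkS IsNear)
open Vale.Agent.P073.H193 (refine_cases squ_gen_le squ_dyc_ineq)
open Vale.Agent.P073.H726 (LBOn)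
open scoped ENNReal

theorem lbOn_const (Ω : Set V) {c : ℝ} (hc : 0 < c) : LBOn Ω fun _ => c :=
  fun _ _ => ⟨c, hc, Filter.Eventually.of_forall fun _ _ => le_rfl⟩

namespace DomM

variable {Ω : Set V} {v : V} {H : V → ℝ≥0∞} {K : Set Idx} {n N : Idx → ℕ} {m : ℕ}
  {r₀ r : V → ℝ} {e : Idx → ℝ≥0∞} {R : Set V} {S : Finset ((Idx × Fin 3) × Fin 3)}
  {δ₁ : ℝ≥0∞} {I : Set Idx} {nf N' : Idx → ℕ} {nS : ℕ}

/-- cells which are not in the kept set -/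
theorem case (M : DomM Ω v H K n N m r₀ r e R S δ₁ I nf N' nS) {q : Idx} (hq : q ∈ I)
    (hqP : q ∉ DomIn.PN v K n N) : ∃ q₀ ∈ mx v (DB Ω v K N m r₀) \ DomIn.PN v K n N,
      dyc v q.1 q.2 ⊆ dyc v q₀.1 q₀.2 ∧ q.1 = nf q₀ := by
  rw [M.eqI] at hq
  rcases refine_cases M.big hq with h | ⟨q₀, hq₀, h, h'⟩
  · exact absurd h hqP
  · refine ⟨q₀, hq₀, h, ?_⟩
    rcases h' with h' | h'
    · exact absurd h'.1 (by simp)
    · exact h'.1

theorem pbox (D : DomIn Ω v K n N) {q : Idx} (hq : q ∈ DomIn.PN v K n N) :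
    ∃ k ∈ K, IsNear v n N k q ∧ dyc v q.1 q.2 ⊆ dyc v k.1 k.2 := by
  obtain ⟨k, hk, hq⟩ := hq
  exact ⟨k, hk, hq, (D.near_sub hk hq.1.ge hq.2).trans dyo_sub_dyc⟩

/-- **local sums outside of the boxes** -/
theorem sum_out (M : DomM Ω v H K n N m r₀ r e R S δ₁ I nf N' nS) (D : DomIn Ω v K n N)
    (A X : Set V)
    (hX : ∀ q : Idx, dyc v q.1 q.2 ⊆ Ω → m ≤ q.1 → (dyc v q.1 q.2 ∩ A).Nonempty →
      (∀ k ∈ K, Disjoint (dyo v q.1 q.2) (dyc v k.1 k.2)) → dyo v q.1 q.2 ⊆ X) :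
    ∑' q : {q : Idx // q ∈ I ∧ (∀ k ∈ K, ¬ dyc v q.1 q.2 ⊆ dyc v k.1 k.2) ∧
      (dyc v q.1 q.2 ∩ A).Nonempty}, cellT v I univ H q.1 ≤
        36 * (∫⁻ y in X, H y) +
          ∑' q : {q : Idx | ∀ k ∈ K, ¬ dyc v q.1 q.2 ⊆ dyc v k.1 k.2}, e q.1 := by
  set I₀ := mx v (DB Ω v K N m r₀) with hI₀
  set P := DomIn.PN v K n N with hP
  set T : Set Idx := {q | q ∈ I₀ \ P ∧ (∀ k ∈ K, ¬ dyc v q.1 q.2 ⊆ dyc v k.1 k.2) ∧
    (dyc v q.1 q.2 ∩ A).Nonempty} with hT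
  have h1 := sum_cells (v := v) (g := fun i => cellT v I univ H i)
    (a := fun q => ∫⁻ x in dyc v q.1 q.2, H x) M.sum
    (S := {q | q ∈ I ∧ (∀ k ∈ K, ¬ dyc v q.1 q.2 ⊆ dyc v k.1 k.2) ∧
      (dyc v q.1 q.2 ∩ A).Nonempty}) (T := T)
    (fun q hq => hq.1) (by
      rintro i ⟨hi, hik, y, hy, hyA⟩
      have hiP : i ∉ P := fun h => by
        obtain ⟨k, hk, -, h'⟩ := pbox D h
        exact hik k hk h'
      obtain ⟨q₀, hq₀, h1, -⟩ := M.case hi hiP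
      exact ⟨hi, hiP, q₀, ⟨hq₀, fun k hk h => hik k hk (h1.trans h), y, h1 hy, hyA⟩, h1⟩)
  refine h1.trans (add_le_add ?_ ?_)
  · gcongr
    refine tsum_int_le M.part₀ (fun q hq => hq.1.1) H ?_
    rintro q ⟨hq, hqk, hqA⟩
    refine hX q (M.part₀.sub q hq.1) (hq.1.1.2 ?_).1 hqA fun k hk => ?_
    · intro k hk h
      exact hqk k hk h
    · rcases DomIn.box_orB hq.1 hk with h | h
      · exact absurd h (hqk k hk)
      · exact h
  · exact ENNReal.tsum_mono_subtype e (fun q hq => hq.2.1)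

/-- **the structure of block B09** -/
theorem toDom (M : DomM Ω v H K n N m r₀ r e R S δ₁ I nf N' nS) (D : DomIn Ω v K n N)
    {ε : ℝ≥0∞} {tol : Idx → ℝ≥0∞}
    (he1 : ∑' q : {q : Idx | ∀ k ∈ K, ¬ dyc v q.1 q.2 ⊆ dyc v k.1 k.2}, e q.1 ≤ ε)
    (he2 : ∀ k ∈ K, ∑' q : {q : Idx | dyc v q.1 q.2 ⊆ dyc v k.1 k.2}, e q.1 ≤ tol k) :
    Dom Ω v H K n N r ε tol I N' where
  part := M.part
  near := M.near
  gen := M.gen
  box := M.box
  out := M.out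
  small := M.small
  sumOut := by
    have h1 := M.sum_out D univ (Ω \ ⋃ k ∈ K, dyc v k.1 k.2) (by
      rintro q hq - - hqk x hx
      refine ⟨hq (dyo_sub_dyc hx), ?_⟩
      simp only [mem_iUnion, not_exists]
      intro k hk hxk
      exact Set.disjoint_left.1 (hqk k hk) hx hxk)
    refine le_trans ?_ (h1.trans (add_le_add le_rfl he1))
    refine ENNReal.tsum_mono_subtype (fun q => cellT v I univ H q)
      (s := {q | q ∈ I ∧ ∀ k ∈ K, ¬ dyc v q.1 q.2 ⊆ dyc v k.1 k.2})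
      (t := {q | q ∈ I ∧ (∀ k ∈ K, ¬ dyc v q.1 q.2 ⊆ dyc v k.1 k.2) ∧
        (dyc v q.1 q.2 ∩ univ).Nonempty}) ?_
    rintro q ⟨h1, h2⟩
    exact ⟨h1, h2, cen v q.1 q.2, dyo_sub_dyc (cen_mem v q.1 q.2), mem_univ _⟩
  sumBox := by
    intro k hk
    set I₀ := mx v (DB Ω v K N m r₀) with hI₀
    set P := DomIn.PN v K n N with hP
    set T : Set Idx := {q | q ∈ I₀ \ P ∧ dyc v q.1 q.2 ⊆ dyc v k.1 k.2} with hT
    have h1 := sum_cells (v := v) (g := fun i => cellT v I univ H i)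
      (a := fun q => ∫⁻ x in dyc v q.1 q.2, H x) M.sum
      (S := {q | q ∈ I ∧ dyc v q.1 q.2 ⊆ dyc v k.1 k.2 ∧ ¬ IsNear v n N k q}) (T := T)
      (fun q hq => hq.1) (by
        rintro i ⟨hi, hik, hin⟩
        have hiP : i ∉ P := fun h => by
          obtain ⟨k', hk', h1, h'⟩ := pbox D h
          obtain rfl := D.uniq_sub hk hk' hik h'
          exact hin h1
        obtain ⟨q₀, hq₀, h1, -⟩ := M.case hi hiP
        have h2 := cen_mem v i.1 i.2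
        exact ⟨hi, hiP, q₀, ⟨hq₀, (hq₀.1.1.1.2 k hk
          ⟨_, dyo_mono h1 h2, hik (dyo_sub_dyc h2)⟩).1⟩, h1⟩)
    refine h1.trans (add_le_add ?_ ?_)
    · gcongr
      refine tsum_int_le M.part₀ (fun q hq => hq.1.1) H ?_
      rintro q ⟨hq, hqk⟩ x hx
      refine ⟨hqk (dyo_sub_dyc hx), fun hxb => ?_⟩
      exact hq.2 ⟨k, hk, (D.mx_boxB hk hqk).1 hq.1, x, dyo_sub_dyc hx, hxb⟩
    · refine le_trans ?_ (he2 k hk)
      exact ENNReal.tsum_mono_subtype e (fun q hq => hq.2)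
  ring := by
    intro k hk q hq
    refine (M.ring k hk q hq).trans ?_
    gcongr
    have h2 : dyc v q.1 q.2 ⊆ dyc v k.1 k.2 := (D.near_sub hk hq.1.ge hq.2).trans dyo_sub_dyc
    exact (ENNReal.le_tsum (f := fun q : {q : Idx | dyc v q.1 q.2 ⊆ dyc v k.1 k.2} => e q.1)
      ⟨q, h2⟩).trans (he2 k hk)

end DomM

/-- **(F5)** -/
theorem specDomL : H239.SpecDomL := by
  intro Ω v nn H S r₀ N₁ hΩ hnn hG hfin hr₀ hSΩ hS K n N r ε tol hK hdisj hKfin hKS hr hε htol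
  have D : DomIn Ω v K n N := ⟨hΩ.1, fun k hk => (hK k hk).1, fun k hk => (hK k hk).2.1,
    fun k hk => (hK k hk).2.2, hdisj, hKfin⟩
  obtain ⟨ε', hε'0, hε'1, hε'2⟩ := D.exists_tol hε htol
  obtain ⟨m, hm⟩ := exists_pow_lt_of_lt_one hr₀ (by norm_num : (1/2:ℝ) < 1)
  obtain ⟨I, nf, N', nS, hnS1, hnS2, hNN, M⟩ := exists_domM (m := m) (r₀ := fun _ => 1) (r := r)
    (e := ε') (R := S) (S := ∅) (δ₁ := 1) D hnn hG (lbOn_const Ω one_pos) hr hε'0 hS hSΩ hKS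
    (by simp) one_ne_zero N₁
  refine ⟨I, N', ⟨M.toDom D hε'1 hε'2, fun A => ?_⟩, hNN, nS, hnS1, hnS2, fun x hx q hq hxq =>
    M.touch x hx q hq hxq⟩
  refine (M.sum_out D A _ ?_).trans (add_le_add le_rfl hε'1)
  rintro q hqΩ hmq ⟨a, haq, haA⟩ hqk x hx
  refine ⟨⟨hqΩ (dyo_sub_dyc hx), ?_⟩, ?_⟩
  · refine (infDist_le_dist_of_mem haA).trans ?_
    rw [dist_eq_norm]
    refine (_root_.P073.Net.NC.dist_le (dyo_sub_dyc hx) haq).trans ?_
    refine le_trans ?_ hm.le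
    rw [← one_div_pow]
    exact pow_le_pow_of_le_one (by norm_num) (by norm_num) hmq
  · simp only [mem_iUnion, not_exists]
    intro k hk hxk
    exact Set.disjoint_left.1 (hqk k hk) hx hxk

end Vale.Agent.P073.H194
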