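import Vale.Agent.P073.H194.Faces

/-!
# P073, block B09, [DOM]: maximal cubes of a class of dyadic cubes
-/

namespace Vale.Agent.P073.H194

open MeasureTheory Set Filter Topology Metric Vale.Agent.P073.St
open Vale.Agent.P073.SQ (ev)
open Vale.Agent.P073.AB Vale.Agent.P073.AB.P86
open _root_.P073.Net (dyc dyo)
open _root_.P073.Net.NC (fine_sub fine_sub' dyc_sub parent_sub exists_mem)
open scoped ENNReal

theorem sub_open {v : V} {m m' : ℕ} {z z' : Fin 3 → ℤ} (h : m ≤ m') {x : V}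
    (hx : x ∈ dyo v m z) (hx' : x ∈ dyc v m' z') : dyc v m' z' ⊆ dyc v m z :=
  dyc_sub (fine_sub h hx hx')

theorem sub_open' {v : V} {m m' : ℕ} {z z' : Fin 3 → ℤ} (h : m' ≤ m) {x : V}
    (hx : x ∈ dyo v m z) (hx' : x ∈ dyc v m' z') : dyc v m z ⊆ dyc v m' z' :=
  dyc_sub (fine_sub' h hx hx')

/-- the cubes of one generation which meet a compact set -/
theorem finite_dyc_meet (v : V) (m : ℕ) {C : Set V} (hC : IsCompact C) :
    {z : Fin 3 → ℤ | (dyc v m z ∩ C).Nonempty}.Finite := by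
  obtain ⟨R, hR⟩ := hC.isBounded.subset_closedBall v
  obtain ⟨N, hN⟩ := exists_nat_gt ((|R| + 1) * 2 ^ m)
  refine (Set.Finite.pi' fun _ : Fin 3 => Set.finite_Icc (-(N:ℤ) - 1) (N:ℤ)).subset ?_
  rintro z ⟨x, hx, hxC⟩ k
  have h1 := hR hxC
  rw [mem_closedBall, dist_eq_norm] at h1
  have h2 : |x k - v k| ≤ |R| := by
    have := norm_le_pi_norm (x - v) k
    rw [Pi.sub_apply, Real.norm_eq_abs] at this
    exact this.trans (h1.trans (le_abs_self R))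
  obtain ⟨h3, h4⟩ := hx k
  have hp : (0:ℝ) < 2 ^ m := by positivity
  have h2' := abs_le.1 h2
  have h5 : (z k : ℝ) / 2 ^ m ≤ |R| := by linarith
  have h6 : -|R| ≤ ((z k : ℝ) + 1) / 2 ^ m := by linarith
  rw [div_le_iff₀ hp] at h5
  rw [le_div_iff₀ hp] at h6
  have h7 : |R| * 2 ^ m ≤ N := by nlinarith
  constructor
  · have : (-(N:ℝ)) ≤ z k + 1 := by linarith
    have h8 : (-(N:ℤ)) ≤ z k + 1 := by exact_mod_cast this
    linarith
  · have : (z k : ℝ) ≤ N := by linarith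
    exact_mod_cast this

/-- maximal cubes of the class `A` -/
def mx (v : V) (A : Set Idx) : Set Idx :=
  {q | q ∈ A ∧ ∀ r ∈ A, dyc v q.1 q.2 ⊆ dyc v r.1 r.2 → r = q}

theorem idx_eq {v : V} {q r : Idx} (h : dyc v q.1 q.2 ⊆ dyc v r.1 r.2) (hg : q.1 ≤ r.1) :
    r = q := by
  obtain ⟨m, z⟩ := q
  obtain ⟨m', z'⟩ := r
  have h1 : m' = m := le_antisymm (gen_le h) hg
  subst h1
  exact Prod.ext rfl (eq_of_sub_same h).symm

theorem exists_mx {v : V} {A : Set Idx} {x : V} {q : Idx} (hq : q ∈ A) (hx : x ∈ dyc v q.1 q.2) :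
    ∃ r ∈ mx v A, x ∈ dyc v r.1 r.2 := by
  classical
  have hex : ∃ m, ∃ r ∈ A, r.1 = m ∧ x ∈ dyc v r.1 r.2 := ⟨q.1, q, hq, rfl, hx⟩
  obtain ⟨r, hr, hrm, hxr⟩ := Nat.find_spec hex
  refine ⟨r, ⟨hr, fun s hs hrs => ?_⟩, hxr⟩
  refine idx_eq hrs ?_
  by_contra hcon
  push Not at hcon
  exact Nat.find_min hex (hrm ▸ hcon) ⟨s, hs, rfl, hrs hxr⟩

/-- **maximal cubes form a partition** -/
theorem part_mx {Ω : Set V} {v : V} {A : Set Idx} (hsub : ∀ q ∈ A, dyc v q.1 q.2 ⊆ Ω)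
    (hloc : ∀ x ∈ Ω, ∃ M : ℕ, ∀ᶠ y in 𝓝 x, ∀ q : Idx, M ≤ q.1 → y ∈ dyc v q.1 q.2 → q ∈ A) :
    Part Ω v (mx v A) where
  sub q hq := hsub q hq.1
  cover x hx := by
    obtain ⟨M, hM⟩ := hloc x hx
    obtain ⟨z, hz⟩ := exists_mem v M x
    exact exists_mx (q := (M, z)) (hM.self_of_nhds (M, z) le_rfl hz) hz
  disj q hq q' hq' hne := by
    rw [Set.disjoint_left]
    intro x hx hx'
    rcases le_total q.1 q'.1 with h | h
    · exact hne (hq'.2 q hq.1 (sub_open h hx hx'))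
    · exact hne (hq.2 q' hq'.1 (sub_open' h hx hx')).symm
  fin C hCΩ hC := by
    have key : ∃ M : ℕ, ∀ y ∈ C, ∀ q : Idx, M ≤ q.1 → y ∈ dyc v q.1 q.2 → q ∈ A := by
      refine hC.induction_on (p := fun S => ∃ M : ℕ, ∀ y ∈ S, ∀ q : Idx, M ≤ q.1 →
        y ∈ dyc v q.1 q.2 → q ∈ A) ⟨0, by simp⟩ ?_ ?_ ?_
      · rintro S S' hS ⟨M, h⟩
        exact ⟨M, fun x hx => h x (hS hx)⟩
      · rintro S S' ⟨M, h⟩ ⟨M', h'⟩
        refine ⟨max M M', ?_⟩
        rintro x (hx | hx) q hq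
        · exact h x hx q ((le_max_left _ _).trans hq)
        · exact h' x hx q ((le_max_right _ _).trans hq)
      · intro x hx
        obtain ⟨M, hM⟩ := hloc x (hCΩ hx)
        exact ⟨_, mem_nhdsWithin_of_mem_nhds hM, M, fun y hy => hy⟩
    obtain ⟨M, hM⟩ := key
    have h1 : ∀ q ∈ mx v A, (dyc v q.1 q.2 ∩ C).Nonempty → q.1 ≤ M := by
      rintro q hq ⟨y, hy, hyC⟩
      by_contra hcon
      push Not at hcon
      obtain ⟨m, z⟩ := q
      obtain ⟨n, rfl⟩ : ∃ n, m = n + 1 := ⟨m - 1, by simp only at hcon; omega⟩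
      simp only at hcon hy
      have h2 := hM y hyC (n, fun k => z k / 2) (by simp only; omega) (parent_sub hy)
      have h3 := hq.2 _ h2 (parent_sub (v := v) (n := n) (z := z))
      have h4 := congrArg Prod.fst h3
      simp only at h4
      omega
    refine ((Set.finite_Iic M).biUnion fun m _ =>
      (finite_dyc_meet v m hC).image fun z => ((m, z) : Idx)).subset ?_
    rintro q ⟨hq, hqC⟩
    exact mem_biUnion (x := q.1) (h1 q hq hqC) ⟨q.2, hqC, rfl⟩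

theorem dyo_mono {v : V} {q r : Idx} (h : dyc v q.1 q.2 ⊆ dyc v r.1 r.2) :
    dyo v q.1 q.2 ⊆ dyo v r.1 r.2 := by
  intro x hx k
  have h1 := sub_ineq h k
  have h2 := hx k
  constructor <;> linarith [h1.1, h1.2, h2.1, h2.2]

/-- the maximal cubes in a cube all of whose cubes of generation `≥ N` (and no others) are in the
class -/
theorem mx_in {v : V} {A : Set Idx} {k : Idx} {N : ℕ} (hkN : k.1 ≤ N)
    (h1 : ∀ q : Idx, dyc v q.1 q.2 ⊆ dyc v k.1 k.2 → N ≤ q.1 → q ∈ A)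
    (h2 : ∀ q ∈ A, (dyo v q.1 q.2 ∩ dyc v k.1 k.2).Nonempty →
      dyc v q.1 q.2 ⊆ dyc v k.1 k.2 ∧ N ≤ q.1) {q : Idx}
    (hq : dyc v q.1 q.2 ⊆ dyc v k.1 k.2) : q ∈ mx v A ↔ q.1 = N := by
  have hc : cen v q.1 q.2 ∈ dyo v q.1 q.2 := cen_mem v q.1 q.2
  constructor
  · intro h
    obtain ⟨-, h3⟩ := h2 q h.1 ⟨_, hc, hq (dyo_sub_dyc hc)⟩
    by_contra hne
    obtain ⟨m, z⟩ := q
    simp only at h3 hne hc hq
    obtain ⟨n, rfl⟩ : ∃ n, m = n + 1 := ⟨m - 1, by omega⟩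
    have h4 : dyc v n (fun k => z k / 2) ⊆ dyc v k.1 k.2 :=
      sub_open' (by omega) (dyo_mono (q := (n + 1, z)) (r := (n, fun k => z k / 2)) parent_sub hc)
        (hq (dyo_sub_dyc hc))
    have h5 := h1 (n, fun k => z k / 2) h4 (by simp only; omega)
    have h6 := h.2 _ h5 parent_sub
    have h7 := congrArg Prod.fst h6
    simp only at h7
    omega
  · intro h
    refine ⟨h1 q hq h.ge, fun r hr hqr => ?_⟩
    refine idx_eq hqr ?_
    obtain ⟨-, h3⟩ := h2 r hr ⟨_, dyo_mono hqr hc, hq (dyo_sub_dyc hc)⟩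
    omega

end Vale.Agent.P073.H194
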