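import Vale.Agent.P073.H83.SqRel
import Vale.Agent.P073.H193.Edg

/-!
# P073, H194: edges of dyadic squares are axis-parallel (boxes)
-/

open Set Metric Topology

namespace Vale.Agent.P073.H194

open Vale.Agent.P073.St (V)
open Vale.Agent.P073.AB (Idx squ)
open Vale.Agent.P073.AB.P86
open Vale.Agent.P073.H73 (Mesh)
open Vale.Agent.P073.H193 (Edges)
open _root_.P073.Net (dyc)

/-- a segment whose end points differ in one coordinate only is a box -/
theorem segment_eq_uIcc_of {a b : V} {l : Fin 3} (h : ∀ k, k ≠ l → a k = b k) :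
    segment ℝ a b = uIcc a b := by
  have ha : Function.update a l (a l) = a := Function.update_eq_self l a
  have hb : Function.update a l (b l) = b := by
    funext k
    by_cases hk : k = l
    · subst hk; simp
    · rw [Function.update_of_ne hk]; exact h k hk
  have h1 := Pi.image_update_segment (𝕜 := ℝ) l (a l) (b l) a
  have h2 := Set.image_update_uIcc a l (a l) (b l)
  rw [segment_eq_uIcc, h2, ha, hb] at h1
  exact h1.symm

/-- a segment in the relative boundary of a dyadic square -/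
theorem exists_axis {a b v : V} {s : Idx × Fin 3} (hs : segment ℝ a b ⊆ squ v s)
    (hd : Disjoint (segment ℝ a b) (intrinsicInterior ℝ (squ v s))) :
    ∃ l, l ≠ s.2 ∧ ∀ k, k ≠ l → a k = b k := by
  rw [_root_.Vale.Agent.P073.H83.intrinsicInterior_squ] at hd
  have hm := midpoint_mem_segment (𝕜 := ℝ) a b
  have hmid : ∀ k, midpoint ℝ a b k = (a k + b k) / 2 := by
    intro k
    rw [midpoint_eq_smul_add]
    simp [smul_eq_mul]; ring
  have ha := hs (left_mem_segment ℝ a b)
  have hb := hs (right_mem_segment ℝ a b)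
  have hmr := disjoint_left.1 hd hm
  have h1 : ∃ k, k ≠ s.2 ∧ a k = b k := by
    by_contra hcon
    push Not at hcon
    refine hmr ⟨(hs hm).1, fun k hk => ?_⟩
    have h2 := hcon k hk
    have h3 := ha.2 k hk
    have h4 := hb.2 k hk
    rw [hmid]
    rcases lt_or_gt_of_ne h2 with h5 | h5
    · constructor <;> linarith
    · constructor <;> linarith
  obtain ⟨k, hk, hkab⟩ := h1
  have h5 : a s.2 = b s.2 := by rw [ha.1, hb.1]
  have h6 : ∀ k i : Fin 3, k ≠ i → ∃ l, l ≠ i ∧ ∀ j, j ≠ l → j = i ∨ j = k := by decide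
  obtain ⟨l, hl, hl2⟩ := h6 k s.2 hk
  refine ⟨l, hl, fun j hj => ?_⟩
  rcases hl2 j hj with rfl | rfl
  · exact h5
  · exact hkab

/-- **[EDGE-AXIS]** an edge of a mesh in a face which is a dyadic square -/
theorem seg_axis {Ω : Set V} {M : Mesh Ω} (E : Edges M) {e : E.ε} {k : M.κ} {v : V}
    {s : Idx × Fin 3} (hk : M.F k = squ v s) (he : E.seg e ⊆ M.F k) :
    ∃ l, l ≠ s.2 ∧ (∀ j, j ≠ l → E.a e j = E.b e j) ∧ E.a e l ≠ E.b e l ∧
      E.seg e = Icc (E.a e ⊓ E.b e) (E.a e ⊔ E.b e) := by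
  have h1 : segment ℝ (E.a e) (E.b e) ⊆ squ v s := hk ▸ he
  have h2 : Disjoint (segment ℝ (E.a e) (E.b e)) (intrinsicInterior ℝ (squ v s)) := by
    have := E.rel e k
    rwa [hk] at this
  obtain ⟨l, hl, h3⟩ := exists_axis h1 h2
  refine ⟨l, hl, h3, fun h4 => E.ne e ?_, segment_eq_uIcc_of h3⟩
  funext j
  by_cases hj : j = l
  · rw [hj]; exact h4
  · exact h3 j hj

theorem seg_box {Ω : Set V} {M : Mesh Ω} (E : Edges M) {e : E.ε} {k : M.κ} {v : V}
    {s : Idx × Fin 3} (hk : M.F k = squ v s) (he : E.seg e ⊆ M.F k) :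
    ∃ lo hi, E.seg e = Icc lo hi := by
  obtain ⟨-, -, -, -, h⟩ := seg_axis E hk he
  exact ⟨_, _, h⟩

theorem squ_box (v : V) (s : Idx × Fin 3) : ∃ lo hi, squ v s = Icc lo hi :=
  ⟨_, _, _root_.Vale.Agent.P073.H83.squ_eq_Icc v s⟩

theorem dyc_box (v : V) (m : ℕ) (z : Fin 3 → ℤ) : ∃ lo hi, dyc v m z = Icc lo hi :=
  ⟨_, _, _root_.Vale.Agent.P073.H83.dyc_eq_Icc v m z⟩

theorem closedBall_eq_Icc (a : V) {r : ℝ} (hr : 0 ≤ r) :
    closedBall a r = Icc (fun k => a k - r) (fun k => a k + r) := by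
  ext x
  rw [mem_closedBall_iff_norm, pi_norm_le_iff_of_nonneg hr]
  constructor
  · intro h
    refine ⟨fun k => ?_, fun k => ?_⟩
    · have := (abs_le.1 (h k)).1
      simp only [Pi.sub_apply] at this
      show a k - r ≤ x k
      linarith
    · have := (abs_le.1 (h k)).2
      simp only [Pi.sub_apply] at this
      show x k ≤ a k + r
      linarith
  · intro h k
    have h1 : a k - r ≤ x k := h.1 k
    have h2 : x k ≤ a k + r := h.2 k
    exact abs_le.2 ⟨by simp only [Pi.sub_apply]; linarith, by simp only [Pi.sub_apply]; linarith⟩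

theorem closedBall_box (a : V) {r : ℝ} (hr : 0 ≤ r) : ∃ lo hi, closedBall a r = Icc lo hi :=
  ⟨_, _, closedBall_eq_Icc a hr⟩

theorem singleton_box (a : V) : ∃ lo hi, ({a} : Set V) = Icc lo hi := ⟨a, a, (Icc_self a).symm⟩

end Vale.Agent.P073.H194
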