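import Vale.Agent.P073.H267.K3St2
import Vale.Agent.P073.H142.FaceG
import Vale.Agent.P073.H579.FaceClP
import Vale.Agent.P073.H687.Dict
import Vale.Agent.P073.H233.Tail3I

/-!
# P073, [FACE3]: the clause `Last3.face`, part 1: the face estimate for any last map

* `exists_tnum`: the tolerance of a face (`t ≤ ε / σ * length of the edge`);
* `S1.num_face`: `Num` from the numbers of ROUND T;
* `S3.face_core`: `FaceOK3` from `LAtC` on the face, for peeled faces and for the other drawn faces;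
* `act_of_Z`, `wc_of_Z`, `wc_of_not_full`: the classes of the faces.
-/

open Set Metric Topology Filter MeasureTheory
open scoped ENNReal

set_option linter.unusedSectionVars false

namespace Vale.Agent.P073.H267.K3

open _root_.P073 _root_.P073.Net _root_.P073.PA691 _root_.P073.H236 _root_.P073.H579
open _root_.P073.H936 _root_.P073.H936.K3
open _root_.P073.H142 (FStar Num elen_pos)
open _root_.P073.H345 (PK tg PLev)
open _root_.P073.H880.RP
open Vale.Agent.P073.St (V)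
open Vale.Agent.P073.H471 Vale.Agent.P073.H267
open Vale.Agent.P073.H73 (Mesh onSeg sqr)
open Vale.Agent.P073.H193 (Edges edges LAtC FaceCl)
open Vale.Agent.P073.H304 (Nb Zmax)
open Vale.Agent.P073.H926
open Vale.Agent.P073.H238.K3
open Vale.Agent.P073.H233 (Xp Adm PSet LAt FaceOK3)

/-! ### numbers -/

section num

variable {Ω : Set V} (M : Mesh Ω) (k : M.κ)

/-- **the tolerance of a face** -/
theorem exists_tnum {ε : ℝ} (hε : 0 < ε) : ∃ t > 0, t ≤ ε ∧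
    ∀ e, (edges M).seg e ⊆ M.F k → ∀ (a : V) (l : Fin 3) (σ : ℝ), 0 < σ → M.F k = sqr a l σ →
      t ≤ ε / σ * ‖(edges M).b e - (edges M).a e‖ := by
  obtain ⟨T⟩ := _root_.P073.H142.exists_fstar (edges M) k
  have hfin := (edges M).fin_face k
  have key : ∀ S : Set (edges M).ε, S.Finite → ∃ m > 0, ∀ e ∈ S,
      m ≤ ‖(edges M).b e - (edges M).a e‖ := by
    intro S hS
    induction S, hS using Set.Finite.induction_on with
    | empty => exact ⟨1, one_pos, fun e he => absurd he (notMem_empty e)⟩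
    | insert _ _ ih =>
      rename_i e S _ _
      obtain ⟨m, hm, h1⟩ := ih
      refine ⟨min m ‖(edges M).b e - (edges M).a e‖, lt_min hm (elen_pos (edges M) e), ?_⟩
      rintro e' (rfl | he')
      · exact min_le_right _ _
      · exact (min_le_left _ _).trans (h1 e' he')
  obtain ⟨m, hm, h1⟩ := key _ hfin
  have hr := T.rho_pos
  refine ⟨min ε (ε / T.rho * m), lt_min hε (by positivity), min_le_left _ _, ?_⟩
  intro e he a l σ hσ hF
  obtain ⟨-, h2, -⟩ := T.sq a l σ hσ hF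
  refine (min_le_right _ _).trans ?_
  rw [h2]
  exact mul_le_mul_of_nonneg_left (h1 e he) (by positivity)

/-- the tolerances `m e` of the edges are admissible for the face `k` with tolerance `ε` -/
def FTol (ε : ℝ) (m : (edges M).ε → ℝ) : Prop :=
  ∃ t ≤ ε, (∀ e, (edges M).seg e ⊆ M.F k → ∀ (a : V) (l : Fin 3) (σ : ℝ), 0 < σ →
    M.F k = sqr a l σ → t ≤ ε / σ * ‖(edges M).b e - (edges M).a e‖) ∧
    ∀ e, (edges M).seg e ⊆ M.F k → m e ≤ t

variable {M} in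
theorem FTol.mono {ε : ℝ} {m m' : (edges M).ε → ℝ} (H : FTol M k ε m) (h : ∀ e, m' e ≤ m e) :
    FTol M k ε m' := by
  obtain ⟨t, h1, h2, h3⟩ := H
  exact ⟨t, h1, h2, fun e he => (h e).trans (h3 e he)⟩

/-- **slot (1)**: the bound of `εe` -/
theorem exists_ftol {ε : M.κ → ℝ} (hε : ∀ k, 0 < ε k) : ∃ m : (edges M).ε → ℝ,
    (∀ e, 0 < m e) ∧ ∀ m' : (edges M).ε → ℝ, (∀ e, m' e ≤ m e) → ∀ k, FTol M k (ε k) m' := by
  choose t h0 h1 h2 using fun k => exists_tnum M k (hε k)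
  obtain ⟨m, hm, h3⟩ := Vale.Agent.P073.H669.exists_le_of_finite
    (R := fun (e : (edges M).ε) k => (edges M).seg e ⊆ M.F k)
    (Vale.Agent.P073.H233.finite_faces_edge M) (f := t) h0
  exact ⟨m, hm, fun m' hm' k => ⟨t k, h1 k, h2 k, fun e he => (hm' e).trans (h3 e k he)⟩⟩

/-- **the numbers `τ k`** (chosen after the numbers `bn` of the edges) -/
theorem exists_tauk {b : (edges M).ε → ℝ} (hb : ∀ e, 0 < b e) : ∃ τ : M.κ → ℝ,
    (∀ k, 0 < τ k) ∧ ∀ k e, (edges M).seg e ⊆ M.F k →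
      τ k * ‖(edges M).b e - (edges M).a e‖ ≤ b e := by
  obtain ⟨τ, h0, h1⟩ := Vale.Agent.P073.H669.exists_le_of_finite
    (R := fun k (e : (edges M).ε) => (edges M).seg e ⊆ M.F k) (fun k => (edges M).fin_face k)
    (f := fun e => b e / ‖(edges M).b e - (edges M).a e‖)
    (fun e => div_pos (hb e) (elen_pos (edges M) e))
  exact ⟨τ, h0, fun k e he => (le_div_iff₀ (elen_pos (edges M) e)).1 (h1 k e he)⟩

end num

section ok

variable {Ω Λ : Set V} {v : V} {K : BoxCx Λ v} {S : Rad K} {W : Wid K S} {B : Boxes W}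
  {M : Mesh Ω} {X : PSet K}

/-- **`FaceOK3`** from `LAtC` with a cost which is controlled on the cones -/
theorem faceOK3_of_cone {k : M.κ} {T : FStar (edges M) k} {b : (edges M).ε → ℝ}
    {h f : V → V} {D₀ ε C₁ a e₀ C : ℝ} (hN : Num k h D₀ ε b)
    (hb : ∀ e, (edges M).seg e ⊆ M.F k → 0 < b e) {cst : V → V → ℝ}
    (hcl : ∀ e, (edges M).seg e ⊆ M.F k → ∀ x ∈ coneSetAt T.O ((edges M).seg e),
      ∀ y ∈ coneSetAt T.O ((edges M).seg e), cst x y ≤ T.con C₁ b e * ‖x - y‖) (ha : 0 ≤ a)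
    (he : ∀ e, (edges M).seg e ⊆ M.F k → e₀ ≤ T.con 1 b e) (hC : a * C₁ + 1 ≤ C)
    (hlat : ∀ x ∈ M.F k, LAtC B X (fun y => a * cst x y + e₀ * ‖y - x‖) (M.F k) f x) :
    FaceOK3 B X h f C D₀ ε k := by
  refine ⟨T, b, hN, hb, fun e hek x hx => ?_⟩
  have hsub := T.cone_sub hek
  refine ((hlat x (hsub hx)).anti hsub).lat ?_
  filter_upwards [self_mem_nhdsWithin] with y hy
  have h1 := mul_le_mul_of_nonneg_left (hcl e hek x hx y hy) ha
  have h2 := mul_le_mul_of_nonneg_right (he e hek) (norm_nonneg (y - x))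
  have h3 : a * (T.con C₁ b e * ‖x - y‖) + T.con 1 b e * ‖y - x‖ =
      T.con (a * C₁ + 1) b e * ‖y - x‖ := by
    rw [norm_sub_rev x y]
    unfold FStar.con
    ring
  have h4 : T.con (a * C₁ + 1) b e ≤ T.con C b e :=
    Vale.Agent.P073.H193.con_mono hek (fun e he => (hb e he).le) hC
  have h5 := mul_le_mul_of_nonneg_right h4 (norm_nonneg (y - x))
  linarith

end ok

variable {c₀ n δ : ℝ} {j : ℕ} {Ω Λ : Set V} {v w : V} {ρ : V → ℝ} {M : Mesh Ω} {h : ConHomeo Ω Λ}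
  {J₀ J : Set (ℕ × (Fin 3 → ℤ))} {P Z : Set M.ι} {K : BoxCx Λ w}
  {D : KIn3 c₀ n j δ v w ρ M h J₀ J P Z} {C : Cells ρ w K} {C₀ μT : ℝ}

/-! ### the classes of the faces -/

/-- an edge with a small image is in no passive cell with a given map -/
theorem edge_wc (D : KIn3 c₀ n j δ v w ρ M h J₀ J P Z) (C : Cells ρ w K) {e : (edges M).ε}
    (hη : h.toFun '' (edges M).seg e ⊆ Nb w J₀ (1 / 2 ^ j)) :
    ∀ i ∈ Wc D C, ¬ (edges M).seg e ⊆ M.Q i := by
  intro i hi hei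
  refine hi.2.2 ?_
  have hx : (edges M).a e ∈ (edges M).seg e := left_mem_segment ℝ _ _
  have h1 := D.δpos
  have h2 := D.δle
  have h3 : (1:ℝ) / 2 ^ j ≤ 2 / 2 ^ j - δ := by
    have e1 : (2:ℝ) / 2 ^ j = 1 / 2 ^ j + 1 / 2 ^ j := by ring
    rw [e1]
    linarith
  refine D.mem_Zmax C ?_ hi.2.1 (hei hx) (Nb.mono h3 (hη (mem_image_of_mem _ hx)))
  have h4 := D.κ_le_c₀
  have h5 := D.c₀_pos
  have ho := o3_pos D.pos
  have hδ3 := δ3_eq (n := n)
  have hκo := o3_eq (n := n)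
  have hκ := D.κ_lt
  have h6 := D.δ_le
  have hj := D.jle
  have e1 : (2:ℝ) / 2 ^ j = 1 / 2 ^ j + 1 / 2 ^ j := by ring
  rw [e1]
  linarith

/-- the edges of the faces of the cells of `Z` -/
theorem wc_of_Z (D : KIn3 c₀ n j δ v w ρ M h J₀ J P Z) (C : Cells ρ w K) {k : M.κ} {i : M.ι}
    (hi : i ∈ Z) (hk : M.F k ⊆ M.Q i) :
    ∀ e, (edges M).seg e ⊆ M.F k → ∀ i ∈ Wc D C, ¬ (edges M).seg e ⊆ M.Q i := fun e he =>
  edge_wc D C ((image_mono (he.trans hk)).trans (D.inp.drawn i hi).2)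

/-- if not all neighbours have a protected cell, then all passive cells are without given map -/
theorem wc_of_not_full (D : KIn3 c₀ n j δ v w ρ M h J₀ J P Z) (C : Cells ρ w K)
    (hF : ¬ Full C J₀ J) (k : M.κ) :
    ∀ e, (edges M).seg e ⊆ M.F k → ∀ i ∈ Wc D C, ¬ (edges M).seg e ⊆ M.Q i :=
  fun _ _ _ hi => absurd hi.1 hF

/-- the faces of the cells of `Z` are drawn -/
theorem df_of_Z (D : KIn3 c₀ n j δ v w ρ M h J₀ J P Z) (C : Cells ρ w K) {k : M.κ} {i : M.ι}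
    (hi : i ∈ Z) (hk : M.F k ⊆ M.Q i) (hP : ¬ ∃ i ∈ P, M.F k ⊆ M.Q i) : k ∈ (D.dat C).DF := by
  refine ⟨⟨i, D.inp.sub_Zmax ?_ hi, hk⟩, fun i' hi' hk' => hP ⟨i', hi', hk'⟩⟩
  have h0 : (0:ℝ) < 1 / 2 ^ j := by positivity
  have e1 : (2:ℝ) / 2 ^ j = 1 / 2 ^ j + 1 / 2 ^ j := by ring
  rw [e1]
  linarith

/-- drawn faces without edges in cells with a given map are active -/
theorem act_of_wc (D : KIn3 c₀ n j δ v w ρ M h J₀ J P Z) (C : Cells ρ w K) {k : M.κ}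
    (hk : k ∈ (D.dat C).DF)
    (hW : ∀ e, (edges M).seg e ⊆ M.F k → ∀ i ∈ Wc D C, ¬ (edges M).seg e ⊆ M.Q i) :
    k ∈ Act D C := by
  obtain ⟨T⟩ := _root_.P073.H142.exists_fstar (edges M) k
  rintro i (hi | hi) hki
  · exact hk.2 i hi hki
  · exact hW _ (T.C.sub 0) i hi ((T.C.sub 0).trans hki)

/-- drawn faces are squares -/
theorem sqr_of_df (D : KIn3 c₀ n j δ v w ρ M h J₀ J P Z) (C : Cells ρ w K) {k : M.κ}
    (hk : k ∈ (D.dat C).DF) : ∃ (a : V) (l : Fin 3) (σ : ℝ), 0 < σ ∧ M.F k = sqr a l σ := by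
  obtain ⟨⟨i, hi, hki⟩, -⟩ := hk
  obtain ⟨s, hs⟩ := D.face_Zmax hi hki
  exact ⟨_, _, _, by positivity, hs.trans (H687.squ_eq_sqr v s)⟩

/-- **the numbers of the edges for a face** -/
theorem S1.num_face (X : S1 D C C₀ μT) {k : M.κ} {ε D₀ : ℝ} (hD₀ : 1 ≤ D₀)
    (hW : ∀ e, (edges M).seg e ⊆ M.F k → ∀ i ∈ Wc D C, ¬ (edges M).seg e ⊆ M.Q i)
    (hεe : FTol M k ε X.εe) : Num k h.toFun D₀ ε X.bn := by
  obtain ⟨t, ht, ht', hεe⟩ := hεe
  refine ⟨fun e _ => (X.num.b_pos e).le, t, ht, ht', fun e he => ?_⟩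
  refine (X.num.b_le e (hW e he)).trans ?_
  have h2 : ENNReal.ofReal (X.εe e) ≤ ENNReal.ofReal t := ENNReal.ofReal_le_ofReal (hεe e he)
  have h3 : (1:ℝ≥0∞) ≤ ENNReal.ofReal D₀ := by
    rw [← ENNReal.ofReal_one]
    exact ENNReal.ofReal_le_ofReal hD₀
  refine (add_le_add_right h2 _).trans ?_
  conv_lhs => rw [← one_mul (_ + _)]
  gcongr
  exact le_rfl

variable {X : S1 D C C₀ μT} {Y₂ : S2 X} {Ys : Set M.κ} {sc : Sharp}

/-- **the cone clause of the drawn faces which are not peeled** -/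
theorem S1.cone_le (X : S1 D C C₀ μT) {k : M.κ} {a : V} {l : Fin 3} {σ : ℝ} (hσ : 0 < σ)
    (hF : M.F k = sqr a l σ) {e : (edges M).ε} (he : (edges M).seg e ⊆ M.F k) {Cg : ℝ}
    (hCg : 0 ≤ Cg) : Cg * X.Lf k e ≤ (X.T k).con (Cg * (2 * C₀)) X.bn e := by
  obtain ⟨-, h1, h2⟩ := (X.T k).sq a l σ hσ hF
  have h3 := X.num.Lf_le k e he
  rw [h1, h2, div_self hσ.ne'] at h3
  rw [(X.T k).con_mul]
  refine mul_le_mul_of_nonneg_left (h3.trans (le_of_eq ?_)) hCg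
  congr 1
  ring

/-- **the face estimate**: `FaceOK3` for any map `f` with the local estimates `hpk` (peeled faces)
and `hg` (the other drawn faces) -/
theorem S3.face_core (Y₃ : S3 Y₂ Ys sc) {f : V → V} {k : M.κ} (hk : k ∈ (D.dat C).DF)
    (hW : ∀ e, (edges M).seg e ⊆ M.F k → ∀ i ∈ Wc D C, ¬ (edges M).seg e ⊆ M.Q i)
    {τ ε D₀ : ℝ} (hD₀ : 1 ≤ D₀)
    (hτe : ∀ e, (edges M).seg e ⊆ M.F k → τ * ‖(edges M).b e - (edges M).a e‖ ≤ X.bn e)
    (hεe : FTol M k ε X.εe)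
    (hpk : ∀ s, (D.dat C).PkS (D.G C) X.h1 s k → ∀ x ∈ M.F k, LAtC (D.B C) (Xp C J₀)
      (fun y => 3 * bandD (Y₂.L.lv s) (Y₃.Lt.loP s) (Y₃.Lt.hiP s) (Y₃.Lt.omP s)
        (Y₃.h3.toFun x) (Y₃.h3.toFun y) + τ * ‖y - x‖) (M.F k) f x)
    {ag Cg : ℝ} (hag : 0 ≤ ag) (hCg : 0 ≤ Cg) {cst : V → V → ℝ}
    (hcst : k ∈ Act D C → ∀ e, (edges M).seg e ⊆ M.F k →
      ∀ x ∈ coneSetAt (X.T k).O ((edges M).seg e), ∀ y ∈ coneSetAt (X.T k).O ((edges M).seg e),
        cst x y ≤ Cg * X.Lf k e * ‖x - y‖)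
    (hg : k ∉ (D.dat C).Peel (D.G C) X.h1 → ∀ x ∈ M.F k, LAtC (D.B C) (Xp C J₀)
      (fun y => ag * cst x y + τ * ‖y - x‖) (M.F k) f x)
    {C₁ C₁' : ℝ} (hC₁ : 936 * Y₃.q + 1 ≤ C₁) (hC₁g : ag * (Cg * (2 * C₀)) + 1 ≤ C₁)
    (hC₁' : 6 * FW31.DK sc.K * Y₃.q + 1 ≤ C₁') (hC : C₁ ≤ C₁') {c : ℝ}
    (hc : Adm M Ys C₁ C₁' (M.F k) c) : FaceOK3 (D.B C) (Xp C J₀) h.toFun f c D₀ ε k := by
  obtain ⟨a, l, σ, hσ, hF⟩ := sqr_of_df D C hk
  have hb : ∀ e, (edges M).seg e ⊆ M.F k → 0 < X.bn e := fun e _ => X.num.b_pos e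
  have hN := X.num_face hD₀ hW hεe
  have hτ : ∀ e, (edges M).seg e ⊆ M.F k → τ ≤ (X.T k).con 1 X.bn e := by
    intro e he
    have h1 : τ ≤ X.bn e / ‖(edges M).b e - (edges M).a e‖ := by
      rw [le_div_iff₀ (elen_pos (edges M) e)]
      exact hτe e he
    have h2 : 0 ≤ (∑ e ∈ ((edges M).fin_face k).toFinset, X.bn e) / (X.T k).rho :=
      div_nonneg (Finset.sum_nonneg fun e _ => (X.num.b_pos e).le) (X.T k).rho_pos.le
    unfold FStar.con
    linarith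
  have hC₁c : C₁ ≤ c := by
    rcases hc with rfl | ⟨rfl, -⟩
    · exact hC
    · exact le_rfl
  by_cases hpl : k ∈ (D.dat C).Peel (D.G C) X.h1
  · obtain ⟨s, hs⟩ := hpl
    have hfc : ∃ Cf : ℝ, 3 * Cf + 1 ≤ c ∧ ∀ e, (edges M).seg e ⊆ M.F k →
        ∀ x ∈ coneSetAt (X.T k).O ((edges M).seg e),
        ∀ y ∈ coneSetAt (X.T k).O ((edges M).seg e),
        1 * bandD (Y₂.L.lv s) (Y₃.Lt.loP s) (Y₃.Lt.hiP s) (Y₃.Lt.omP s) (Y₃.h3.toFun x)
          (Y₃.h3.toFun y) ≤ (X.T k).con Cf X.bn e * ‖x - y‖ := by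
      by_cases hY : k ∈ Ys
      · have hcc : c = C₁' := by
          rcases hc with rfl | ⟨-, h2⟩
          · rfl
          · have h3 := h2 k hY
            exact absurd (X.T k).mem (Set.disjoint_left.1 h3 (X.T k).mem)
        refine ⟨2 * FW31.DK sc.K * Y₃.q, by rw [hcc]; linarith, ?_⟩
        exact (Y₃.ins.faceCl_sqr hs (T := X.T) (b := X.bn) (C₂ := FW31.DK sc.K * (1 * Y₃.q))
          zero_le_one hσ hF (fun e he => (hb e he).le) (fun e _ => Y₃.Lq e) (fun e _ => Y₃.Wq e)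
          (by rw [one_mul]) le_rfl).cone
      · refine ⟨312 * Y₃.q, by linarith, ?_⟩
        obtain ⟨Φ, hΦ, hg'⟩ := Y₃.ins.out.face k ⟨s, hs⟩
        obtain ⟨-, h1, h2⟩ := (X.T k).sq a l σ hσ hF
        refine (GFP.faceCl (T := X.T) (b := X.bn) (C₂ := 8 * (1 * Y₃.q)) (hΦ.1 hY) hs
          zero_le_one (fun e he => (hb e he).le) (fun e _ => Y₃.Lq e) (fun e _ => Y₃.Wq e)
          ?_ le_rfl hg').cone
        rw [h1, h2, div_self hσ.ne']
        linarith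
    obtain ⟨Cf, hCf, hcone⟩ := hfc
    refine faceOK3_of_cone hN hb (a := 3) (e₀ := τ) hcone (by norm_num) hτ hCf fun x hx => ?_
    refine (hpk s hs x hx).mono (Eventually.of_forall fun y => ?_)
    rw [one_mul]
  · refine faceOK3_of_cone hN hb (C₁ := Cg * (2 * C₀)) (fun e he x hx y hy => ?_) hag hτ
      (hC₁g.trans hC₁c) (hg hpl)
    exact (hcst (act_of_wc D C hk hW) e he x hx y hy).trans
      (mul_le_mul_of_nonneg_right (X.cone_le hσ hF he hCg) (norm_nonneg _))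

end Vale.Agent.P073.H267.K3
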