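import Vale.Agent.P073.H194.FaceTop
import Vale.Agent.P073.H237.Elip3

/-!
# P073, [FACE3]: the clause `Last3.face`, part 2

* `S5.face_df`: `FaceOK3` for the last map on every drawn face whose edges are in no passive cell with
  a given map (`wc_of_Z`: faces of `Z`; `wc_of_not_full`: all drawn faces, if `¬ Full C J₀ J`);
* `S5.face_of`: the clause `Last3.face`, with any cost of the faces which are not peeled.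
-/

open Set Metric Topology Filter MeasureTheory
open scoped ENNReal

set_option linter.unusedSectionVars false

namespace Vale.Agent.P073.H267.K3

open _root_.P073 _root_.P073.Net _root_.P073.PA691 _root_.P073.H236 _root_.P073.H579
open _root_.P073.H936 _root_.P073.H936.K3
open _root_.P073.H142
open _root_.P073.H345 (PK tg PLev)
open _root_.P073.H880.RP
open _root_.P073.H429
open Vale.Agent.P073.St (V)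
open Vale.Agent.P073.H471 Vale.Agent.P073.H267
open Vale.Agent.P073.H73 (Mesh onSeg sqr)
open Vale.Agent.P073.H193 (Edges edges LAtC FaceCl)
open Vale.Agent.P073.H304 (Nb Zmax)
open Vale.Agent.P073.H926
open Vale.Agent.P073.H238.K3
open Vale.Agent.P073.H233 (Xp Adm PSet LAt FaceOK3)

variable {c₀ n δ : ℝ} {j : ℕ} {Ω Λ : Set V} {v w : V} {ρ : V → ℝ} {M : Mesh Ω} {h : ConHomeo Ω Λ}
  {J₀ J : Set (ℕ × (Fin 3 → ℤ))} {P Z : Set M.ι} {K : BoxCx Λ w}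
  {D : KIn3 c₀ n j δ v w ρ M h J₀ J P Z} {C : Cells ρ w K} {C₀ μT : ℝ}
  {X : S1 D C C₀ μT} {Y₂ : S2 X} {Ys : Set M.κ} {sc : Sharp} {Y₃ : S3 Y₂ Ys sc}
  {Y₄ : S4 Y₃}

/-- **the drawn faces**: `FaceOK3` for the last map -/
theorem S5.face_df (Y₅ : S5 Y₄) (hq : ∀ s, 1 - n / 2048 ≤ Y₄.q s)
    (hr : ∀ s, 1 - n / 2048 ≤ Y₄.r s)
    (hμ : ∀ b, 0 ≤ Y₅.μ b) (hμ2 : ∀ b, Y₅.μ b ≤ n / 256)
    (hκ : ∀ b : pG C J₀, Y₅.μ b * (ebe (D.W C) b.1 - eal (D.W C) b.1) ≤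
      n / 256 * ((D.G C).uT b.1 / 4)) {τ : M.κ → ℝ} (hτ : ∀ k, 0 < τ k)
    (hε5 : ∀ (s : K.S) (k : M.κ) (hk : (D.dat C).PkS (D.G C) X.h1 s k),
      16 * Y₄.ε ⟨s, hk.1⟩ ≤ τ k)
    (hε6 : ∀ (b : pG C J₀) k, (Y₄.f5.toFun '' M.F k ∩
      YB ((YS (D.G C)).add (rT (D.G C)) (rT_pos (D.G C))
      (fun e k => (YS_p_lt (D.G C) e k).le)
      fun e k => (YS_q_lt (D.G C) e k).le) b.1).Nonempty → 16 * Y₅.ε b ≤ τ k)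
    (hτe : ∀ k e, (edges M).seg e ⊆ M.F k →
      τ k * ‖(edges M).b e - (edges M).a e‖ ≤ X.bn e)
    {D₀ : ℝ} (hD₀ : 1 ≤ D₀) {ε : M.κ → ℝ} (hεt : ∀ k, FTol M k (ε k) X.εe)
    -- the faces which are not peeled
    {ag Cg : ℝ} (hag : 0 ≤ ag) (hCg : 0 ≤ Cg) {cst : M.κ → V → V → ℝ}
    (hcst : ∀ k ∈ Act D C, ∀ e, (edges M).seg e ⊆ M.F k →
      ∀ x ∈ coneSetAt (X.T k).O ((edges M).seg e), ∀ y ∈ coneSetAt (X.T k).O ((edges M).seg e),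
        cst k x y ≤ Cg * X.Lf k e * ‖x - y‖)
    (hg : ∀ k ∈ (D.dat C).DF, k ∉ (D.dat C).Peel (D.G C) X.h1 → ∀ x ∈ M.F k,
      LAtC (D.B C) (Xp C J₀) (fun y => ag * cst k x y + τ k * ‖y - x‖) (M.F k) Y₅.f.toFun x)
    {C₁ C₁' : ℝ} (hC₁ : 936 * Y₃.q + 1 ≤ C₁) (hC₁g : ag * (Cg * (2 * C₀)) + 1 ≤ C₁)
    (hC₁' : 6 * FW31.DK sc.K * Y₃.q + 1 ≤ C₁') (hC : C₁ ≤ C₁')
    {k : M.κ} (hk : k ∈ (D.dat C).DF)
    (hW : ∀ e, (edges M).seg e ⊆ M.F k → ∀ i ∈ Wc D C, ¬ (edges M).seg e ⊆ M.Q i) {c : ℝ}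
    (hc : Adm M Ys C₁ C₁' (M.F k) c) :
    FaceOK3 (D.B C) (Xp C J₀) h.toFun Y₅.f.toFun c D₀ (ε k) k :=
  Y₃.face_core hk hW hD₀ (hτe k) (hεt k)
    (fun _ hs _ hx => Y₅.latC_top hq hr hμ hμ2 hκ hτ hε5 hε6 hs hx) hag hCg (hcst k) (hg k hk)
    hC₁ hC₁g hC₁' hC hc

/-- **the clause `Last3.face`**, with any cost of the faces which are not peeled -/
theorem S5.face_of (Y₅ : S5 Y₄) (hq : ∀ s, 1 - n / 2048 ≤ Y₄.q s)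
    (hr : ∀ s, 1 - n / 2048 ≤ Y₄.r s)
    (hμ : ∀ b, 0 ≤ Y₅.μ b) (hμ2 : ∀ b, Y₅.μ b ≤ n / 256)
    (hκ : ∀ b : pG C J₀, Y₅.μ b * (ebe (D.W C) b.1 - eal (D.W C) b.1) ≤
      n / 256 * ((D.G C).uT b.1 / 4)) {τ : M.κ → ℝ} (hτ : ∀ k, 0 < τ k)
    (hε5 : ∀ (s : K.S) (k : M.κ) (hk : (D.dat C).PkS (D.G C) X.h1 s k),
      16 * Y₄.ε ⟨s, hk.1⟩ ≤ τ k)
    (hε6 : ∀ (b : pG C J₀) k, (Y₄.f5.toFun '' M.F k ∩
      YB ((YS (D.G C)).add (rT (D.G C)) (rT_pos (D.G C))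
      (fun e k => (YS_p_lt (D.G C) e k).le)
      fun e k => (YS_q_lt (D.G C) e k).le) b.1).Nonempty → 16 * Y₅.ε b ≤ τ k)
    (hτe : ∀ k e, (edges M).seg e ⊆ M.F k →
      τ k * ‖(edges M).b e - (edges M).a e‖ ≤ X.bn e)
    {D₀ : ℝ} (hD₀ : 1 ≤ D₀) {ε : M.κ → ℝ} (hεt : ∀ k, FTol M k (ε k) X.εe)
    {ag Cg : ℝ} (hag : 0 ≤ ag) (hCg : 0 ≤ Cg) {cst : M.κ → V → V → ℝ}
    (hcst : ∀ k ∈ Act D C, ∀ e, (edges M).seg e ⊆ M.F k →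
      ∀ x ∈ coneSetAt (X.T k).O ((edges M).seg e), ∀ y ∈ coneSetAt (X.T k).O ((edges M).seg e),
        cst k x y ≤ Cg * X.Lf k e * ‖x - y‖)
    (hg : ∀ k ∈ (D.dat C).DF, k ∉ (D.dat C).Peel (D.G C) X.h1 → ∀ x ∈ M.F k,
      LAtC (D.B C) (Xp C J₀) (fun y => ag * cst k x y + τ k * ‖y - x‖) (M.F k) Y₅.f.toFun x)
    {C₁ C₁' : ℝ} (hC₁ : 936 * Y₃.q + 1 ≤ C₁) (hC₁g : ag * (Cg * (2 * C₀)) + 1 ≤ C₁)
    (hC₁' : 6 * FW31.DK sc.K * Y₃.q + 1 ≤ C₁') (hC : C₁ ≤ C₁') :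
    ∀ k, (∃ i ∈ Z, M.F k ⊆ M.Q i) → (∃ i ∈ P, M.F k ⊆ M.Q i) ∨
      ∀ c, Adm M Ys C₁ C₁' (M.F k) c →
        FaceOK3 (D.B C) (Xp C J₀) h.toFun Y₅.f.toFun c D₀ (ε k) k := by
  rintro k ⟨i, hi, hki⟩
  by_cases hP : ∃ i ∈ P, M.F k ⊆ M.Q i
  · exact Or.inl hP
  · exact Or.inr fun c hc => Y₅.face_df hq hr hμ hμ2 hκ hτ hε5 hε6 hτe hD₀ hεt hag hCg hcst hg
      hC₁ hC₁g hC₁' hC (df_of_Z D C hi hki hP) (wc_of_Z D C hi hki) hc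

end Vale.Agent.P073.H267.K3
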