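import Vale.Agent.P073.H194.FaceTop2
import Vale.Agent.P073.H142.FaceI
import Vale.Agent.P073.H267.K3Last

/-!
# P073, [FACE3]: the clause `Last3.face`, part 3: the cost `wcst`, the numbers `RowNum`

* `S1.wcst_cone`, `S1.wcst_edge`: the cost of the faces which are not peeled, on the cones and on the
  edges;
* `S5.face`: the clause `Last3.face`; `S5.face_all`: the same for all drawn faces, if
  `¬ Full C J₀ J`.
-/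

open Set Metric Topology Filter MeasureTheory
open scoped ENNReal

set_option linter.unusedSectionVars false

namespace Vale.Agent.P073.H267.K3

open _root_.P073 _root_.P073.Net _root_.P073.PA691 _root_.P073.H236 _root_.P073.H579
open _root_.P073.H936 _root_.P073.H936.K3
open _root_.P073.H142
open _root_.P073.H345 (PK tg PLev)
open _root_.P073.H880.RP
open _root_.P073.H429
open Vale.Agent.P073.St (V)
open Vale.Agent.P073.H471 Vale.Agent.P073.H267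
open Vale.Agent.P073.H73 (Mesh onSeg sqr)
open Vale.Agent.P073.H193 (Edges edges LAtC FaceCl)
open Vale.Agent.P073.H304 (Nb Zmax)
open Vale.Agent.P073.H926
open Vale.Agent.P073.H238.K3
open Vale.Agent.P073.H233 (Xp Adm PSet LAt FaceOK3)

variable {c₀ n δ : ℝ} {j : ℕ} {Ω Λ : Set V} {v w : V} {ρ : V → ℝ} {M : Mesh Ω} {h : ConHomeo Ω Λ}
  {J₀ J : Set (ℕ × (Fin 3 → ℤ))} {P Z : Set M.ι} {K : BoxCx Λ w}
  {D : KIn3 c₀ n j δ v w ρ M h J₀ J P Z} {C : Cells ρ w K} {C₀ μT : ℝ}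
  {X : S1 D C C₀ μT} {Y₂ : S2 X} {Ys : Set M.κ} {sc : Sharp} {Y₃ : S3 Y₂ Ys sc}
  {Y₄ : S4 Y₃}

/-- **the cost `wcst` on the cones** -/
theorem S1.wcst_cone (X : S1 D C C₀ μT) : ∀ k ∈ Act D C, ∀ e, (edges M).seg e ⊆ M.F k →
    ∀ x ∈ coneSetAt (X.T k).O ((edges M).seg e), ∀ y ∈ coneSetAt (X.T k).O ((edges M).seg e),
      wcst D C X.h1.toFun k x y ≤ 3 * X.Lf k e * ‖x - y‖ := by
  intro k hk e he x hx y hy
  have h0 := X.num.Lf_nonneg k e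
  rw [mul_assoc]
  refine wcst_le (by positivity) fun b hb hin => ?_
  exact X.out.cone k hk ⟨b, hb⟩ hin e he x hx y hy

/-- **the cost `wcst` on the edges** -/
theorem S1.wcst_edge (X : S1 D C C₀ μT) : ∀ k ∈ Act D C, ∀ e, (edges M).seg e ⊆ M.F k →
    ∀ x ∈ (edges M).seg e, ∀ y ∈ (edges M).seg e,
      wcst D C X.h1.toFun k x y ≤ 3 * X.La e * ‖x - y‖ := by
  intro k hk e he x hx y hy
  have h0 := X.num.La_nonneg e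
  rw [mul_assoc]
  refine wcst_le (by positivity) fun b hb hin => ?_
  exact X.out.elip k hk ⟨b, hb⟩ hin e he x hx y hy

section face

variable {Y₅ : S5 Y₄} {τ ε : M.κ → ℝ} {t4 : (D.dat C).S₀ → ℝ} {t5 : pG C J₀ → ℝ}

/-- **`FaceOK3` for the drawn faces** whose edges are in no passive cell with a given map -/
theorem S5.face_all' (N : RowNum Y₅ τ ε t4 t5) (hεt : ∀ k, FTol M k (ε k) X.εe)
    {D₀ : ℝ} (hD₀ : 1 ≤ D₀) {ag : ℝ} (hag : 0 ≤ ag)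
    (hg : ∀ k ∈ (D.dat C).DF, k ∉ (D.dat C).Peel (D.G C) X.h1 → ∀ x ∈ M.F k,
      LAtC (D.B C) (Xp C J₀) (fun y => ag * wcst D C X.h1.toFun k x y + τ k * ‖y - x‖) (M.F k)
        Y₅.f.toFun x)
    {C₁ C₁' : ℝ} (hC₁ : 936 * Y₃.q + 1 ≤ C₁) (hC₁g : ag * (3 * (2 * C₀)) + 1 ≤ C₁)
    (hC₁' : 6 * FW31.DK sc.K * Y₃.q + 1 ≤ C₁') (hC : C₁ ≤ C₁')
    {k : M.κ} (hk : k ∈ (D.dat C).DF)
    (hW : ∀ e, (edges M).seg e ⊆ M.F k → ∀ i ∈ Wc D C, ¬ (edges M).seg e ⊆ M.Q i) {c : ℝ}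
    (hc : Adm M Ys C₁ C₁' (M.F k) c) :
    FaceOK3 (D.B C) (Xp C J₀) h.toFun Y₅.f.toFun c D₀ (ε k) k :=
  Y₅.face_df N.q N.r N.μ0 N.μn N.μu N.τ0 N.ε5 N.ε6 N.τe hD₀ hεt hag (by norm_num : (0:ℝ) ≤ 3)
    (cst := fun k => wcst D C X.h1.toFun k) X.wcst_cone hg hC₁ hC₁g hC₁' hC hk hW hc

/-- **`FaceOK3` for all drawn faces**, if not all neighbours have a protected cell -/
theorem S5.face_all (hF : ¬ Full C J₀ J) (N : RowNum Y₅ τ ε t4 t5)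
    (hεt : ∀ k, FTol M k (ε k) X.εe) {D₀ : ℝ} (hD₀ : 1 ≤ D₀) {ag : ℝ} (hag : 0 ≤ ag)
    (hg : ∀ k ∈ (D.dat C).DF, k ∉ (D.dat C).Peel (D.G C) X.h1 → ∀ x ∈ M.F k,
      LAtC (D.B C) (Xp C J₀) (fun y => ag * wcst D C X.h1.toFun k x y + τ k * ‖y - x‖) (M.F k)
        Y₅.f.toFun x)
    {C₁ C₁' : ℝ} (hC₁ : 936 * Y₃.q + 1 ≤ C₁) (hC₁g : ag * (3 * (2 * C₀)) + 1 ≤ C₁)
    (hC₁' : 6 * FW31.DK sc.K * Y₃.q + 1 ≤ C₁') (hC : C₁ ≤ C₁') :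
    ∀ k ∈ (D.dat C).DF, ∀ c, Adm M Ys C₁ C₁' (M.F k) c →
      FaceOK3 (D.B C) (Xp C J₀) h.toFun Y₅.f.toFun c D₀ (ε k) k := fun _ hk _ hc =>
  S5.face_all' N hεt hD₀ hag hg hC₁ hC₁g hC₁' hC hk (wc_of_not_full D C hF _) hc

/-- **the clause `Last3.face`** -/
theorem S5.face (N : RowNum Y₅ τ ε t4 t5) (hεt : ∀ k, FTol M k (ε k) X.εe)
    {D₀ : ℝ} (hD₀ : 1 ≤ D₀) {ag : ℝ} (hag : 0 ≤ ag)
    (hg : ∀ k ∈ (D.dat C).DF, k ∉ (D.dat C).Peel (D.G C) X.h1 → ∀ x ∈ M.F k,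
      LAtC (D.B C) (Xp C J₀) (fun y => ag * wcst D C X.h1.toFun k x y + τ k * ‖y - x‖) (M.F k)
        Y₅.f.toFun x)
    {C₁ C₁' : ℝ} (hC₁ : 936 * Y₃.q + 1 ≤ C₁) (hC₁g : ag * (3 * (2 * C₀)) + 1 ≤ C₁)
    (hC₁' : 6 * FW31.DK sc.K * Y₃.q + 1 ≤ C₁') (hC : C₁ ≤ C₁') {Z' : Set M.ι} (hZ : Z' ⊆ Z) :
    ∀ k, (∃ i ∈ Z', M.F k ⊆ M.Q i) → (∃ i ∈ P, M.F k ⊆ M.Q i) ∨
      ∀ c, Adm M Ys C₁ C₁' (M.F k) c →
        FaceOK3 (D.B C) (Xp C J₀) h.toFun Y₅.f.toFun c D₀ (ε k) k := by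
  rintro k ⟨i, hi, hki⟩
  by_cases hP : ∃ i ∈ P, M.F k ⊆ M.Q i
  · exact Or.inl hP
  · exact Or.inr fun c hc => S5.face_all' N hεt hD₀ hag hg hC₁ hC₁g hC₁' hC
      (df_of_Z D C (hZ hi) hki hP) (wc_of_Z D C (hZ hi) hki) hc

end face

end Vale.Agent.P073.H267.K3
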