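import Vale.Agent.P073.H194.MeshApp

/-!
# P073, block A15-MESH: the faces of the refined partition are small, relative to the centres
-/

namespace Vale.Agent.P073.H194

open MeasureTheory Set Filter Topology Metric Vale.Agent.P073.St
open Vale.Agent.P073.SQ (ev)
open Vale.Agent.P073.AB Vale.Agent.P073.AB.P86
open P073.Net (dyc dyo)
open Vale.Agent.P073.H471 (Cubes wgt wt wgt_le_wgt one_le_wgt le_wgt)
open Vale.Agent.P073.H83 (dist_le_of_mem_squ)
open Vale.Agent.P073.H193 (hi_or lo_or refine_cases q_eq squ_gen_le cl2)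
open scoped ENNReal

section

variable {Ω : Set V} {v : V} {I P B : Set Idx} {n : Idx → ℕ}

/-- a cell of the refined partition is contained in a cube of the partition -/
theorem refine_sub (hB : Big v I P B n) {i : Idx} (hi : i ∈ refine v I P B n) :
    ∃ q ∈ I, dyc v i.1 i.2 ⊆ dyc v q.1 q.2 := by
  rcases refine_cases hB hi with h | ⟨q, hq, h, -⟩
  · exact ⟨i, hB.sub h, Subset.rfl⟩
  · exact ⟨q, hq.1, h⟩

/-- a minimal square in a cube `q` of the partition is in a cell in `q` -/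
theorem exists_side (hΩ : IsOpen Ω) (hI : Part Ω v I) (hB : Big v I P B n)
    {F : Idx × Fin 3} (hF : MinSq v (refine v I P B n) F) {q : Idx} (hq : q ∈ I)
    (hFq : squ v F ⊆ dyc v q.1 q.2) :
    ∃ i ∈ refine v I P B n, squ v F ⊆ dyc v i.1 i.2 ∧ dyc v i.1 i.2 ⊆ dyc v q.1 q.2 := by
  have hI' := _root_.Vale.Agent.P073.H193.specRefine Ω v I P B n hΩ hI hB
  obtain ⟨qp, qm, h⟩ := two_of_minSq hΩ hI' hF
  have key : ∀ {m : ℕ} {w : Fin 3 → ℤ} {i : Idx}, i ∈ refine v I P B n →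
      dyc v m w ⊆ dyc v i.1 i.2 → dyc v m w ⊆ dyc v q.1 q.2 →
      dyc v i.1 i.2 ⊆ dyc v q.1 q.2 := by
    intro m w i hi h1 h2
    obtain ⟨q', hq', h3⟩ := refine_sub hB hi
    have := q_eq hI hq hq' h2 (h1.trans h3)
    rwa [← this] at h3
  rcases hi_or hFq with h1 | h1
  · exact ⟨qp, h.memp, squ_sub_hi.trans h.subp, key h.memp h.subp h1⟩
  · rcases lo_or hFq with h2 | h2
    · exact ⟨qm, h.memm, squ_sub_lo.trans h.subm, key h.memm h.subm h2⟩
    · exfalso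
      rw [h2] at h1
      have hp : (0:ℝ) < 2 ^ q.1 := by positivity
      rw [div_left_inj' hp.ne'] at h1
      linarith

/-- the generation of a minimal square in a divided cube -/
theorem gen_ge (hΩ : IsOpen Ω) (hI : Part Ω v I) (hB : Big v I P B n)
    {F : Idx × Fin 3} (hF : MinSq v (refine v I P B n) F) {q : Idx} (hq : q ∈ I \ P)
    (hFq : squ v F ⊆ dyc v q.1 q.2) : n q ≤ F.1.1 := by
  obtain ⟨i, hi, hFi, hiq⟩ := exists_side hΩ hI hB hF hq.1 hFq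
  by_cases hiP : i ∈ P
  · have := eq_of_sub hI (hB.sub hiP) hq.1 hiq
    exact absurd (this ▸ hiP) hq.2
  · by_cases hiB : i ∈ B
    · obtain ⟨q', hq', h1, -⟩ := hB.big i hiB
      have h2 : q' = q := part_eq hI hq'.1 hq.1 h1 hiq
      subst h2
      exact (cl2 hΩ hI hB hq' hiB h1 hF hFi).1.ge
    · rw [← gen_of_fine hI hq hi hiP hiB hiq]
      exact squ_gen_le hFi

/-- a minimal square avoids the open big cells -/
theorem minSq_off (hΩ : IsOpen Ω) (hI : Part Ω v I) (hB : Big v I P B n)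
    {F : Idx × Fin 3} (hF : MinSq v (refine v I P B n) F) {b : Idx} (hb : b ∈ B) :
    Disjoint (squ v F) (dyo v b.1 b.2) :=
  minSq_disj (_root_.Vale.Agent.P073.H193.specRefine Ω v I P B n hΩ hI hB)
    (Or.inl (Or.inr hb)) hF

end

section

variable {ι : Type*} {p : ℝ} {Ω Λ : Set V} {v : V} {nn : ℕ → ℕ} {I P B : Set Idx} {f : V → V}
  {G : V → ℝ≥0∞} {z c : ι → V} {σ : ι → ℝ} {tB : Idx → ℕ}

/-- outside of the big cells the images are at a positive distance from the centres -/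
theorem MeshData.sep (D : MeshData p Λ v nn I P f G c) (hΛ : IsOpen Λ) (W : Cubes Λ z σ)
    (hB : IsBig v nn I P f c tB B) {q : Idx} (hq : q ∈ I \ P) :
    ∃ η > 0, ∀ x ∈ dyc v q.1 q.2, (∀ b ∈ B, x ∉ dyo v b.1 b.2) → ∀ y, ‖y - f x‖ ≤ η →
      y ∈ Λ ∧ ∀ i, y ∈ closedBall (z i) (σ i) → η ≤ ‖y - c i‖ := by
  set K := dyc v q.1 q.2 \ ⋃ b ∈ B, dyo v b.1 b.2 with hK
  have hKc : IsCompact K := (isCompact_dyc v _ _).diff
    (isOpen_biUnion fun b _ => isOpen_dyo v _ _)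
  have hKf : IsCompact (f '' K) := hKc.image_of_continuousOn ((D.cont q hq).mono sdiff_subset)
  have hKΛ : f '' K ⊆ Λ := by
    rintro _ ⟨x, hx, rfl⟩
    exact D.maps q hq hx.1
  obtain ⟨r, hr, hrΛ⟩ := hKf.exists_cthickening_subset_open hΛ hKΛ
  have hCc : IsCompact (cthickening r (f '' K)) := hKf.cthickening
  have hfin := finite_meet W hCc hrΛ
  have h1 : ∀ i, ∀ᶠ η in 𝓝[>] (0:ℝ), ∀ x ∈ K, η + η ≤ ‖f x - c i‖ := by
    intro i
    have h2 : c i ∉ f '' K := by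
      rintro ⟨x, hx, hi⟩
      obtain ⟨b, hb, h3, -⟩ := hB.cen q hq x ⟨hx.1, i, hi⟩
      exact hx.2 (mem_biUnion hb h3)
    obtain ⟨t, ht, h3⟩ := Metric.isOpen_iff.1 hKf.isClosed.isOpen_compl _ h2
    filter_upwards [Ioo_mem_nhdsGT (show 0 < t / 2 by positivity)] with η hη x hx
    by_contra hlt
    rw [not_le] at hlt
    refine h3 ?_ (mem_image_of_mem f hx)
    rw [mem_ball, dist_eq_norm]
    linarith [hη.2]
  have h2 : ∀ᶠ η in 𝓝[>] (0:ℝ), ∀ i ∈ {i | (closedBall (z i) (σ i) ∩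
      cthickening r (f '' K)).Nonempty}, ∀ x ∈ K, η + η ≤ ‖f x - c i‖ := by
    rw [eventually_all_finite hfin]
    exact fun i _ => h1 i
  have h2' : ∀ᶠ η in 𝓝[>] (0:ℝ), η ∈ Ioo 0 r := Ioo_mem_nhdsGT hr
  obtain ⟨η, h3, h4⟩ := (h2.and h2').exists
  refine ⟨η, h4.1, fun x hx hxb y hy => ?_⟩
  have hxK : x ∈ K := ⟨hx, fun h => by
    obtain ⟨b, hb, h5⟩ := mem_iUnion₂.1 h
    exact hxb b hb h5⟩
  have hyt : y ∈ cthickening r (f '' K) :=
    mem_cthickening_of_dist_le y (f x) r _ (mem_image_of_mem f hxK)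
      (by rw [dist_eq_norm]; exact hy.trans h4.2.le)
  refine ⟨hrΛ hyt, fun i hi => ?_⟩
  have h5 := h3 i ⟨y, hi, hyt⟩ x hxK
  have h6 : ‖f x - c i‖ ≤ ‖y - f x‖ + ‖y - c i‖ := by
    calc ‖f x - c i‖ = ‖(y - c i) - (y - f x)‖ := by congr 1; abel
      _ ≤ ‖y - c i‖ + ‖y - f x‖ := norm_sub_le _ _
      _ = _ := add_comm _ _
  linarith

/-- uniform continuity on a cube -/
theorem MeshData.exists_th (D : MeshData p Λ v nn I P f G c) {q : Idx} (hq : q ∈ I \ P) {τ : ℝ}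
    (hτ : 0 < τ) : ∃ t : ℕ, ∀ x ∈ dyc v q.1 q.2, ∀ y ∈ dyc v q.1 q.2, ‖x - y‖ ≤ 1 / 2 ^ t →
      ‖f x - f y‖ ≤ τ := by
  have h1 := (isCompact_dyc v q.1 q.2).uniformContinuousOn_of_continuous (D.cont q hq)
  rw [Metric.uniformContinuousOn_iff] at h1
  obtain ⟨δ, hδ, h2⟩ := h1 τ hτ
  obtain ⟨t, ht⟩ := exists_pow_lt_of_lt_one hδ (show (1 / 2 : ℝ) < 1 by norm_num)
  refine ⟨t, fun x hx y hy hxy => ?_⟩
  have h3 := h2 x hx y hy (by rw [dist_eq_norm]; rw [one_div_pow] at ht; linarith)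
  rw [dist_eq_norm] at h3
  exact h3.le

/-- **The faces**: above suitable thresholds `th`, for maps `g` which are close to `f`
(tolerance `τ q`), the images of the minimal squares in the divided cubes are in `Λ`, small
relative to the distance to the centres, and the weight is almost constant on them. -/
theorem MeshData.faces (D : MeshData p Λ v nn I P f G c) (hΩ : IsOpen Ω) (hΛ : IsOpen Λ)
    (hI : Part Ω v I) (W : Cubes Λ z σ) (hc : ∀ i, ‖c i - z i‖ ≤ σ i / 2)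
    (hB : IsBig v nn I P f c tB B) {δ : ℝ} (hδ : 0 < δ) :
    ∃ (th : Idx → ℕ) (τ : Idx → ℝ), (∀ q, 0 < τ q) ∧ ∀ n : Idx → ℕ, Big v I P B n →
      (∀ q ∈ I \ P, th q ≤ n q) → ∀ F, MinSq v (refine v I P B n) F → ∀ q ∈ I \ P,
      squ v F ⊆ dyc v q.1 q.2 → ∀ g : V → V, (∀ x ∈ squ v F, ‖g x - f x‖ ≤ τ q) →
      (∀ x ∈ squ v F, g x ∈ Λ) ∧
      (∀ x ∈ squ v F, ∀ i, g x ∈ closedBall (z i) (σ i) → g x ≠ c i ∧
        ∀ y ∈ squ v F, ‖g x - g y‖ ≤ δ * ‖g x - c i‖) ∧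
      ∃ w : ℝ, 1 ≤ w ∧ (∀ x ∈ squ v F, ∀ i, g x ∈ closedBall (z i) (σ i) →
          2 * σ i ≤ w * ‖g x - c i‖) ∧
        ∀ x ∈ squ v F, ENNReal.ofReal w ≤ 2178 * wgt z σ c (f x) := by
  have h1 : ∀ q ∈ I \ P, ∃ η > 0, ∀ x ∈ dyc v q.1 q.2, (∀ b ∈ B, x ∉ dyo v b.1 b.2) → ∀ y,
      ‖y - f x‖ ≤ η → y ∈ Λ ∧ ∀ i, y ∈ closedBall (z i) (σ i) → η ≤ ‖y - c i‖ := fun q hq =>
    D.sep hΛ W hB hq
  choose! η hη0 hη using h1
  set δ' : ℝ := min δ 1 with hδ'
  have hδ'0 : 0 < δ' := lt_min hδ one_pos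
  have hδ'1 : δ' ≤ 1 := min_le_right _ _
  have h2 : ∀ q ∈ I \ P, ∃ t : ℕ, ∀ x ∈ dyc v q.1 q.2, ∀ y ∈ dyc v q.1 q.2,
      ‖x - y‖ ≤ 1 / 2 ^ t → ‖f x - f y‖ ≤ δ' * η q / 4 := fun q hq =>
    D.exists_th hq (by have := hη0 q hq; positivity)
  choose! th hth using h2
  classical
  refine ⟨th, fun q => if q ∈ I \ P then δ' * η q / 4 else 1, fun q => ?_, ?_⟩
  · dsimp only
    split_ifs with h
    · have := hη0 q h
      positivity
    · exact one_pos
  intro n hBig hn F hF q hq hFq g hg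
  simp only [if_pos hq] at hg
  have hη1 := hη0 q hq
  have hτ : δ' * η q / 4 ≤ η q / 4 := by
    have : δ' * η q ≤ 1 * η q := by gcongr
    linarith
  have hgen := (hn q hq).trans (gen_ge hΩ hI hBig hF hq hFq)
  have hosc : ∀ x ∈ squ v F, ∀ y ∈ squ v F, ‖f x - f y‖ ≤ δ' * η q / 4 := by
    intro x hx y hy
    refine hth q hq x (hFq hx) y (hFq hy) ?_
    have h3 := dist_le_of_mem_squ hx hy
    rw [dist_eq_norm] at h3
    refine h3.trans (one_div_le_one_div_of_le (by positivity) ?_)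
    exact pow_le_pow_right₀ (by norm_num) hgen
  have hoff : ∀ x ∈ squ v F, ∀ b ∈ B, x ∉ dyo v b.1 b.2 := fun x hx b hb hxb =>
    Set.disjoint_left.1 (minSq_off hΩ hI hBig hF hb) hx hxb
  have hfar : ∀ x ∈ squ v F, ∀ y, ‖y - f x‖ ≤ η q → y ∈ Λ ∧ ∀ i,
      y ∈ closedBall (z i) (σ i) → η q ≤ ‖y - c i‖ := fun x hx y hy =>
    hη q hq x (hFq hx) (hoff x hx) y hy
  have hgΛ : ∀ x ∈ squ v F, g x ∈ Λ ∧ ∀ i, g x ∈ closedBall (z i) (σ i) →
      η q ≤ ‖g x - c i‖ := fun x hx => hfar x hx _ (by linarith [hg x hx])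
  have hgf : ∀ x ∈ squ v F, ∀ y ∈ squ v F, ‖g x - f y‖ ≤ η q := by
    intro x hx y hy
    have h3 : ‖g x - f y‖ ≤ ‖g x - f x‖ + ‖f x - f y‖ := by
      refine le_trans (le_of_eq ?_) (norm_add_le _ _)
      congr 1; abel
    linarith [hg x hx, hosc x hx y hy]
  refine ⟨fun x hx => (hgΛ x hx).1, fun x hx i hi => ?_, ?_⟩
  · have h3 := (hgΛ x hx).2 i hi
    refine ⟨fun h => ?_, fun y hy => ?_⟩
    · rw [h, sub_self, norm_zero] at h3
      linarith
    · have h4 : ‖g x - g y‖ ≤ ‖g x - f x‖ + ‖f x - f y‖ + ‖g y - f y‖ := by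
        calc ‖g x - g y‖ = ‖(g x - f x) + (f x - f y) - (g y - f y)‖ := by congr 1; abel
          _ ≤ ‖(g x - f x) + (f x - f y)‖ + ‖g y - f y‖ := norm_sub_le _ _
          _ ≤ _ := by gcongr; exact norm_add_le _ _
      have h5 : δ' * η q ≤ δ * ‖g x - c i‖ := by
        have : δ' ≤ δ := min_le_left _ _
        gcongr
      have h6 : 0 < δ' * η q := by positivity
      linarith [hg x hx, hg y hy, hosc x hx y hy]
  · -- the weight
    have hne : (squ v F).Nonempty := ⟨sc v F, rel_sub sc_mem⟩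
    obtain ⟨x₀, hx₀⟩ := hne
    have hfx₀ : f x₀ ∈ Λ := D.maps q hq (hFq hx₀)
    have hne₀ : ∀ i, f x₀ ≠ c i := by
      intro i hi
      obtain ⟨b, hb, h3, -⟩ := hB.cen q hq x₀ ⟨hFq hx₀, i, hi⟩
      exact hoff x₀ hx₀ b hb h3
    have hwt := wgt_ne_top W hfx₀ hne₀
    set ω : ℝ := (wgt z σ c (f x₀)).toReal with hω
    have hωe : ENNReal.ofReal ω = wgt z σ c (f x₀) := ENNReal.ofReal_toReal hwt
    have hω1 : 1 ≤ ω := by
      rw [hω, ← ENNReal.toReal_one]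
      exact ENNReal.toReal_mono hwt (one_le_wgt _)
    refine ⟨66 * ω, by linarith, fun x hx i hi => ?_, fun x hx => ?_⟩
    · have h3 : wgt z σ c (g x) ≤ 33 * wgt z σ c (f x₀) := by
        refine wgt_le_wgt W hc fun j hj => ?_
        exact (hgf x hx x₀ hx₀).trans ((hgΛ x hx).2 j hj)
      have h4 := (le_wgt (z := z) (σ := σ) (c := c) hi).trans h3
      have h5 : 0 < ‖g x - c i‖ := lt_of_lt_of_le hη1 ((hgΛ x hx).2 i hi)
      rw [← hωe, ← ENNReal.ofReal_div_of_pos h5, show (33:ℝ≥0∞) = ENNReal.ofReal 33 by simp,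
        ← ENNReal.ofReal_mul (by norm_num), ENNReal.ofReal_le_ofReal_iff (by positivity),
        div_le_iff₀ h5] at h4
      linarith
    · have h3 : wgt z σ c (f x₀) ≤ 33 * wgt z σ c (f x) := by
        refine wgt_le_wgt W hc fun j hj => ?_
        have h4 := (hfar x₀ hx₀ (f x₀) (by rw [sub_self, norm_zero]; exact hη1.le)).2 j hj
        refine le_trans (hosc x₀ hx₀ x hx) ?_
        linarith
      calc ENNReal.ofReal (66 * ω) = 66 * wgt z σ c (f x₀) := by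
            rw [ENNReal.ofReal_mul (by norm_num), hωe]
            simp
        _ ≤ 66 * (33 * wgt z σ c (f x)) := by gcongr
        _ = 2178 * wgt z σ c (f x) := by
            rw [← mul_assoc]
            norm_num

end

end Vale.Agent.P073.H194
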