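import Vale.Agent.P073.H194.ConV
import Vale.Agent.P073.H761.GenFam
import Vale.Agent.P073.H732.RedV

/-!
# P073: conical approximations on a subdomain, closeness zero at the boundary
-/

namespace Vale.Agent.P073.H194

open MeasureTheory Set Filter Topology Metric Vale.Agent.P073.St Vale.Agent.P073.AB
open Vale.Agent.P073.SQ (ev)
open _root_.P073 (ConHomeo)
open scoped ContDiff ENNReal

/-- diffeomorphic approximations of `f` on `R` -/
def DifAppK (q : ℝ) (R : Set V) (f : V → V) (F : V → Mat) : Prop :=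
  ∃ φ : ℕ → V → V, (∀ j, St.IsDiffeo R (f '' R) (φ j)) ∧
    (∀ j : ℕ, ∀ x ∈ R, ‖φ j x - f x‖ ≤ 1 / ((j : ℝ) + 1)) ∧
    (∀ j, ∀ η > 0, ∃ K ⊆ R, IsCompact K ∧ ∀ x ∈ R \ K, ‖φ j x - f x‖ ≤ η) ∧
    Tendsto (fun j => ∫⁻ x in R, ‖fderiv ℝ (φ j) x - cl (F x)‖ₑ ^ q) atTop (𝓝 0)

/-- conical approximations of `f` on `R` -/
def ConAppK (q : ℝ) (R : Set V) (f : V → V) (F : V → Mat) : Prop :=
  ∃ φ : ℕ → ConHomeo R (f '' R),
    (∀ j : ℕ, ∀ x ∈ R, ‖(φ j).toFun x - f x‖ ≤ 1 / ((j : ℝ) + 1)) ∧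
    (∀ j, ∀ η > 0, ∃ K ⊆ R, IsCompact K ∧ ∀ x ∈ R \ K, ‖(φ j).toFun x - f x‖ ≤ η) ∧
    Tendsto (fun j => ∫⁻ x in R, ‖fderiv ℝ (φ j).toFun x - cl (F x)‖ₑ ^ q) atTop (𝓝 0)

/-- the points far from the complement form a compact set -/
theorem isCompact_far' {Ω : Set V} (hb : Bornology.IsBounded Ω) {r : ℝ} (hr : 0 < r) :
    IsCompact {y | r ≤ infDist y Ωᶜ} ∧ {y | r ≤ infDist y Ωᶜ} ⊆ Ω := by
  have h1 : {y | r ≤ infDist y Ωᶜ} ⊆ Ω := by
    intro y hy
    by_contra hyΩ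
    have h2 : infDist y Ωᶜ = 0 := infDist_zero_of_mem hyΩ
    have h3 : r ≤ infDist y Ωᶜ := hy
    linarith
  refine ⟨Metric.isCompact_of_isClosed_isBounded ?_ (hb.subset h1), h1⟩
  exact isClosed_le continuous_const (continuous_infDist_pt _)

/-- **conical approximations from diffeomorphic approximations** -/
theorem conApp_of {q : ℝ} (hq : 1 ≤ q) {R : Set V} {f : V → V} {F : V → Mat} (hR : IsOpen R)
    (hRb : Bornology.IsBounded R) (hI : IsOpen (f '' R)) (hIb : Bornology.IsBounded (f '' R))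
    (h : DifAppK q R f F) : ConAppK q R f F := by
  have hq0 : 0 < q := by linarith
  have hne : (Rᶜ : Set V).Nonempty := by
    by_contra h
    rw [not_nonempty_iff_eq_empty, compl_empty_iff] at h
    exact (NormedSpace.unbounded_univ ℝ V) (h ▸ hRb)
  obtain ⟨ψ, hψ, hc, hv, ht⟩ := h
  set σ : ℕ → V → ℝ := fun j x => min (1 / (2 * ((j : ℝ) + 1))) (infDist x Rᶜ) with hσ
  have hσc : ∀ j, Continuous (σ j) := fun j => continuous_const.min (continuous_infDist_pt _)
  have hσ0 : ∀ j, ∀ x ∈ R, 0 < σ j x := fun j x hx => lt_min (by positivity)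
    ((hR.isClosed_compl.notMem_iff_infDist_pos hne).1 fun h => h hx)
  choose φ h1 h2 h3 using fun j => con_of_diffeo hR hRb hI hIb (hψ (2 * j + 1))
    (hσc j).continuousOn (hσ0 j)
  refine ⟨φ, fun j x hx => ?_, fun j η hη => ?_, ?_⟩
  · have e1 := (h1 j x hx).trans (min_le_left _ _)
    have e2 := hc (2 * j + 1) x hx
    have e3 := norm_sub_le_norm_sub_add_norm_sub ((φ j).toFun x) (ψ (2 * j + 1) x) (f x)
    have e4 : (1:ℝ) / (((2 * j + 1 : ℕ) : ℝ) + 1) = 1 / (2 * ((j : ℝ) + 1)) := by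
      push_cast
      congr 1
      ring
    rw [e4] at e2
    have e5 : (1:ℝ) / (2 * ((j : ℝ) + 1)) + 1 / (2 * ((j : ℝ) + 1)) = 1 / ((j : ℝ) + 1) := by
      field_simp
      norm_num
    linarith
  · obtain ⟨K, hKR, hKc, hK⟩ := hv (2 * j + 1) (η / 2) (half_pos hη)
    obtain ⟨hAc, hAR⟩ := isCompact_far' hRb (half_pos hη)
    refine ⟨K ∪ {y | η / 2 ≤ infDist y Rᶜ}, union_subset hKR hAR, hKc.union hAc, ?_⟩
    rintro x ⟨hx, hxK⟩
    rw [mem_union, not_or] at hxK
    have e1 := (h1 j x hx).trans (min_le_right _ _)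
    have e2 := hK x ⟨hx, hxK.1⟩
    have e3 : infDist x Rᶜ < η / 2 := not_le.1 hxK.2
    have e4 := norm_sub_le_norm_sub_add_norm_sub ((φ j).toFun x) (ψ (2 * j + 1) x) (f x)
    linarith
  · have hvR : volume R ≠ ⊤ := hRb.measure_lt_top.ne
    have hlim : Tendsto (fun j : ℕ => (2:ℝ≥0∞) ^ (q - 1) *
        (ENNReal.ofReal (1 / ((j : ℝ) + 1)) ^ q * volume R +
          ∫⁻ x in R, ‖fderiv ℝ (ψ (2 * j + 1)) x - cl (F x)‖ₑ ^ q)) atTop (𝓝 0) := by
      have t1 : Tendsto (fun j : ℕ => ENNReal.ofReal (1 / ((j : ℝ) + 1)) ^ q * volume R) atTop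
          (𝓝 0) := by
        have a1 : Tendsto (fun j : ℕ => ENNReal.ofReal (1 / ((j : ℝ) + 1))) atTop (𝓝 0) := by
          simpa using ENNReal.tendsto_ofReal tendsto_one_div_add_atTop_nhds_zero_nat
        have a2 : Tendsto (fun j : ℕ => ENNReal.ofReal (1 / ((j : ℝ) + 1)) ^ q) atTop
            (𝓝 ((0:ℝ≥0∞) ^ q)) := (ENNReal.continuous_rpow_const.tendsto _).comp a1
        rw [ENNReal.zero_rpow_of_pos hq0] at a2
        simpa using ENNReal.Tendsto.mul_const a2 (Or.inr hvR)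
      have t2 : Tendsto (fun j : ℕ => ∫⁻ x in R, ‖fderiv ℝ (ψ (2 * j + 1)) x - cl (F x)‖ₑ ^ q)
          atTop (𝓝 0) := ht.comp (tendsto_atTop_mono (fun j => by
            show j ≤ 2 * j + 1
            omega) tendsto_id)
      have t3 := ENNReal.Tendsto.const_mul (a := (2:ℝ≥0∞) ^ (q - 1)) (t1.add t2)
        (Or.inr H880.two_rpow_ne_top)
      simpa using t3
    refine tendsto_of_tendsto_of_tendsto_of_le_of_le tendsto_const_nhds hlim
      (fun j => bot_le) fun j => ?_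
    have hm : Measurable fun x => ‖fderiv ℝ (φ j).toFun x - fderiv ℝ (ψ (2 * j + 1)) x‖ₑ ^ q :=
      (((measurable_fderiv ℝ _).sub (measurable_fderiv ℝ _)).enorm).pow_const q
    calc ∫⁻ x in R, ‖fderiv ℝ (φ j).toFun x - cl (F x)‖ₑ ^ q
        ≤ ∫⁻ x in R, 2 ^ (q - 1) *
            (‖fderiv ℝ (φ j).toFun x - fderiv ℝ (ψ (2 * j + 1)) x‖ₑ ^ q +
              ‖fderiv ℝ (ψ (2 * j + 1)) x - cl (F x)‖ₑ ^ q) := by
          refine lintegral_mono fun x => ?_
          refine le_trans ?_ (ENNReal.rpow_add_le_mul_rpow_add_rpow _ _ hq)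
          gcongr
          have e0 := norm_sub_le_norm_sub_add_norm_sub (fderiv ℝ (φ j).toFun x)
            (fderiv ℝ (ψ (2 * j + 1)) x) (cl (F x))
          rw [← ofReal_norm, ← ofReal_norm, ← ofReal_norm,
            ← ENNReal.ofReal_add (norm_nonneg _) (norm_nonneg _)]
          exact ENNReal.ofReal_le_ofReal e0
      _ = 2 ^ (q - 1) *
            ((∫⁻ x in R, ‖fderiv ℝ (φ j).toFun x - fderiv ℝ (ψ (2 * j + 1)) x‖ₑ ^ q) +
              ∫⁻ x in R, ‖fderiv ℝ (ψ (2 * j + 1)) x - cl (F x)‖ₑ ^ q) := by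
          rw [lintegral_const_mul' _ _ H880.two_rpow_ne_top, lintegral_add_left hm]
      _ ≤ _ := by
          gcongr
          rw [← setLIntegral_const]
          refine setLIntegral_mono_ae' hR.measurableSet ?_
          filter_upwards [h3 j] with x hx hxR
          have e1 := (hx hxR).trans (min_le_left _ _)
          have e2 : (1:ℝ) / (2 * ((j : ℝ) + 1)) ≤ 1 / ((j : ℝ) + 1) := by
            apply one_div_le_one_div_of_le (by positivity)
            have : (0:ℝ) ≤ j := by positivity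
            linarith
          have e3 : ‖fderiv ℝ (φ j).toFun x - fderiv ℝ (ψ (2 * j + 1)) x‖ₑ ≤
              ENNReal.ofReal (1 / ((j : ℝ) + 1)) := by
            rw [← ofReal_norm]
            exact ENNReal.ofReal_le_ofReal (e1.trans e2)
          exact ENNReal.rpow_le_rpow e3 hq0.le

/-- from the closeness theorem on a domain -/
theorem difAppK_of {q : ℝ} {R : Set V} {f : V → V} {F : V → Mat}
    (hC : ∀ ε > 0, ∃ φ : V → V, St.IsDiffeo R (f '' R) φ ∧ err q R f F φ ≤ ENNReal.ofReal ε ∧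
      (∀ x ∈ R, ‖φ x - f x‖ ≤ ε) ∧
      ∀ η > 0, ∃ K ⊆ R, IsCompact K ∧ ∀ x ∈ R \ K, ‖φ x - f x‖ ≤ η)
    (hle : ∀ φ : V → V, ∫⁻ x in R, ‖fderiv ℝ φ x - cl (F x)‖ₑ ^ q ≤ 3 ^ q * err q R f F φ) :
    DifAppK q R f F := by
  choose φ h1 h2 h3 h4 using fun j : ℕ => hC (1 / ((j : ℝ) + 1)) (by positivity)
  refine ⟨φ, h1, h3, h4, ?_⟩
  have a1 : Tendsto (fun j : ℕ => ENNReal.ofReal (1 / ((j : ℝ) + 1))) atTop (𝓝 0) := by
    simpa using ENNReal.tendsto_ofReal tendsto_one_div_add_atTop_nhds_zero_nat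
  have a2 : Tendsto (fun j : ℕ => (3:ℝ≥0∞) ^ q * ENNReal.ofReal (1 / ((j : ℝ) + 1))) atTop
      (𝓝 0) := by
    have := ENNReal.Tendsto.const_mul (a := (3:ℝ≥0∞) ^ q) a1 (Or.inr (by finiteness))
    simpa using this
  exact tendsto_of_tendsto_of_tendsto_of_le_of_le tendsto_const_nhds a2 (fun j => bot_le)
    fun j => (hle (φ j)).trans (mul_le_mul' le_rfl (h2 j))

/-- on the net of almost every origin one may use the points of differentiability only -/
theorem ae_diff_net {R Λ : Set V} (hR : IsOpen R) (φ : ConHomeo R Λ) :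
    ∀ᵐ v : V, ∀ A A' : V → ℝ≥0∞,
      (∀ x ∈ R, DifferentiableAt ℝ φ.toFun x → A x = A' x) →
      (∀ e, edge v e ⊆ R → eInt v e A = eInt v e A') ∧
        ∀ s, squ v s ⊆ R → sInt v s A = sInt v s A' := by
  have h0 := H655.ae_differentiable hR φ
  filter_upwards [H83.ae_rep (ae_iff.1 h0)] with v hv A A' hA
  obtain ⟨h1, h2⟩ := hv (R.indicator A) (R.indicator A') fun x hx => by
    by_cases hxR : x ∈ R
    · rw [indicator_of_mem hxR, indicator_of_mem hxR]
      exact hA x hxR (by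
        have := not_not.1 hx
        exact this hxR)
    · rw [indicator_of_notMem hxR, indicator_of_notMem hxR]
  refine ⟨fun e he => ?_, fun s hs => ?_⟩
  · have e1 := h1 e
    rwa [eInt_congr (fun t ht => indicator_of_mem (he (H761.edge_pt_mem v e ht)) _),
      eInt_congr (fun t ht => indicator_of_mem (he (H761.edge_pt_mem v e ht)) _)] at e1
  · have e1 := h2 s
    rwa [sInt_congr (fun x hx => indicator_of_mem (hs hx) _),
      sInt_congr (fun x hx => indicator_of_mem (hs hx) _)] at e1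

end Vale.Agent.P073.H194
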