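import Vale.Agent.P073.H237.SharpDefs3
import Vale.Agent.P073.H237.SharpNode
import Vale.Agent.P073.H228.Comb
import Vale.Agent.P073.H190.ShShear
import Vale.Agent.P073.H190.ShNodes

/-!
# P073, H194, SHARP2, **[FITS]**: the through arcs are moved to the standard positions
-/

set_option linter.unusedSectionVars false

open Set Metric Topology

namespace P073.H194

open P073.H31 P073.H237

/-- the end of the through arcs of type `dir e` on the edge `e` -/
def sd (e : Fin 4) : Bool := match e with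
  | 0 => false
  | 1 => false
  | 2 => true
  | 3 => true

variable {X : Ends} {m c ρ om M b : ℝ}

theorem e_thr {j : ℕ} {e : Fin 4} (h : X.thr j) (ht : X.typ j = Ends.dir e) : X.e j (sd e) = e := by
  rcases h with ⟨h1, h2, h3⟩ | ⟨h1, h2, h3⟩
  · rw [h1] at ht
    fin_cases e
    · exact h2
    · exact absurd ht (by simp [Ends.dir])
    · exact h3
    · exact absurd ht (by simp [Ends.dir])
  · rw [h1] at ht
    fin_cases e
    · exact absurd ht (by simp [Ends.dir])
    · exact h2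
    · exact absurd ht (by simp [Ends.dir])
    · exact h3

/-- the through arcs of the type `d` in their order -/
theorem exists_arr (d : Bool)
    (h4 : ∀ i < X.n, X.thr i → X.rt i false = X.rt i true ∧
      X.rt i false < (X.th (X.typ i)).card)
    (h5 : ∀ i < X.n, ∀ j < X.n, X.thr i → X.thr j → X.typ i = X.typ j → i ≠ j →
      X.rt i false ≠ X.rt j false) :
    ∃ arr : ℕ → ℕ, ∀ r < (X.th d).card, arr r < X.n ∧ X.thr (arr r) ∧ X.typ (arr r) = d ∧
      ∀ s, X.rt (arr r) s = r := by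
  classical
  have him : (X.th d).image (fun i => X.rt i false) = Finset.range (X.th d).card := by
    refine Finset.eq_of_subset_of_card_le ?_ ?_
    · intro r hr
      obtain ⟨i, hi, rfl⟩ := Finset.mem_image.1 hr
      obtain ⟨i1, i2, i3⟩ := Ends.mem_th.1 hi
      have := (h4 i i1 i2).2
      rw [i3] at this
      exact Finset.mem_range.2 this
    · rw [Finset.card_range, Finset.card_image_of_injOn]
      intro i hi j hj hij
      obtain ⟨i1, i2, i3⟩ := Ends.mem_th.1 (Finset.mem_coe.1 hi)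
      obtain ⟨j1, j2, j3⟩ := Ends.mem_th.1 (Finset.mem_coe.1 hj)
      by_contra hne
      exact h5 i i1 j j1 i2 j2 (i3.trans j3.symm) hne hij
  have hex : ∀ r, ∃ i, r < (X.th d).card → i < X.n ∧ X.thr i ∧ X.typ i = d ∧
      ∀ s, X.rt i s = r := by
    intro r
    by_cases hr : r < (X.th d).card
    · have : r ∈ (X.th d).image (fun i => X.rt i false) := by
        rw [him]; exact Finset.mem_range.2 hr
      obtain ⟨i, hi, hir⟩ := Finset.mem_image.1 this
      obtain ⟨i1, i2, i3⟩ := Ends.mem_th.1 hi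
      refine ⟨i, fun _ => ⟨i1, i2, i3, fun s => ?_⟩⟩
      cases s
      · exact hir
      · rw [← (h4 i i1 i2).1]; exact hir
    · exact ⟨0, fun h => absurd h hr⟩
  choose arr harr using hex
  exact ⟨arr, fun r hr => harr r hr⟩

/-- the number of through arcs is at most the number of ends -/
theorem th_le_on (e : Fin 4) : (X.th (Ends.dir e)).card ≤ (X.on e).card := by
  classical
  refine Finset.card_le_card_of_injOn (fun i => (i, sd e)) ?_ ?_
  · intro i hi
    obtain ⟨i1, i2, i3⟩ := Ends.mem_th.1 (Finset.mem_coe.1 hi)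
    exact Finset.mem_coe.2 (Ends.mem_on.2 ⟨i1, e_thr i2 i3⟩)
  · intro i _ j _ hij
    exact (Prod.mk.inj hij).1

/-- monotonicity in the ranks -/
theorem lo_lt_of_rt {i j : ℕ} {s : Bool} (ht : X.typ i = X.typ j)
    (h : X.rt i s < X.rt j s) : X.lo i s < X.lo j s := by
  by_contra hcon
  rw [not_lt] at hcon
  refine absurd h (not_lt.2 ?_)
  unfold Ends.rt
  rw [ht]
  refine Finset.card_le_card fun k hk => ?_
  obtain ⟨k1, k2⟩ := Finset.mem_filter.1 hk
  exact Finset.mem_filter.2 ⟨k1, k2.trans_le hcon⟩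

theorem rk_lt_of_lo {i j : ℕ} {s : Bool} (hi : i < X.n) (he : X.e i s = X.e j s)
    (h : X.lo i s < X.lo j s) : X.rk i s < X.rk j s := by
  unfold Ends.rk
  rw [he]
  refine Finset.card_lt_card (Finset.ssubset_iff_of_subset ?_ |>.2 ⟨(i, s), ?_, ?_⟩)
  · intro y hy
    obtain ⟨y1, y2⟩ := Finset.mem_filter.1 hy
    exact Finset.mem_filter.2 ⟨y1, y2.trans h⟩
  · exact Finset.mem_filter.2 ⟨Ends.mem_on.2 ⟨hi, he⟩, h⟩
  · intro hy
    exact lt_irrefl _ (Finset.mem_filter.1 hy).2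

/-- the standard intervals -/
noncomputable def ap (m : ℝ) (N r : ℕ) : ℝ := m + (1 - 2 * m) * (r + m / 2) / N
noncomputable def bp (m : ℝ) (N r : ℕ) : ℝ := m + (1 - 2 * m) * (r + 1 - m / 2) / N

theorem bp_sub_ap {N : ℕ} (hN : 0 < N) (r : ℕ) :
    bp m N r - ap m N r = (1 - 2 * m) * (1 - m) / N := by
  unfold bp ap
  ring

theorem ap_sub_bp {N : ℕ} (hN : 0 < N) (r : ℕ) :
    ap m N (r + 1) - bp m N r = (1 - 2 * m) * m / N := by
  unfold bp ap
  push_cast
  ring

theorem ap_zero (hm : 0 < m) (hm2 : m < 1 / 4) {N : ℕ} (hN : 0 < N) :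
    0 < ap m N 0 ∧ ap m N 0 ≤ 3 / 2 * m := by
  have hN0 : (1:ℝ) ≤ N := by exact_mod_cast hN
  have h1 : (1 - 2 * m) * (((0:ℕ):ℝ) + m / 2) / N ≤ m / 2 := by
    rw [div_le_iff₀ (by linarith), Nat.cast_zero, zero_add]
    have h1 : (1 - 2 * m) * (m / 2) ≤ 1 * (m / 2) :=
      mul_le_mul_of_nonneg_right (by linarith) (by linarith)
    have h2 : m / 2 * 1 ≤ m / 2 * N := mul_le_mul_of_nonneg_left hN0 (by linarith)
    linarith
  have h2 : 0 ≤ (1 - 2 * m) * (((0:ℕ):ℝ) + m / 2) / N := by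
    have : 0 ≤ 1 - 2 * m := by linarith
    positivity
  unfold ap
  constructor <;> linarith

theorem bp_last (hm : 0 < m) (hm2 : m < 1 / 4) {N : ℕ} (hN : 0 < N) :
    bp m N (N - 1) < 1 ∧ 1 - bp m N (N - 1) ≤ 3 / 2 * m := by
  have hN1 : (1:ℝ) ≤ N := by exact_mod_cast hN
  have hN0 : (0:ℝ) < N := by linarith
  have eN : ((N - 1 : ℕ) : ℝ) + 1 = N := by
    have : N - 1 + 1 = N := by omega
    exact_mod_cast this
  have h1 : (1 - 2 * m) * ((N:ℝ) - m / 2) / N = (1 - 2 * m) - (1 - 2 * m) * (m / 2) / N := by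
    field_simp
  have h2 : (1 - 2 * m) * (m / 2) / (N:ℝ) ≤ m / 2 := by
    rw [div_le_iff₀ hN0]
    have h1 : (1 - 2 * m) * (m / 2) ≤ 1 * (m / 2) :=
      mul_le_mul_of_nonneg_right (by linarith) (by linarith)
    have h2 : m / 2 * 1 ≤ m / 2 * N := mul_le_mul_of_nonneg_left hN1 (by linarith)
    linarith
  have h3 : 0 ≤ (1 - 2 * m) * (m / 2) / (N:ℝ) := by
    have : 0 ≤ 1 - 2 * m := by linarith
    positivity
  unfold bp
  rw [eN, h1]
  constructor <;> linarith

theorem seq_std (hm : 0 < m) (hm2 : m < 1 / 4) {N : ℕ} (hN : 0 < N) :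
    Seq (ap m N) (bp m N) N := by
  have hN0 : (0:ℝ) < N := by exact_mod_cast hN
  have hm' : 0 < 1 - 2 * m := by linarith
  refine ⟨hN, (ap_zero hm hm2 hN).1, fun r _ => ?_, fun r _ => ?_, (bp_last hm hm2 hN).1⟩
  · have h1 := bp_sub_ap (m := m) hN r
    have h2 : 0 < (1 - 2 * m) * (1 - m) / (N:ℝ) := div_pos (mul_pos hm' (by linarith)) hN0
    linarith
  · have h1 := ap_sub_bp (m := m) hN r
    have h2 : 0 < (1 - 2 * m) * m / (N:ℝ) := by positivity
    linarith

/-- the numbers of one edge -/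
structure EN (m c ρ M : ℝ) (N Q : ℕ) (lo hi : ℕ → ℝ) : Prop where
  N0 : 0 < N
  NQ : (N : ℝ) ≤ Q
  QN : (Q : ℝ) ≤ 9 / 7 * N
  N1 : 1 / (N:ℝ) ≤ 8 / 7 * ρ
  mem : ∀ r < N, m < lo r ∧ lo r < hi r ∧ hi r < 1 - m
  wid : ∀ r < N, c * (1 - 2 * m) / Q ≤ hi r - lo r ∧ hi r - lo r ≤ 1 / Q
  gap : ∀ r, r + 1 < N → (1 - 2 * m) * (2 * c) / Q ≤ lo (r + 1) - hi r
  pos : ∀ r < N, |lo r - (m + (1 - 2 * m) * r / N)| ≤ M * ρ

theorem EN.seq {N Q : ℕ} {lo hi : ℕ → ℝ} (h : EN m c ρ M N Q lo hi) (hm : 0 < m) (hm2 : m < 1 / 4)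
    (hc : 0 < c) : Seq lo hi N := by
  have hN0 : (0:ℝ) < N := by exact_mod_cast h.N0
  have hQ0 : (0:ℝ) < Q := hN0.trans_le h.NQ
  have hm' : 0 < 1 - 2 * m := by linarith
  refine ⟨h.N0, ?_, fun r hr => (h.mem r hr).2.1, fun r hr => ?_, ?_⟩
  · exact hm.trans (h.mem 0 h.N0).1
  · have h1 := h.gap r hr
    have h2 : 0 < (1 - 2 * m) * (2 * c) / (Q:ℝ) := by positivity
    linarith
  · have := (h.mem (N - 1) (by have := h.N0; omega)).2.2
    linarith

theorem EN.devA {N Q : ℕ} {lo hi : ℕ → ℝ} (h : EN m c ρ M N Q lo hi) (hm : 0 < m) (hm2 : m < 1 / 4)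
    (hρ : 0 < ρ) {r : ℕ} (hr : r < N) : |ap m N r - lo r| ≤ M * ρ + ρ := by
  have hN0 : (0:ℝ) < N := by exact_mod_cast h.N0
  have hm' : 0 < 1 - 2 * m := by linarith
  have e1 : ap m N r - lo r = -(lo r - (m + (1 - 2 * m) * r / N)) + (1 - 2 * m) * (m / 2) / N := by
    unfold ap; ring
  have h1 : 0 ≤ (1 - 2 * m) * (m / 2) / (N:ℝ) := by positivity
  have h2 : (1 - 2 * m) * (m / 2) / (N:ℝ) ≤ 1 / 8 * (1 / N) := by
    have e2 : (1:ℝ) / 8 * (1 / N) = (1 / 8) / N := by ring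
    rw [e2]
    refine div_le_div_of_nonneg_right ?_ hN0.le
    have h3 : (1 - 2 * m) * (m / 2) ≤ 1 * (m / 2) :=
      mul_le_mul_of_nonneg_right (by linarith) (by linarith)
    linarith
  rw [e1]
  refine (abs_add_le _ _).trans ?_
  rw [abs_neg, abs_of_nonneg h1]
  have h3 := h.pos r hr
  have h4 := h.N1
  linarith

theorem EN.devB {N Q : ℕ} {lo hi : ℕ → ℝ} (h : EN m c ρ M N Q lo hi) (hm : 0 < m) (hm2 : m < 1 / 4)
    (hρ : 0 < ρ) {r : ℕ} (hr : r < N) : |bp m N r - hi r| ≤ M * ρ + 8 * ρ := by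
  have hN0 : (0:ℝ) < N := by exact_mod_cast h.N0
  have hQ0 : (0:ℝ) < Q := hN0.trans_le h.NQ
  have hm' : 0 < 1 - 2 * m := by linarith
  have h1 := h.devA hm hm2 hρ hr
  have h2 := (h.wid r hr).2
  have h3 : 0 < hi r - lo r := by linarith [(h.mem r hr).2.1]
  have hQ1 : 1 / (Q:ℝ) ≤ 1 / N := one_div_le_one_div_of_le hN0 h.NQ
  have h5 : (1 - 2 * m) * (1 - m) / (N:ℝ) ≤ 1 / N := by
    refine div_le_div_of_nonneg_right ?_ hN0.le
    have h3 : (1 - 2 * m) * (1 - m) ≤ 1 * (1 - m) :=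
      mul_le_mul_of_nonneg_right (by linarith) (by linarith)
    linarith
  have h6 : 0 ≤ (1 - 2 * m) * (1 - m) / (N:ℝ) :=
    div_nonneg (mul_nonneg hm'.le (by linarith)) hN0.le
  have e3 : bp m N r - hi r = (ap m N r - lo r) + ((1 - 2 * m) * (1 - m) / N - (hi r - lo r)) := by
    have := bp_sub_ap (m := m) h.N0 r
    linarith
  rw [e3]
  refine (abs_add_le _ _).trans ?_
  have h8 : 0 < 1 / (N:ℝ) := by positivity
  have h7 : |(1 - 2 * m) * (1 - m) / (N:ℝ) - (hi r - lo r)| ≤ 1 / N := by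
    rw [abs_le]
    constructor <;> linarith
  have h4 := h.N1
  linarith

theorem EN.exists_T {N Q : ℕ} {lo hi : ℕ → ℝ} (h : EN m c ρ M N Q lo hi) (hm : 0 < m)
    (hm2 : m < 1 / 4) (hc : 0 < c) (hc2 : c < 1 / 4) (hρ : 0 < ρ) (hM : 0 < M) :
    ∃ T T' : ℝ → ℝ, PL1 (2 / c) T T' ∧ (∀ t ∈ Icc (0:ℝ) 1, |T t - t| ≤ (M + 8) * ρ) ∧
      ∀ r < N, ∀ t ∈ Icc (lo r) (hi r), T t = ap m N r + (bp m N r - ap m N r) *
        ((t - lo r) / (hi r - lo r)) := by
  have hN0 : (0:ℝ) < N := by exact_mod_cast h.N0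
  have hQ0 : (0:ℝ) < Q := hN0.trans_le h.NQ
  have hm' : 0 < 1 - 2 * m := by linarith
  have hL : (1:ℝ) ≤ 2 / c := by rw [le_div_iff₀ hc]; linarith
  have hL8 : (8:ℝ) ≤ 2 / c := by rw [le_div_iff₀ hc]; linarith
  have eM : (M + 8) * ρ = M * ρ + 8 * ρ := by ring
  refine P073.H237.exists_T Vale.Agent.P073.H190.specNodes (h.seq hm hm2 hc)
    (seq_std hm hm2 h.N0) hL ?_ ?_ ?_ ?_ (by positivity) ?_ ?_
  · -- the first interval
    have h1 := (ap_zero hm hm2 h.N0).2
    have h2 := (h.mem 0 h.N0).1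
    have h3 : 8 * lo 0 ≤ 2 / c * lo 0 := mul_le_mul_of_nonneg_right hL8 (by linarith)
    linarith
  · -- the bands
    intro r hr
    have h1 := (h.wid r hr).1
    have h3 : 2 / c * (c * (1 - 2 * m) / (Q:ℝ)) ≤ 2 / c * (hi r - lo r) :=
      mul_le_mul_of_nonneg_left h1 (by positivity)
    have e1 : 2 / c * (c * (1 - 2 * m) / (Q:ℝ)) = 2 * (1 - 2 * m) / Q := by
      field_simp
    rw [e1] at h3
    refine le_trans ?_ h3
    rw [bp_sub_ap h.N0, div_le_div_iff₀ hN0 hQ0]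
    have h4 : (1 - m) * (Q:ℝ) ≤ 1 * Q := mul_le_mul_of_nonneg_right (by linarith) hQ0.le
    have h5 := h.QN
    have h6 : (1 - m) * (Q:ℝ) ≤ 2 * N := by linarith
    calc (1 - 2 * m) * (1 - m) * Q = (1 - 2 * m) * ((1 - m) * Q) := by ring
      _ ≤ (1 - 2 * m) * (2 * N) := mul_le_mul_of_nonneg_left h6 hm'.le
      _ = 2 * (1 - 2 * m) * N := by ring
  · -- the gaps
    intro r hr
    have h1 := h.gap r hr
    have h3 : 2 / c * ((1 - 2 * m) * (2 * c) / (Q:ℝ)) ≤ 2 / c * (lo (r + 1) - hi r) :=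
      mul_le_mul_of_nonneg_left h1 (by positivity)
    have e1 : 2 / c * ((1 - 2 * m) * (2 * c) / (Q:ℝ)) = 4 * (1 - 2 * m) / Q := by
      field_simp
      ring
    rw [e1] at h3
    refine le_trans ?_ h3
    rw [ap_sub_bp h.N0, div_le_div_iff₀ hN0 hQ0]
    have h4 : m * (Q:ℝ) ≤ 1 * Q := mul_le_mul_of_nonneg_right (by linarith) hQ0.le
    have h5 := h.QN
    have h6 : m * (Q:ℝ) ≤ 4 * N := by linarith
    calc (1 - 2 * m) * m * Q = (1 - 2 * m) * (m * Q) := by ring
      _ ≤ (1 - 2 * m) * (4 * N) := mul_le_mul_of_nonneg_left h6 hm'.le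
      _ = 4 * (1 - 2 * m) * N := by ring
  · -- the last interval
    have h1 := (bp_last hm hm2 h.N0).2
    have h2 := (h.mem (N - 1) (by have := h.N0; omega)).2.2
    have h3 : 8 * (1 - hi (N - 1)) ≤ 2 / c * (1 - hi (N - 1)) :=
      mul_le_mul_of_nonneg_right hL8 (by linarith)
    linarith
  · intro r hr
    have := h.devA hm hm2 hρ hr
    rw [eM]
    linarith
  · intro r hr
    have := h.devB hm hm2 hρ hr
    rw [eM]
    exact this

/-- the numbers of an edge of `X` -/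
theorem exists_EN (hm : 0 < m) (hm2 : m < 1 / 4) (hc : 0 < c) (hc2 : c < 1 / 4) (hρ : 0 < ρ)
    (hρ1 : ρ ≤ 1 / 8) (hMρ : M * ρ ≤ 1 / 8) (hom : 0 < om) (homρ : om ≤ ρ)
    (H : X.Near m c ρ om) (h3 : ∀ d, |om * (X.th d).card - 1| ≤ M * ρ)
    (h6 : ∀ i < X.n, ∀ s, X.thr i →
      |X.lo i s - (m + (1 - 2 * m) * X.rt i s / (X.th (X.typ i)).card)| ≤ M * ρ) (e : Fin 4)
    {arr : ℕ → ℕ} (harr : ∀ r < (X.th (Ends.dir e)).card, arr r < X.n ∧ X.thr (arr r) ∧
      X.typ (arr r) = Ends.dir e ∧ ∀ s, X.rt (arr r) s = r) :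
    EN m c ρ M (X.th (Ends.dir e)).card (X.on e).card (fun r => X.lo (arr r) (sd e))
      (fun r => X.hi (arr r) (sd e)) := by
  set N := (X.th (Ends.dir e)).card with hN
  set s := sd e with hs
  set Q := (X.on e).card with hQ
  have hNQ : (N : ℝ) ≤ Q := by exact_mod_cast th_le_on (X := X) e
  have t3 := abs_le.1 (h3 (Ends.dir e))
  rw [← hN] at t3
  have hN0 : (0:ℝ) < N := by
    by_contra hcon
    have : (N:ℝ) = 0 := le_antisymm (not_lt.1 hcon) (Nat.cast_nonneg _)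
    rw [this] at t3
    linarith [t3.1]
  have hQ0 : (0:ℝ) < Q := hN0.trans_le hNQ
  have hcnt : om * Q ≤ 1 + ρ := H.cnt e
  have hm' : 0 < 1 - 2 * m := by linarith
  have hA : 7 / 8 ≤ om * N := by linarith [t3.1]
  have fA : ∀ r < N, X.e (arr r) s = e := fun r hr => e_thr (harr r hr).2.1 (harr r hr).2.2.1
  have fcell : ∀ r < N, m + (1 - 2 * m) * (X.rk (arr r) s + c) / Q ≤ X.lo (arr r) s ∧
      X.hi (arr r) s ≤ m + (1 - 2 * m) * (X.rk (arr r) s + 1 - c) / Q ∧
      X.lo (arr r) s + c * (1 - 2 * m) / Q ≤ X.hi (arr r) s := by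
    intro r hr
    have := H.cell (arr r) (harr r hr).1 s
    rwa [fA r hr, ← hQ] at this
  refine ⟨by exact_mod_cast hN0, hNQ, ?_, ?_, ?_, ?_, ?_, ?_⟩
  · have h2 : om * Q ≤ 9 / 8 := by linarith
    have h3 : om * Q ≤ om * (9 / 7 * N) := by linarith
    exact le_of_mul_le_mul_left h3 hom
  · rw [div_le_iff₀ hN0]
    have h2 : om * N ≤ ρ * N := mul_le_mul_of_nonneg_right homρ hN0.le
    linarith
  · exact fun r hr => H.mem hm2 hc (harr r hr).1 s
  · intro r hr
    obtain ⟨g1, g2, g3⟩ := fcell r hr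
    refine ⟨by show _ ≤ X.hi (arr r) s - X.lo (arr r) s; linarith, ?_⟩
    have e1 : (1 - 2 * m) * (X.rk (arr r) s + 1 - c) / Q =
        (1 - 2 * m) * (X.rk (arr r) s + c) / Q + (1 - 2 * m) * (1 - 2 * c) / Q := by
      rw [← add_div]; congr 1; ring
    have e2 : (1 - 2 * m) * (1 - 2 * c) / (Q:ℝ) ≤ 1 / Q := by
      refine div_le_div_of_nonneg_right ?_ hQ0.le
      have h3 : (1 - 2 * m) * (1 - 2 * c) ≤ 1 * (1 - 2 * c) :=
        mul_le_mul_of_nonneg_right (by linarith) (by linarith)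
      linarith
    show X.hi (arr r) s - X.lo (arr r) s ≤ 1 / Q
    linarith
  · intro r hr
    have g1 := harr r (by omega)
    have g2 := harr (r + 1) hr
    have g3 : X.lo (arr r) s < X.lo (arr (r + 1)) s :=
      lo_lt_of_rt (g1.2.2.1.trans g2.2.2.1.symm) (by rw [g1.2.2.2 s, g2.2.2.2 s]; omega)
    have g4 := rk_lt_of_lo (X := X) g1.1 ((fA r (by omega)).trans (fA (r + 1) hr).symm) g3
    have g5 : (X.rk (arr r) s : ℝ) + 1 ≤ X.rk (arr (r + 1)) s := by exact_mod_cast g4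
    have g6 := (fcell r (by omega)).2.1
    have g7 := (fcell (r + 1) hr).1
    have g8 : (1 - 2 * m) * (X.rk (arr r) s + 1 - c) / Q + (1 - 2 * m) * (2 * c) / Q ≤
        (1 - 2 * m) * (X.rk (arr (r + 1)) s + c) / Q := by
      rw [← add_div, ← mul_add]
      refine div_le_div_of_nonneg_right (mul_le_mul_of_nonneg_left ?_ hm'.le) hQ0.le
      linarith
    show (1 - 2 * m) * (2 * c) / Q ≤ X.lo (arr (r + 1)) s - X.hi (arr r) s
    linarith
  · intro r hr
    have := h6 (arr r) (harr r hr).1 s (harr r hr).2.1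
    rwa [(harr r hr).2.2.1, (harr r hr).2.2.2 s, ← hN] at this

/-- **one edge** -/
theorem edge_T (hm : 0 < m) (hm2 : m < 1 / 4) (hc : 0 < c) (hc2 : c < 1 / 4) (hρ : 0 < ρ)
    (hM : 0 < M) (hρ1 : ρ ≤ 1 / 8) (hMρ : M * ρ ≤ 1 / 8) (hom : 0 < om) (homρ : om ≤ ρ)
    (H : X.Near m c ρ om)
    (h3 : ∀ d, |om * (X.th d).card - 1| ≤ M * ρ)
    (h4 : ∀ i < X.n, X.thr i → X.rt i false = X.rt i true ∧
      X.rt i false < (X.th (X.typ i)).card)
    (h5 : ∀ i < X.n, ∀ j < X.n, X.thr i → X.thr j → X.typ i = X.typ j → i ≠ j →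
      X.rt i false ≠ X.rt j false)
    (h6 : ∀ i < X.n, ∀ s, X.thr i →
      |X.lo i s - (m + (1 - 2 * m) * X.rt i s / (X.th (X.typ i)).card)| ≤ M * ρ) (e : Fin 4) :
    ∃ T T' : ℝ → ℝ, PL1 (2 / c) T T' ∧ (∀ t ∈ Icc (0:ℝ) 1, |T t - t| ≤ (M + 8) * ρ) ∧
      ∀ j < X.n, X.thr j → X.typ j = Ends.dir e → ∀ t ∈ Icc (X.lo j (sd e)) (X.hi j (sd e)),
        T t = X.Yp m j + X.wd m (Ends.dir e) *
          ((t - X.lo j (sd e)) / (X.hi j (sd e) - X.lo j (sd e))) := by
  obtain ⟨arr, harr⟩ := exists_arr (X := X) (Ends.dir e) h4 h5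
  have hEN := exists_EN hm hm2 hc hc2 hρ hρ1 hMρ hom homρ H h3 h6 e harr
  obtain ⟨T, T', k1, k2, k3⟩ := hEN.exists_T hm hm2 hc hc2 hρ hM
  refine ⟨T, T', k1, k2, fun j hj hjt hjd t ht => ?_⟩
  -- `j = arr (rt j)`
  obtain ⟨q1, q2⟩ := h4 j hj hjt
  rw [hjd] at q2
  have q3 : arr (X.rt j false) = j := by
    have g := harr _ q2
    by_contra hne
    exact h5 _ g.1 j hj g.2.1 hjt (g.2.2.1.trans hjd.symm) hne (g.2.2.2 false)
  have := k3 (X.rt j false) q2 t
  simp only [q3] at this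
  rw [this ht, bp_sub_ap hEN.N0]
  have e1 : ap m (X.th (Ends.dir e)).card (X.rt j false) = X.Yp m j := by
    simp only [ap, Ends.Yp, hjd]
  rw [e1]
  rfl

/-- **[FITS]** -/
theorem specFits : SpecFits := by
  intro m c b hm hm2 hc hc2 hb hb2
  obtain ⟨M, hM, hcomb⟩ := specComb
  refine ⟨b / (2 * (M + 8)), by positivity, ?_⟩
  intro X ρ om hρ hρ₀ hom homρ H hD
  have hMb : (M + 8) * ρ ≤ b / 2 := by
    rw [le_div_iff₀ (by positivity)] at hρ₀
    linarith
  have hMρ : M * ρ ≤ 1 / 8 := by nlinarith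
  have hρ1 : ρ ≤ 1 / 8 := by nlinarith
  obtain ⟨-, -, h3, h4, h5, h6⟩ := hcomb X m c ρ om hm hm2 hc hc2 hρ (by linarith) hom homρ H
  have hm' : 0 < 1 - 2 * m := by linarith
  -- the numbers
  have hNpos : ∀ d, 0 < (X.th d).card := by
    intro d
    have h := (abs_le.1 (h3 d)).1
    by_contra hcon
    have h0 : (X.th d).card = 0 := by omega
    rw [h0] at h
    push_cast at h
    linarith
  have hN0 : ∀ d, (0:ℝ) < (X.th d).card := fun d => by exact_mod_cast hNpos d
  have hY : ∀ j < X.n, X.thr j → m ≤ X.Yp m j ∧ X.Yp m j + X.wd m (X.typ j) ≤ 1 - m := by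
    intro j hj hjt
    have h := (h4 j hj hjt).2
    have h' : (X.rt j false : ℝ) + 1 ≤ (X.th (X.typ j)).card := by exact_mod_cast h
    have hN := hN0 (X.typ j)
    constructor
    · unfold Ends.Yp
      have : 0 ≤ (1 - 2 * m) * ((X.rt j false : ℝ) + m / 2) / (X.th (X.typ j)).card := by positivity
      linarith
    · unfold Ends.Yp Ends.wd
      have e1 : m + (1 - 2 * m) * ((X.rt j false : ℝ) + m / 2) / (X.th (X.typ j)).card +
          (1 - 2 * m) * (1 - m) / (X.th (X.typ j)).card =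
          m + (1 - 2 * m) * ((X.rt j false : ℝ) + 1 - m / 2) / (X.th (X.typ j)).card := by
        field_simp
        ring
      rw [e1]
      have : (1 - 2 * m) * ((X.rt j false : ℝ) + 1 - m / 2) / (X.th (X.typ j)).card ≤
          1 - 2 * m := by
        rw [div_le_iff₀ hN]
        refine mul_le_mul_of_nonneg_left ?_ hm'.le
        linarith
      linarith
  refine ⟨fun d => ⟨hNpos d, ?_, ?_⟩, fun j hj hjt => ⟨?_, ?_, hY j hj hjt⟩, ?_, ?_⟩
  · have := h3 d
    have h8 : M * ρ ≤ b := by nlinarith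
    exact this.trans h8
  · unfold Ends.wd
    rw [← mul_div_assoc, le_div_iff₀ (hN0 d)]
    have h1 := (abs_le.1 (h3 d)).2
    have h2 : (1:ℝ) / 2 * (3 / 4) ≤ (1 - 2 * m) * (1 - m) := by nlinarith
    linarith
  · -- the positions in the opposite chart
    obtain ⟨p1, p2, p3⟩ := H.mem hm2 hc hj false
    obtain ⟨q1, q2, q3⟩ := H.mem hm2 hc hj true
    rcases hjt with ⟨t1, t2, t3⟩ | ⟨t1, t2, t3⟩
    · have a1 : X.tl j false = X.lo j false / 4 := by
        unfold Ends.tl; rw [t2]; simp only [tpBL]; exact min_eq_left (by linarith)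
      have a2 : X.tr j false = X.hi j false / 4 := by
        unfold Ends.tr; rw [t2]; simp only [tpBL]; exact max_eq_right (by linarith)
      have a3 : X.tl j true = (3 - X.hi j true) / 4 := by
        unfold Ends.tl; rw [t3]; simp only [tpBL]; exact min_eq_right (by linarith)
      have a4 : X.tr j true = (3 - X.lo j true) / 4 := by
        unfold Ends.tr; rw [t3]; simp only [tpBL]; exact max_eq_left (by linarith)
      unfold ThrD.arc flipA Ends.arc Ends.thrD
      simp only [t1, a1, a2, a3, a4, Bool.not_false, ArcD.mk.injEq]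
      refine ⟨?_, ?_, ?_, ?_, trivial⟩ <;> ring
    · have a1 : X.tl j false = (1 + X.lo j false) / 4 := by
        unfold Ends.tl; rw [t2]; simp only [tpBL]; exact min_eq_left (by linarith)
      have a2 : X.tr j false = (1 + X.hi j false) / 4 := by
        unfold Ends.tr; rw [t2]; simp only [tpBL]; exact max_eq_right (by linarith)
      have a3 : X.tl j true = (4 - X.hi j true) / 4 := by
        unfold Ends.tl; rw [t3]; simp only [tpBL]; exact min_eq_right (by linarith)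
      have a4 : X.tr j true = (4 - X.lo j true) / 4 := by
        unfold Ends.tr; rw [t3]; simp only [tpBL]; exact max_eq_left (by linarith)
      unfold ThrD.arc flipA Ends.arc Ends.thrD
      simp only [t1, a1, a2, a3, a4, Bool.not_true, ArcD.mk.injEq]
      refine ⟨?_, ?_, ?_, ?_, trivial⟩ <;> ring
  · show X.hi j (!X.typ j) ≤ 1 - m
    exact (H.mem hm2 hc hj _).2.2.le
  · -- disjointness
    intro i hi j hj hit hjt hij htt
    have hne := h5 i hi j hj hit hjt htt hij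
    have hN := hN0 (X.typ j)
    have key : ∀ r r' : ℕ, r < r' → m + (1 - 2 * m) * ((r:ℝ) + m / 2) / (X.th (X.typ j)).card +
        (1 - 2 * m) * (1 - m) / (X.th (X.typ j)).card <
        m + (1 - 2 * m) * ((r':ℝ) + m / 2) / (X.th (X.typ j)).card := by
      intro r r' hr
      have h1 : (r:ℝ) + 1 ≤ r' := by exact_mod_cast hr
      have e1 : m + (1 - 2 * m) * ((r:ℝ) + m / 2) / (X.th (X.typ j)).card +
          (1 - 2 * m) * (1 - m) / (X.th (X.typ j)).card =
          m + (1 - 2 * m) * ((r:ℝ) + 1 - m / 2) / (X.th (X.typ j)).card := by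
        field_simp
        ring
      rw [e1]
      have : (1 - 2 * m) * ((r:ℝ) + 1 - m / 2) / (X.th (X.typ j)).card <
          (1 - 2 * m) * ((r':ℝ) + m / 2) / (X.th (X.typ j)).card := by
        refine div_lt_div_of_pos_right ?_ hN
        refine mul_lt_mul_of_pos_left ?_ hm'
        linarith
      linarith
    unfold Ends.Yp Ends.wd
    rw [htt]
    rcases lt_or_gt_of_ne hne with h | h
    · exact Or.inl (key _ _ h)
    · exact Or.inr (key _ _ h)
  · -- the homeomorphism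
    have hE := fun e => edge_T hm hm2 hc hc2 hρ hM hρ1 hMρ hom homρ H h3 h4 h5 h6 e
    choose T T' k1 k2 k3 using hE
    obtain ⟨S, s1, s2, s3, s4⟩ := Vale.Agent.P073.H190.specShear (2 / c) ((M + 8) * ρ) b
      (by rw [le_div_iff₀ hc]; linarith) hb hb2 (by positivity) (by linarith) T T' k1 k2
    refine ⟨S, s1, s3, fun x hx y hy => ?_, fun j hj hjt => ?_⟩
    · have := s4 x hx y hy
      have e1 : (8:ℝ) * (2 / c) = 16 / c := by ring
      rwa [e1] at this
    · obtain ⟨y1, y2⟩ := hY j hj hjt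
      have g1 := H.mem hm2 hc hj (X.typ j)
      have g2 := H.mem hm2 hc hj (!X.typ j)
      refine ⟨by show 0 < X.lo j (X.typ j); linarith, g1.2.1,
        by show X.hi j (X.typ j) < 1; linarith, by show 0 < X.lo j (!X.typ j); linarith, g2.2.1,
        by show X.hi j (!X.typ j) < 1; linarith, by show 0 < X.Yp m j; linarith,
        by show X.Yp m j + X.wd m (X.typ j) < 1; linarith, ?_, ?_⟩
      · intro t ht
        have ht' : t ∈ Icc (X.lo j (X.typ j)) (X.hi j (X.typ j)) := ht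
        have ht01 : t ∈ Icc (0:ℝ) 1 := ⟨by linarith [ht'.1], by linarith [ht'.2]⟩
        show crd (X.typ j) (S.toFun (ed (if X.typ j then 3 else 0) t)) =
          X.Yp m j + X.wd m (X.typ j) *
            ((t - X.lo j (X.typ j)) / (X.hi j (X.typ j) - X.lo j (X.typ j)))
        rcases hty : X.typ j with _ | _
        · rw [hty] at ht'
          simp only [Bool.false_eq_true, if_false]
          rw [s2 0 t ht01]
          exact k3 0 j hj hjt hty t ht'
        · rw [hty] at ht'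
          simp only [if_true]
          rw [s2 3 t ht01]
          exact k3 3 j hj hjt hty t ht'
      · intro t ht
        have ht' : t ∈ Icc (X.lo j (!X.typ j)) (X.hi j (!X.typ j)) := ht
        have ht01 : t ∈ Icc (0:ℝ) 1 := ⟨by linarith [ht'.1], by linarith [ht'.2]⟩
        show crd (X.typ j) (S.toFun (ed (if X.typ j then 1 else 2) t)) =
          X.Yp m j + X.wd m (X.typ j) *
            ((t - X.lo j (!X.typ j)) / (X.hi j (!X.typ j) - X.lo j (!X.typ j)))
        rcases hty : X.typ j with _ | _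
        · rw [hty] at ht'
          simp only [Bool.false_eq_true, if_false]
          rw [s2 2 t ht01]
          exact k3 2 j hj hjt hty t ht'
        · rw [hty] at ht'
          simp only [if_true]
          rw [s2 1 t ht01]
          exact k3 1 j hj hjt hty t ht'

end P073.H194
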