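import Vale.Agent.P073.H194.MeshPre3

/-!
# P073, block A16, [R2-MESH]: the mesh for the producers of rank two and one (no good cells)
-/

namespace Vale.Agent.P073.H194

open MeasureTheory Set Filter Topology Metric Vale.Agent.P073.St
open Vale.Agent.P073.SQ (ev)
open Vale.Agent.P073.AB Vale.Agent.P073.AB.P86
open P073.Net (dyc dyo)
open Vale.Agent.P073.H471 (Cubes wgt wt)
open Vale.Agent.P073.H83 (Bw GenB isCompact_squ sInt_le_mul)
open Vale.Agent.P073.H193 (refine_cases)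
open scoped ENNReal

section

variable {ι : Type*} {p : ℝ} {Ω Λ : Set V} {v : V} {nn : ℕ → ℕ} {I P B : Set Idx} {f : V → V}
  {G : V → ℝ≥0∞} {z c : ι → V} {σ : ι → ℝ} {tB : Idx → ℕ}

/-- Riemann sums on the squares off the big cells -/
theorem MeshData.square (D : MeshData p Λ v nn I P f G c) (hp : 0 ≤ p) (hnn : StrictMono nn)
    (W : Cubes Λ z σ) (hB : IsBig v nn I P f c tB B) {q : Idx} (hq : q ∈ I \ P)
    {s : Idx × Fin 3} (hsq : squ v s ⊆ dyc v q.1 q.2)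
    (hsb : ∀ x ∈ squ v s, ∀ b ∈ B, x ∉ dyo v b.1 b.2) :
    sInt v s (wH p z σ c f G) ≠ ⊤ ∧ ∀ k, k ≠ s.2 → ∀ δ : ℝ≥0∞, δ ≠ 0 → ∀ᶠ l in atTop,
      fSum v s (nn l) k (wH p z σ c f G) ≤ sInt v s (wH p z σ c f G) + δ := by
  set H := wH p z σ c f G with hH
  have hne : ∀ x ∈ squ v s, ∀ i, f x ≠ c i := by
    intro x hx i hi
    obtain ⟨b, hb, h1, -⟩ := hB.cen q hq x ⟨hsq hx, i, hi⟩
    exact hsb x hx b hb h1
  obtain ⟨G', hG1, hG2, hG3, hG4⟩ := D.gen q hq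
  have hu : UpperSemicontinuousOn (fun x => wgt z σ c (f x) ^ p) (squ v s) :=
    wgt_usc W hp (D.cont q hq) hsq (fun x hx => D.maps q hq (hsq hx)) hne
  obtain ⟨C, hCt, hC⟩ := exists_bound hp W (D.cont q hq) (D.maps q hq) (isCompact_squ v s) hsq hne
  have hHs : ∀ x ∈ squ v s, H x = (squ v s).indicator (fun x => wgt z σ c (f x) ^ p) x * G' x := by
    intro x hx
    rw [indicator_of_mem hx, ← hG4 x (hsq hx)]
    rfl
  constructor
  · have h1 : sInt v s H ≤ C * sInt v s G' := by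
      refine le_trans (sInt_mono (A' := fun x => C * G' x) fun x hx => ?_)
        (sInt_le_mul hCt fun _ _ => le_rfl)
      rw [hHs x hx, indicator_of_mem hx]
      exact mul_le_mul' (hC x hx) le_rfl
    exact ne_top_of_le_ne_top (ENNReal.mul_ne_top hCt (hG2.sfin s)) h1
  · intro k hk δ hδ
    have h1 := usc_square hnn hG1 hG2 (s := s) (isCompact_squ v s).isClosed hu hCt hC
      (A := H) (fun x hx => (hHs x hx).le) hk hδ
    rwa [← sInt_congr hHs] at h1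

end

/-- the data, without good cells -/
structure FlatIn {ι : Type*} (p : ℝ) (Ω Λ : Set V) (f : V → V) (G : V → ℝ≥0∞) (v : V)
    (nn : ℕ → ℕ) (I : Set Idx) (c : ι → V) : Prop where
  oΩ : IsOpen Ω
  oΛ : IsOpen Λ
  hom : St.IsHomeo Ω Λ f
  mono : StrictMono nn
  meas : Measurable G
  fin : ∫⁻ x, G x ≠ ⊤
  gen : Gen v nn G
  part : Part Ω v I
  good : ∀ i, GoodC p Ω f G v nn ∅ (fun _ => id) (c i)

namespace FlatIn

variable {ι : Type*} {p : ℝ} {Ω Λ : Set V} {f : V → V} {G : V → ℝ≥0∞} {v : V}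
  {nn : ℕ → ℕ} {I : Set Idx} {c : ι → V}

theorem meshData (D : FlatIn p Ω Λ f G v nn I c) : MeshData p Λ v nn I ∅ f G c where
  cont q hq := by
    obtain ⟨g, -, hfc, -⟩ := D.hom
    exact hfc.mono (D.part.sub q hq.1)
  maps q hq := by
    obtain ⟨g, hg, -, -⟩ := D.hom
    exact fun x hx => (hg.1 x (D.part.sub q hq.1 hx)).1
  inj q hq := by
    obtain ⟨g, hg, -, -⟩ := D.hom
    intro x hx y hy hxy
    rw [← (hg.1 x (D.part.sub q hq.1 hx)).2, hxy, (hg.1 y (D.part.sub q hq.1 hy)).2]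
  gen q hq := ⟨G, D.meas, D.gen, ne_top_of_le_ne_top D.fin (setLIntegral_le_lintegral _ _),
    fun _ _ => rfl⟩
  open_ q hq x hx i hi m := ((D.good i).1 x (D.part.sub q hq.1 hx) hi).1 m
  big q hq x hx i hi δ hδ := ((D.good i).1 x (D.part.sub q hq.1 hx) hi).2 δ hδ

end FlatIn

/-- the refined partition; `H` is the weighted density; `K` is the group with one generation -/
structure FlatOut {ι : Type*} (p δ : ℝ) (Ω Λ : Set V) (f : V → V) (G : V → ℝ≥0∞) (v : V)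
    (I : Set Idx) (z : ι → V) (σ : ι → ℝ) (c : ι → V) (e : Idx → ℝ≥0∞) (τ : Idx → ℝ)
    (K : Set Idx) (S : Finset ((Idx × Fin 3) × Fin 3)) (δ₁ : ℝ≥0∞)
    (B : Set Idx) (nf : Idx → ℕ) (nS : ℕ) : Prop where
  big : Big v I ∅ B nf
  /-- the fine cells are smaller than the big cells -/
  lt : ∀ b ∈ B, ∀ q ∈ I, dyc v b.1 b.2 ⊆ dyc v q.1 q.2 → b.1 < nf q
  part : Part Ω v (refine v I ∅ B nf)
  group : ∀ q ∈ K, nf q = nS
  /-- the cells which touch a cube of `K` at a point which is in no open cube of `I` and in no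
  cube of `I` outside of `K` have generation `nS` -/
  touch : ∀ x, (∀ q ∈ I, x ∈ dyc v q.1 q.2 → q ∈ K ∧ x ∉ dyo v q.1 q.2) →
    ∀ i ∈ refine v I ∅ B nf, x ∈ dyc v i.1 i.2 → i.1 = nS
  /-- the minimal squares are small -/
  gen : ∀ F, MinSq v (refine v I ∅ B nf) F → ∀ q ∈ I, squ v F ⊆ dyc v q.1 q.2 → nf q ≤ F.1.1
  /-- the images of the minimal squares are small -/
  faces : ∀ F, MinSq v (refine v I ∅ B nf) F → ∀ q ∈ I, squ v F ⊆ dyc v q.1 q.2 →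
    ∀ g : V → V, (∀ x ∈ squ v F, ‖g x - f x‖ ≤ τ q) →
      (∀ x ∈ squ v F, g x ∈ Λ) ∧
      (∀ x ∈ squ v F, ∀ i, g x ∈ closedBall (z i) (σ i) → g x ≠ c i ∧
        ∀ y ∈ squ v F, ‖g x - g y‖ ≤ δ * ‖g x - c i‖) ∧
      ∃ w : ℝ, 1 ≤ w ∧ (∀ x ∈ squ v F, ∀ i, g x ∈ closedBall (z i) (σ i) →
          2 * σ i ≤ w * ‖g x - c i‖) ∧
        ∀ x ∈ squ v F, ENNReal.ofReal w ≤ 2178 * wgt z σ c (f x)
  /-- every minimal square is in a cube of `I` -/
  inq : ∀ F, MinSq v (refine v I ∅ B nf) F → ∃ q ∈ I, squ v F ⊆ dyc v q.1 q.2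
  /-- the weights are finite on the minimal squares -/
  wfin : ∀ F, MinSq v (refine v I ∅ B nf) F → ∀ x ∈ squ v F, wgt z σ c (f x) ≠ ⊤
  /-- the sums, for each cube -/
  sum : ∀ q ∈ I, ∑' i : {i : Idx // i ∈ refine v I ∅ B nf ∧ dyc v i.1 i.2 ⊆ dyc v q.1 q.2},
      cellT v (refine v I ∅ B nf) univ (wH p z σ c f G) i.1 ≤
    36 * (∫⁻ x in dyc v q.1 q.2, wH p z σ c f G x) + e q
  /-- the sums on the given squares -/
  surf : ∀ s ∈ S, sInt v s.1 (wH p z σ c f G) ≠ ⊤ ∧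
    fSum v s.1 nS s.2 (wH p z σ c f G) ≤ sInt v s.1 (wH p z σ c f G) + δ₁

/-- **[R2-MESH]** -/
theorem mesh_flat {ι : Type*} {p : ℝ} {Ω Λ : Set V} {f : V → V} {G : V → ℝ≥0∞} {v : V}
    {nn : ℕ → ℕ} {I : Set Idx} {z c : ι → V} {σ : ι → ℝ}
    (D : FlatIn p Ω Λ f G v nn I c) (hp : 0 ≤ p) (W : Cubes Λ z σ)
    (hc : ∀ i, ‖c i - z i‖ ≤ σ i / 2) {δ : ℝ} (hδ : 0 < δ) {e : Idx → ℝ≥0∞} (he : ∀ q, e q ≠ 0)
    {K : Set Idx} (hK : K.Finite) (hKI : K ⊆ I) {S : Finset ((Idx × Fin 3) × Fin 3)}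
    (hS : ∀ s ∈ S, s.2 ≠ s.1.2 ∧ ∃ q ∈ K, squ v s.1 ⊆ dyc v q.1 q.2 ∧
      ∀ q ∈ I, Disjoint (squ v s.1) (dyo v q.1 q.2)) {δ₁ : ℝ≥0∞} (hδ₁ : δ₁ ≠ 0) :
    ∃ (B : Set Idx) (τ : Idx → ℝ), (∀ q, 0 < τ q) ∧ ∀ (th : Idx → ℕ) (N₁ : ℕ),
      ∃ (nf : Idx → ℕ) (nS : ℕ), N₁ ≤ nS ∧ (∀ q ∈ I, th q ≤ nf q ∧ nf q ∈ range nn) ∧
        FlatOut p δ Ω Λ f G v I z σ c e τ K S δ₁ B nf nS := by
  classical
  have hM := D.meshData
  have hIe : ∀ q, q ∈ I \ ∅ ↔ q ∈ I := fun q => by simp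
  set gr : Idx → Option Idx := fun q => if q ∈ K then none else some q with hgr
  have hgrf : ∀ a, {q | q ∈ I \ ∅ ∧ gr q = a}.Finite := by
    rintro (_ | q₀)
    · refine hK.subset ?_
      rintro q ⟨hq, h⟩
      by_contra hcon
      rw [hgr] at h
      simp only [hcon, if_false, reduceCtorEq] at h
    · refine (Set.finite_singleton q₀).subset ?_
      rintro q ⟨hq, h⟩
      by_cases hcon : q ∈ K
      · rw [hgr] at h
        simp only [hcon, if_true, reduceCtorEq] at h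
      · rw [hgr] at h
        simp only [hcon, if_false, Option.some.injEq] at h
        exact h
  obtain ⟨B, hB, hmain⟩ := mesh_app hM hp D.oΩ D.part (empty_subset I) D.mono W hc he
    (fun _ => 0) gr hgrf
  obtain ⟨thF, τ, hτ, hF⟩ := hM.faces D.oΩ D.oΛ D.part W hc hB hδ
  have hBq : ∀ b ∈ B, ∃ q ∈ I, dyc v b.1 b.2 ⊆ dyo v q.1 q.2 := fun b hb => by
    obtain ⟨q, hq, h, -⟩ := hB.cell b hb
    exact ⟨q, hq.1, h⟩
  -- the squares
  have hsq : ∀ s ∈ S, sInt v s.1 (wH p z σ c f G) ≠ ⊤ ∧ ∀ᶠ l in atTop,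
      fSum v s.1 (nn l) s.2 (wH p z σ c f G) ≤ sInt v s.1 (wH p z σ c f G) + δ₁ := by
    intro s hs
    obtain ⟨h1, q, hq, h2, h3⟩ := hS s hs
    have h4 := hM.square hp D.mono W hB ((hIe q).2 (hKI hq)) h2 fun x hx b hb hxb => by
      obtain ⟨q', hq', h5⟩ := hBq b hb
      exact Set.disjoint_left.1 (h3 q' hq') hx (h5 (dyo_sub_dyc hxb))
    exact ⟨h4.1, h4.2 s.2 h1 δ₁ hδ₁⟩
  obtain ⟨l₀, hl₀⟩ := eventually_atTop.1
    ((eventually_all_finset S).2 fun s hs => (hsq s hs).2)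
  refine ⟨B, τ, hτ, fun th N₁ => ?_⟩
  have hlt : ∀ q ∈ I, ∃ t : ℕ, ∀ b ∈ B, dyc v b.1 b.2 ⊆ dyc v q.1 q.2 → b.1 < t := by
    intro q hq
    refine ⟨(hB.fin q ((hIe q).2 hq)).toFinset.sup (fun b => b.1) + 1, fun b hb hbq => ?_⟩
    have := Finset.le_sup (f := fun b : Idx => b.1)
      ((Finite.mem_toFinset (hB.fin q ((hIe q).2 hq))).2 ⟨hb, hbq⟩)
    exact Nat.lt_succ_of_le this
  choose! tL htL using hlt
  obtain ⟨nf, hBig, hn, hng, hsum, -⟩ := hmain fun q =>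
    max (max (max (th q) (tL q)) (thF q)) (max (nn l₀) N₁)
  have hn1 : ∀ q ∈ I, th q ≤ nf q := fun q hq =>
    (((le_max_left _ _).trans (le_max_left _ _)).trans (le_max_left _ _)).trans
      (hn q ((hIe q).2 hq)).1
  have hn4 : ∀ q ∈ I, tL q ≤ nf q := fun q hq =>
    (((le_max_right _ _).trans (le_max_left _ _)).trans (le_max_left _ _)).trans
      (hn q ((hIe q).2 hq)).1
  have hn2 : ∀ q ∈ I \ ∅, thF q ≤ nf q := fun q hq =>
    ((le_max_right _ _).trans (le_max_left _ _)).trans (hn q hq).1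
  have hn3 : ∀ q ∈ I, max (nn l₀) N₁ ≤ nf q := fun q hq =>
    (le_max_right _ _).trans (hn q ((hIe q).2 hq)).1
  obtain ⟨nS, l, hnS, hlS, hl, hKS⟩ : ∃ nS l, N₁ ≤ nS ∧ nn l = nS ∧ l₀ ≤ l ∧
      ∀ q ∈ K, nf q = nS := by
    by_cases hne : K.Nonempty
    · obtain ⟨q₀, hq₀⟩ := hne
      obtain ⟨l, hl⟩ := (hn q₀ ((hIe q₀).2 (hKI hq₀))).2
      have h5 := hn3 q₀ (hKI hq₀)
      refine ⟨nf q₀, l, (le_max_right _ _).trans h5, hl, ?_, fun q hq =>
        hng q ((hIe q).2 (hKI hq)) q₀ ((hIe q₀).2 (hKI hq₀)) ?_⟩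
      · have h6 : nn l₀ ≤ nn l := hl ▸ (le_max_left _ _).trans h5
        exact D.mono.le_iff_le.1 h6
      · rw [hgr]
        simp only [hq, hq₀, if_true]
    · rw [not_nonempty_iff_eq_empty] at hne
      obtain ⟨l, hl⟩ := (D.mono.tendsto_atTop.eventually_ge_atTop N₁).exists
      refine ⟨nn (max l l₀), max l l₀, hl.trans (D.mono.monotone (le_max_left _ _)), rfl,
        le_max_right _ _, fun q hq => ?_⟩
      rw [hne] at hq
      exact absurd hq (notMem_empty q)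
  have hPart := _root_.Vale.Agent.P073.H193.specRefine Ω v I ∅ B nf D.oΩ D.part hBig
  refine ⟨nf, nS, hnS, fun q hq => ⟨hn1 q hq, (hn q ((hIe q).2 hq)).2⟩, hBig,
    fun b hb q hq hbq => (htL q hq b hb hbq).trans_le (hn4 q hq), hPart, hKS, ?_,
    fun F hF' q hq hFq => gen_ge D.oΩ D.part hBig hF' ((hIe q).2 hq) hFq,
    fun F hF' q hq hFq g hg => hF nf hBig hn2 F hF' q ((hIe q).2 hq) hFq g hg, ?_, ?_, ?_, ?_⟩
  · -- touch
    intro x hx i hi hxi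
    rcases hi with (h | h) | ⟨q, hq, h1, h2, -⟩
    · exact absurd h (notMem_empty i)
    · obtain ⟨q, hq, h1⟩ := hBq i h
      exact absurd (h1 hxi) (hx q hq (dyo_sub_dyc (h1 hxi))).2
    · rw [h1]
      exact hKS q (hx q hq.1 (h2 hxi)).1
  · -- every minimal square is in a cube
    intro F hF'
    obtain ⟨i, hi, h1⟩ := hF'.1
    obtain ⟨q, hq, h2⟩ := refine_sub hBig hi
    exact ⟨q, hq, (face_sub h1).trans h2⟩
  · -- finite weights
    intro F hF' x hx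
    obtain ⟨i, hi, h1⟩ := hF'.1
    obtain ⟨q, hq, h2⟩ := refine_sub hBig hi
    have hxq := h2 (face_sub h1 hx)
    refine wgt_ne_top W (hM.maps q ((hIe q).2 hq) hxq) fun j hj => ?_
    obtain ⟨b, hb, h3, -⟩ := hB.cen q ((hIe q).2 hq) x ⟨hxq, j, hj⟩
    exact Set.disjoint_left.1 (minSq_off D.oΩ D.part hBig hF' hb) hx h3
  · -- sum
    intro q hq
    refine le_trans (le_of_eq ?_) (hsum q ((hIe q).2 hq))
    refine (Equiv.subtypeEquivRight fun i => ?_).tsum_eq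
      (fun i : {i : Idx // i ∈ refine v I ∅ B nf ∧ i ∉ (∅ : Set Idx) ∧
        dyc v i.1 i.2 ⊆ dyc v q.1 q.2} =>
          cellT v (refine v I ∅ B nf) univ (wH p z σ c f G) i.1)
    simp
  · -- surf
    intro s hs
    refine ⟨(hsq s hs).1, ?_⟩
    rw [← hlS]
    exact hl₀ l hl s hs

end Vale.Agent.P073.H194
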