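import Vale.Agent.P073.H194.Flat2
import Vale.Agent.P073.H333.EdgeT
import Vale.Agent.P073.H687.MinSum
import Vale.Agent.P073.H687.MinSqEdge
import Vale.Agent.P073.H687.LenSeg
import Vale.Agent.P073.AB.Sum308b

/-!
# P073, block A16, [R2-MESH]: weighted lengths of the minimal edges and their sums
-/

namespace Vale.Agent.P073.H194

open MeasureTheory Set Filter Topology Metric Vale.Agent.P073.St
open Vale.Agent.P073.SQ (ev)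
open Vale.Agent.P073.AB Vale.Agent.P073.AB.P86
open _root_.P073 (ConHomeo)
open _root_.P073.Net (dyc dyo IsTile SizeFn len)
open Vale.Agent.P073.H471 (Cubes wgt zt st TI cB_eq cubes_tiles)
open Vale.Agent.P073.H73 (MinEdge WLe segP onSeg)
open Vale.Agent.P073.H333 (tw eInt_const_mul eInt_mono_on)
open Vale.Agent.P073.H235 (eSum)
open scoped ENNReal

/-- the energy density for the mesh -/
noncomputable def Gd (p : ℝ) (A : V → ℝ≥0∞) (β : ℝ≥0∞) : V → ℝ≥0∞ := fun x => A x ^ p + β ^ p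

/-- powers of the weighted density -/
theorem wd_rpow {p : ℝ} (hp : 1 ≤ p) (K w a β : ℝ≥0∞) :
    (K * (w * (a + β))) ^ p ≤ K ^ p * 2 ^ (p - 1) * (w ^ p * (a ^ p + β ^ p)) := by
  have hp0 : 0 ≤ p := by linarith
  rw [ENNReal.mul_rpow_of_nonneg _ _ hp0, ENNReal.mul_rpow_of_nonneg _ _ hp0]
  calc K ^ p * (w ^ p * (a + β) ^ p)
      ≤ K ^ p * (w ^ p * (2 ^ (p - 1) * (a ^ p + β ^ p))) := by
        gcongr
        exact ENNReal.rpow_add_le_mul_rpow_add_rpow _ _ hp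
    _ = _ := by ring

/-- sum over a finite set of squares of generation `N` in a square -/
theorem sum_pos (v : V) (H : V → ℝ≥0∞) (s : Idx × Fin 3) {N : ℕ} (hN : s.1.1 ≤ N)
    (T : Finset (Fin 3 → ℤ)) (hT : ∀ k ∈ T, squ v ((N, k), s.2) ⊆ squ v s) :
    ∑ k ∈ T, ∑' e : {e : Idx × Fin 3 // EdgeOfSq e ((N, k), s.2)},
      ENNReal.ofReal (1 / 2 ^ N) * eInt v e.1 H ≤
    2 * ∑ j ∈ Finset.univ.erase s.2, fSum v s N j H := by
  refine le_trans ?_ (sum_square v H s hN)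
  set φ : (Fin 3 → ℤ) → Idx × Fin 3 := fun k => ((N, k), s.2) with hφ
  have hinj : Function.Injective φ := fun k k' h => by
    have h1 := congrArg (fun F : Idx × Fin 3 => F.1.2) h
    exact h1
  have e1 : ∀ k ∈ T, ∑' e : {e : Idx × Fin 3 // EdgeOfSq e ((N, k), s.2)},
      ENNReal.ofReal (1 / 2 ^ N) * eInt v e.1 H = ENNReal.ofReal (1 / 2 ^ N) * aSum v H (φ k) :=
    fun k _ => ENNReal.tsum_mul_left
  rw [Finset.sum_congr rfl e1]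
  have e2 : ∑ k ∈ T, ENNReal.ofReal (1 / 2 ^ N) * aSum v H (φ k) =
      ∑' F : ((T.map ⟨φ, hinj⟩ : Finset (Idx × Fin 3)) : Set (Idx × Fin 3)),
        ENNReal.ofReal (1 / 2 ^ N) * aSum v H F.1 := by
    rw [Finset.tsum_subtype' (T.map ⟨φ, hinj⟩) fun F => ENNReal.ofReal (1 / 2 ^ N) * aSum v H F,
      Finset.sum_map]
    rfl
  rw [e2]
  refine ENNReal.tsum_mono_subtype (fun F => ENNReal.ofReal (1 / 2 ^ N) * aSum v H F) ?_
  intro F hF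
  obtain ⟨k, hk, rfl⟩ := Finset.mem_map.1 (Finset.mem_coe.1 hF)
  exact ⟨rfl, rfl, hT k hk⟩

/-- sums over cells, by cubes -/
theorem tsum_cells_le {J I : Set Idx} {v : V} (hJ : ∀ i ∈ J, ∃ q ∈ I, dyc v i.1 i.2 ⊆ dyc v q.1 q.2)
    (X : Set V) (g : Idx → ℝ≥0∞) :
    ∑' i : {i : Idx // i ∈ J ∧ (dyc v i.1 i.2 ∩ X).Nonempty}, g i.1 ≤
      ∑' q : {q : Idx // q ∈ I ∧ (dyc v q.1 q.2 ∩ X).Nonempty},
        ∑' i : {i : Idx // i ∈ J ∧ dyc v i.1 i.2 ⊆ dyc v q.1.1 q.1.2}, g i.1 := by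
  choose! φ hφI hφ using hJ
  have h1 := ENNReal.tsum_sigma
    (β := fun q : {q : Idx // q ∈ I ∧ (dyc v q.1 q.2 ∩ X).Nonempty} =>
      {i : Idx // i ∈ J ∧ dyc v i.1 i.2 ⊆ dyc v q.1.1 q.1.2}) (fun _ i => g i.1)
  rw [← h1]
  let ψ : {i : Idx // i ∈ J ∧ (dyc v i.1 i.2 ∩ X).Nonempty} →
      (q : {q : Idx // q ∈ I ∧ (dyc v q.1 q.2 ∩ X).Nonempty}) ×
        {i : Idx // i ∈ J ∧ dyc v i.1 i.2 ⊆ dyc v q.1.1 q.1.2} := fun i =>
    ⟨⟨φ i.1, hφI _ i.2.1, i.2.2.mono (inter_subset_inter_left _ (hφ _ i.2.1))⟩,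
      ⟨i.1, i.2.1, hφ _ i.2.1⟩⟩
  have hψ : Function.Injective ψ := by
    intro i i' h
    have h2 := congrArg (fun a : (q : {q : Idx // q ∈ I ∧ (dyc v q.1 q.2 ∩ X).Nonempty}) ×
        {i : Idx // i ∈ J ∧ dyc v i.1 i.2 ⊆ dyc v q.1.1 q.1.2} => a.2.1) h
    exact Subtype.ext h2
  exact ENNReal.tsum_comp_le_tsum_of_injective hψ
    (fun a : (q : {q : Idx // q ∈ I ∧ (dyc v q.1 q.2 ∩ X).Nonempty}) ×
        {i : Idx // i ∈ J ∧ dyc v i.1 i.2 ⊆ dyc v q.1.1 q.1.2} => g a.2.1)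

namespace FlatOut

variable {ι : Type*} {p δ : ℝ} {Ω Λ : Set V} {f : V → V} {G : V → ℝ≥0∞} {v : V}
  {I : Set Idx} {z c : ι → V} {σ : ι → ℝ} {e : Idx → ℝ≥0∞} {τ : Idx → ℝ} {m : ℕ}
  {K : Set Idx} {S : Finset ((Idx × Fin 3) × Fin 3)} {δ₁ : ℝ≥0∞} {B : Set Idx}
  {nf : Idx → ℕ} {nS : ℕ}

/-- the sum over the cells in a cube -/
theorem cells_le (H : FlatOut p δ Ω Λ f G v I z σ c e τ K S δ₁ B nf nS) (hp : 1 ≤ p)
    (hΩ : IsOpen Ω) {ℓ : Idx × Fin 3 → ℝ≥0∞} {g : V → ℝ≥0∞} {C : ℝ≥0∞}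
    (hC : C ≠ ⊤)
    (hℓ : ∀ e', MinEdge v (refine v I ∅ B nf) e' → ℓ e' ≤ eInt v e' g)
    (hg : ∀ x ∈ Ω, g x ^ p ≤ C * wH p z σ c f G x) {q : Idx} (hq : q ∈ I) :
    ∑' i : {i : Idx // i ∈ refine v I ∅ B nf ∧ dyc v i.1 i.2 ⊆ dyc v q.1 q.2},
      ∑' s : {s : Idx × Fin 3 // MinSq v (refine v I ∅ B nf) s ∧ squ v s ⊆ dyc v i.1.1 i.1.2},
        ∑' e : {e : Idx × Fin 3 // MinEdge v (refine v I ∅ B nf) e ∧ edge v e ⊆ squ v s.1},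
          ENNReal.ofReal (1 / 2 ^ i.1.1 * (1 / 2 ^ s.1.1.1)) *
            (ENNReal.ofReal ((1 / 2 ^ e.1.1.1) ^ (1 - p)) * ℓ e.1 ^ p) ≤
    C * (36 * (∫⁻ x in dyc v q.1 q.2, wH p z σ c f G x) + e q) := by
  set J := refine v I ∅ B nf with hJ
  have h1 : ∀ i : {i : Idx // i ∈ J ∧ dyc v i.1 i.2 ⊆ dyc v q.1 q.2},
      ∑' s : {s : Idx × Fin 3 // MinSq v J s ∧ squ v s ⊆ dyc v i.1.1 i.1.2},
        ∑' e : {e : Idx × Fin 3 // MinEdge v J e ∧ edge v e ⊆ squ v s.1},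
          ENNReal.ofReal (1 / 2 ^ i.1.1 * (1 / 2 ^ s.1.1.1)) *
            (ENNReal.ofReal ((1 / 2 ^ e.1.1.1) ^ (1 - p)) * ℓ e.1 ^ p) ≤
      C * cellT v J univ (wH p z σ c f G) i.1 := by
    intro i
    refine (H687.cell_sum_le hp hΩ H.part i.1 g ℓ fun s _ _ e he _ => hℓ e he).trans ?_
    unfold cellT
    rw [← ENNReal.tsum_mul_left]
    refine ENNReal.tsum_le_tsum fun F => ?_
    rw [← ENNReal.tsum_mul_left]
    refine ENNReal.tsum_le_tsum fun e => ?_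
    have h2 : edge v e.1 ⊆ Ω := by
      refine (S308.edge_sub_squ e.2).trans (F.2.2.1.trans ?_)
      exact H.part.sub _ i.2.1
    calc ENNReal.ofReal (1 / 2 ^ i.1.1 * (1 / 2 ^ F.1.1.1)) * eInt v e.1 (fun x => g x ^ p)
        ≤ ENNReal.ofReal (1 / 2 ^ i.1.1 * (1 / 2 ^ F.1.1.1)) *
          (C * eInt v e.1 (wH p z σ c f G)) := by
          gcongr
          rw [← eInt_const_mul v e.1 hC]
          exact eInt_mono_on fun x hx => hg x (h2 hx)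
      _ = _ := by ring
  refine (ENNReal.tsum_le_tsum h1).trans ?_
  rw [ENNReal.tsum_mul_left]
  gcongr
  exact H.sum q hq

/-- **the sums** over the cells which meet `X` -/
theorem eSum_le (H : FlatOut p δ Ω Λ f G v I z σ c e τ K S δ₁ B nf nS) (hp : 1 ≤ p)
    (hΩ : IsOpen Ω) (hI : Part Ω v I) {ℓ : Idx × Fin 3 → ℝ≥0∞} {g : V → ℝ≥0∞} {C : ℝ≥0∞}
    (hC : C ≠ ⊤)
    (hℓ : ∀ e', MinEdge v (refine v I ∅ B nf) e' → ℓ e' ≤ eInt v e' g)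
    (hg : ∀ x ∈ Ω, g x ^ p ≤ C * wH p z σ c f G x) (X : Set V) :
    eSum p v (refine v I ∅ B nf) ℓ X ≤
      C * (36 * (∫⁻ x in ⋃ q ∈ {q : Idx | q ∈ I ∧ (dyc v q.1 q.2 ∩ X).Nonempty}, dyc v q.1 q.2,
        wH p z σ c f G x) + ∑' q, e q) := by
  unfold eSum
  have h1 := tsum_cells_le (v := v) (J := refine v I ∅ B nf) (I := I)
    (fun i hi => refine_sub H.big hi) X fun i =>
      ∑' s : {s : Idx × Fin 3 // MinSq v (refine v I ∅ B nf) s ∧ squ v s ⊆ dyc v i.1 i.2},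
        ∑' e : {e : Idx × Fin 3 // MinEdge v (refine v I ∅ B nf) e ∧ edge v e ⊆ squ v s.1},
          ENNReal.ofReal (1 / 2 ^ i.1 * (1 / 2 ^ s.1.1.1)) *
            (ENNReal.ofReal ((1 / 2 ^ e.1.1.1) ^ (1 - p)) * ℓ e.1 ^ p)
  refine h1.trans ?_
  refine (ENNReal.tsum_le_tsum fun q : {q : Idx // q ∈ I ∧ (dyc v q.1 q.2 ∩ X).Nonempty} =>
    H.cells_le hp hΩ hC hℓ hg q.2.1).trans ?_
  rw [ENNReal.tsum_mul_left, ENNReal.tsum_add, ENNReal.tsum_mul_left]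
  gcongr
  · exact tsum_lintegral_le (S := {q : Idx | q ∈ I ∧ (dyc v q.1 q.2 ∩ X).Nonempty}) hI
      (fun q hq => hq.1) _
  · exact ENNReal.tsum_comp_le_tsum_of_injective Subtype.val_injective e

/-- **the mid plane**: squares of generation `nS` in a square of the list -/
theorem surf_le (H : FlatOut p δ Ω Λ f G v I z σ c e τ K S δ₁ B nf nS) (hp : 1 ≤ p)
    {ℓ : Idx × Fin 3 → ℝ≥0∞} {g : V → ℝ≥0∞} {C : ℝ≥0∞} (hC : C ≠ ⊤)
    {s : Idx × Fin 3} (hs : ∀ j, j ≠ s.2 → (s, j) ∈ S) (hm : s.1.1 ≤ nS)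
    {T : Finset (Fin 3 → ℤ)} (hT : ∀ k ∈ T, squ v ((nS, k), s.2) ⊆ squ v s)
    (hℓ : ∀ k ∈ T, ∀ e', EdgeOfSq e' ((nS, k), s.2) → ℓ e' ≤ eInt v e' g)
    (hg : ∀ x ∈ squ v s, g x ^ p ≤ C * wH p z σ c f G x) :
    ∑ k ∈ T, ∑' e : {e : Idx × Fin 3 // EdgeOfSq e ((nS, k), s.2)},
      ENNReal.ofReal (1 / 2 ^ nS) * (ENNReal.ofReal ((1 / 2 ^ nS) ^ (1 - p)) * ℓ e.1 ^ p) ≤
    4 * C * (sInt v s (wH p z σ c f G) + δ₁) := by
  have h1 : ∀ k ∈ T, ∑' e : {e : Idx × Fin 3 // EdgeOfSq e ((nS, k), s.2)},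
      ENNReal.ofReal (1 / 2 ^ nS) * (ENNReal.ofReal ((1 / 2 ^ nS) ^ (1 - p)) * ℓ e.1 ^ p) ≤
      C * ∑' e : {e : Idx × Fin 3 // EdgeOfSq e ((nS, k), s.2)},
        ENNReal.ofReal (1 / 2 ^ nS) * eInt v e.1 (wH p z σ c f G) := by
    intro k hk
    rw [← ENNReal.tsum_mul_left]
    refine ENNReal.tsum_le_tsum fun e => ?_
    have h2 : e.1.1.1 = nS := e.2.1
    have h3 := H687.term_le hp v e.1 g (hℓ k hk e.1 e.2)
    rw [h2] at h3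
    have h4 : edge v e.1 ⊆ squ v s := (S308.edge_sub_squ e.2).trans (hT k hk)
    calc ENNReal.ofReal (1 / 2 ^ nS) * (ENNReal.ofReal ((1 / 2 ^ nS) ^ (1 - p)) * ℓ e.1 ^ p)
        ≤ ENNReal.ofReal (1 / 2 ^ nS) * eInt v e.1 fun x => g x ^ p := by gcongr
      _ ≤ ENNReal.ofReal (1 / 2 ^ nS) * (C * eInt v e.1 (wH p z σ c f G)) := by
          gcongr
          rw [← eInt_const_mul v e.1 hC]
          exact eInt_mono_on fun x hx => hg x (h4 hx)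
      _ = _ := by ring
  refine (Finset.sum_le_sum h1).trans ?_
  rw [← Finset.mul_sum]
  have h2 := sum_pos v (wH p z σ c f G) s hm T hT
  have h3 : ∑ j ∈ Finset.univ.erase s.2, fSum v s nS j (wH p z σ c f G) ≤
      2 * (sInt v s (wH p z σ c f G) + δ₁) := by
    have h4 : ∀ j ∈ Finset.univ.erase s.2, fSum v s nS j (wH p z σ c f G) ≤
        sInt v s (wH p z σ c f G) + δ₁ := fun j hj =>
      (H.surf (s, j) (hs j (Finset.ne_of_mem_erase hj))).2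
    refine (Finset.sum_le_card_nsmul _ _ _ h4).trans ?_
    have h5 : (Finset.univ.erase s.2 : Finset (Fin 3)).card = 2 := by
      rw [Finset.card_erase_of_mem (Finset.mem_univ _)]; rfl
    rw [h5, nsmul_eq_mul]
    norm_num
  calc C * ∑ k ∈ T, ∑' e : {e : Idx × Fin 3 // EdgeOfSq e ((nS, k), s.2)},
        ENNReal.ofReal (1 / 2 ^ nS) * eInt v e.1 (wH p z σ c f G)
      ≤ C * (2 * (2 * (sInt v s (wH p z σ c f G) + δ₁))) := by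
        gcongr
        exact h2.trans (by gcongr)
    _ = _ := by ring

end FlatOut

/-! ### Tiles as cubes -/

namespace FlatOut

variable {p δ : ℝ} {Ω Λ : Set V} {f : V → V} {G : V → ℝ≥0∞} {v : V}
  {I : Set Idx} {ρ : V → ℝ} {cc : ℕ → (Fin 3 → ℤ) → V} {e : Idx → ℝ≥0∞} {τ : Idx → ℝ}
  {K : Set Idx} {S : Finset ((Idx × Fin 3) × Fin 3)} {δ₁ : ℝ≥0∞} {B : Set Idx}
  {nf : Idx → ℕ} {nS : ℕ}

/-- **(cond)** -/
theorem cond (H : FlatOut p δ Ω Λ f G v I (zt ρ 0) (st ρ 0) (fun i => cc i.1.1 i.1.2) e τ K S δ₁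
    B nf nS) {h : V → V} (hh : ∀ q ∈ I, ∀ x ∈ dyc v q.1 q.2, ‖h x - f x‖ ≤ τ q) :
    ∀ s, MinSq v (refine v I ∅ B nf) s → ∀ x ∈ squ v s, ∀ m z, IsTile ρ 0 m z →
      h x ∈ dyc 0 m z → h x ≠ cc m z ∧ ∀ y ∈ squ v s, ‖h x - h y‖ ≤ δ * ‖h x - cc m z‖ := by
  intro s hs x hx m z ht hxz
  obtain ⟨q, hq, hsq⟩ := H.inq s hs
  obtain ⟨-, h1, -⟩ := H.faces s hs q hq hsq h fun y hy => hh q hq y (hsq hy)
  exact h1 x hx ⟨(m, z), ht⟩ (by rw [cB_eq]; exact hxz)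

/-- the density of the weighted lengths -/
noncomputable def _root_.Vale.Agent.P073.H194.gW (ρ : V → ℝ) (cc : ℕ → (Fin 3 → ℤ) → V)
    (f : V → V) (K₀ : ℝ≥0∞) (A : V → ℝ≥0∞) (β : ℝ≥0∞) : V → ℝ≥0∞ :=
  fun x => 2178 * K₀ * (tw ρ cc (f x) * (A x + β))

/-- **(len)** -/
theorem len_le (H : FlatOut p δ Ω Λ f G v I (zt ρ 0) (st ρ 0) (fun i => cc i.1.1 i.1.2) e τ K S δ₁
    B nf nS) (hΩ : IsOpen Ω) {h : V → V} (hh : ∀ q ∈ I, ∀ x ∈ dyc v q.1 q.2, ‖h x - f x‖ ≤ τ q)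
    {K₀ : ℝ≥0∞} (hK₀ : K₀ ≠ ⊤) {A : V → ℝ≥0∞} {β : ℝ≥0∞}
    (hlen : ∀ e', MinEdge v (refine v I ∅ B nf) e' →
      len (onSeg h (segP v e')) (Icc 0 1) ≤ K₀ * eInt v e' fun x => A x + β) :
    ∀ e', MinEdge v (refine v I ∅ B nf) e' → ∃ W, WLe 0 ρ cc h (segP v e') W ∧
      ENNReal.ofReal W * len (onSeg h (segP v e')) (Icc 0 1) ≤
        eInt v e' (gW ρ cc f K₀ A β) := by
  intro e' he'
  obtain ⟨r, hr, her⟩ := he'.1
  obtain ⟨s, hs, hes, -⟩ := H687.exists_minSq_of_minEdge hΩ H.part he' hr her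
  obtain ⟨q, hq, hsq⟩ := H.inq s hs
  obtain ⟨-, -, w, hw1, hw2, hw3⟩ := H.faces s hs q hq hsq h fun y hy => hh q hq y (hsq hy)
  refine ⟨w, ⟨hw1, fun y hy m z ht hyt => ?_⟩, ?_⟩
  · have h1 := hw2 y (hes hy) ⟨(m, z), ht⟩ (by rw [cB_eq]; exact hyt)
    have h2 : 2 * st ρ 0 (⟨(m, z), ht⟩ : TI ρ 0) = 1 / 2 ^ m := by
      unfold st; ring
    rwa [h2] at h1
  · calc ENNReal.ofReal w * len (onSeg h (segP v e')) (Icc 0 1)
        ≤ ENNReal.ofReal w * (K₀ * eInt v e' fun x => A x + β) := by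
          gcongr
          exact hlen e' he'
      _ = K₀ * (eInt v e' fun x => ENNReal.ofReal w * (A x + β)) := by
          rw [eInt_const_mul v e' ENNReal.ofReal_ne_top]; ring
      _ ≤ K₀ * (eInt v e' fun x => 2178 * (tw ρ cc (f x) * (A x + β))) := by
          gcongr
          refine eInt_mono_on fun x hx => ?_
          rw [← mul_assoc]
          gcongr
          exact hw3 x (hes hx)
      _ = _ := by
          rw [← eInt_const_mul v e' hK₀]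
          congr 1
          funext x
          unfold gW
          ring

/-- the constant in front of the sums -/
noncomputable def _root_.Vale.Agent.P073.H194.cW (p : ℝ) (K₀ : ℝ≥0∞) : ℝ≥0∞ :=
  (2178 * K₀) ^ p * 2 ^ (p - 1)

theorem _root_.Vale.Agent.P073.H194.cW_ne_top {p : ℝ} (hp : 1 ≤ p) {K₀ : ℝ≥0∞} (hK₀ : K₀ ≠ ⊤) :
    cW p K₀ ≠ ⊤ := by
  unfold cW
  refine ENNReal.mul_ne_top (ENNReal.rpow_ne_top_of_nonneg (by linarith)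
    (ENNReal.mul_ne_top (by norm_num) hK₀)) (ENNReal.rpow_ne_top_of_nonneg (by linarith)
    (by norm_num))

theorem _root_.Vale.Agent.P073.H194.gW_rpow {p : ℝ} (hp : 1 ≤ p) {K₀ : ℝ≥0∞} {A : V → ℝ≥0∞}
    {β : ℝ≥0∞} {f : V → V} {G : V → ℝ≥0∞} {ρ : V → ℝ} {cc : ℕ → (Fin 3 → ℤ) → V} {x : V}
    (hG : A x ^ p + β ^ p ≤ G x) :
    gW ρ cc f K₀ A β x ^ p ≤
      cW p K₀ * wH p (zt ρ 0) (st ρ 0) (fun i => cc i.1.1 i.1.2) f G x := by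
  refine (wd_rpow hp _ _ _ _).trans ?_
  unfold cW wH
  gcongr
  exact le_rfl

/-- **the sums** with the weighted lengths -/
theorem eSum_gW (H : FlatOut p δ Ω Λ f G v I (zt ρ 0) (st ρ 0) (fun i => cc i.1.1 i.1.2) e τ K S
    δ₁ B nf nS) (hp : 1 ≤ p) (hΩ : IsOpen Ω) (hI : Part Ω v I) {K₀ : ℝ≥0∞} (hK₀ : K₀ ≠ ⊤)
    {A : V → ℝ≥0∞} {β : ℝ≥0∞} (hG : ∀ x ∈ Ω, A x ^ p + β ^ p ≤ G x) (X : Set V) :
    eSum p v (refine v I ∅ B nf) (fun e' => eInt v e' (gW ρ cc f K₀ A β)) X ≤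
      cW p K₀ * (36 * (∫⁻ x in ⋃ q ∈ {q : Idx | q ∈ I ∧ (dyc v q.1 q.2 ∩ X).Nonempty},
        dyc v q.1 q.2, tw ρ cc (f x) ^ p * G x) + ∑' q, e q) :=
  H.eSum_le hp hΩ hI (cW_ne_top hp hK₀) (fun _ _ => le_rfl) (fun x hx => gW_rpow hp (hG x hx)) X

/-- **the mid plane** with the weighted lengths -/
theorem surf_gW (H : FlatOut p δ Ω Λ f G v I (zt ρ 0) (st ρ 0) (fun i => cc i.1.1 i.1.2) e τ K S
    δ₁ B nf nS) (hp : 1 ≤ p) {K₀ : ℝ≥0∞} (hK₀ : K₀ ≠ ⊤) {A : V → ℝ≥0∞} {β : ℝ≥0∞}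
    {s : Idx × Fin 3} (hG : ∀ x ∈ squ v s, A x ^ p + β ^ p ≤ G x)
    (hs : ∀ j, j ≠ s.2 → (s, j) ∈ S) (hm : s.1.1 ≤ nS)
    {T : Finset (Fin 3 → ℤ)} (hT : ∀ k ∈ T, squ v ((nS, k), s.2) ⊆ squ v s) :
    ∑ k ∈ T, ∑' e : {e : Idx × Fin 3 // EdgeOfSq e ((nS, k), s.2)},
      ENNReal.ofReal (1 / 2 ^ nS) * (ENNReal.ofReal ((1 / 2 ^ nS) ^ (1 - p)) *
        eInt v e.1 (gW ρ cc f K₀ A β) ^ p) ≤
    4 * cW p K₀ * (sInt v s (fun x => tw ρ cc (f x) ^ p * G x) + δ₁) :=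
  H.surf_le hp (ℓ := fun e' => eInt v e' (gW ρ cc f K₀ A β)) (cW_ne_top hp hK₀) hs hm hT
    (fun _ _ _ _ => le_rfl) (fun x hx => gW_rpow hp (hG x hx))

end FlatOut

/-- **(len)**, the length of `h` on an edge -/
theorem len_close {Ω Λ : Set V} {f : V → V} {F : V → Mat} {v : V} {e : Idx × Fin 3}
    (h : ConHomeo Ω Λ) (rat : RatGood v Ω f F) (he : edge v e ⊆ Ω)
    (hfin : eInt v e (fun x => ‖cl (F x)‖ₑ) ≠ ⊤) {b : ℝ} (hb : 0 ≤ b)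
    (h1 : eInt v e (fun x => ENNReal.ofReal ‖lineDeriv ℝ h.toFun x (ev e.2) -
      cl (F x) (ev e.2)‖) ≤ ENNReal.ofReal (b / 2 ^ e.1.1)) :
    len (onSeg h.toFun (segP v e)) (Icc 0 1) ≤
      2 * eInt v e fun x => ‖cl (F x)‖ₑ + ENNReal.ofReal b := by
  refine (H687.len_onSeg_le h he).trans ?_
  gcongr
  have h2 : ∀ x, ENNReal.ofReal ‖cl (F x) (ev e.2)‖ ≤ ‖cl (F x)‖ₑ := by
    intro x
    rw [ofReal_norm]
    have h3 : ‖cl (F x) (ev e.2)‖ ≤ ‖cl (F x)‖ := by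
      have h4 := (cl (F x)).le_opNorm (ev e.2)
      rwa [S293.ev_norm, mul_one] at h4
    exact enorm_le_iff_norm_le.2 h3
  have h3 : eInt v e (fun x => ENNReal.ofReal ‖cl (F x) (ev e.2)‖) ≤
      eInt v e fun x => ‖cl (F x)‖ₑ := eInt_mono_on fun x _ => h2 x
  refine (H333.eInt_line_le rat he (by positivity) (ne_top_of_le_ne_top hfin h3) h1).trans ?_
  rw [S293.eInt_add v e _ _ aemeasurable_const, S293.eInt_const,
    ← ENNReal.ofReal_mul (by positivity)]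
  have e1 : (1 / 2 ^ e.1.1 * b : ℝ) = b / 2 ^ e.1.1 := by ring
  rw [e1]
  gcongr

end Vale.Agent.P073.H194
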