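import Vale.Agent.P073.H194.MeshFinal
import Vale.Agent.P073.H83.GenB
import Vale.Agent.P073.H989.GensB

/-!
# P073, block A03-MESH: the generic origin
-/

namespace Vale.Agent.P073.H194

open MeasureTheory Set Filter Topology Metric Vale.Agent.P073.St
open Vale.Agent.P073.SQ (ev)
open Vale.Agent.P073.AB (Idx Part pt edge eInt squ FaceOf EdgeOf EdgeOfSq MinSq)
open P073.Net (dyc dyo)
open Vale.Agent.P073.H83 (GenB exists_genB)
open Vale.Agent.P073.H989 (cubeY aemeasurable_cubeY tendsto_cubeY cube_of_tendsto)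
open scoped ENNReal

/-- **The generic origin**: for countably many integrable functions `H i`, countably many points
and countably many functionals `Y k` with integrals tending to zero there is a sequence of
generations such that almost every origin in the unit cube is good, along this sequence. -/
theorem exists_gen {ι κ : Type*} [Countable ι] [Countable κ] (H : ι → V → ℝ≥0∞) (X : Set V)
    (Y : κ → ℕ → V → ℝ≥0∞) (hH : ∀ i, Measurable (H i)) (hfin : ∀ i, ∫⁻ x, H i x ≠ ⊤)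
    (hX : X.Countable) (hY : ∀ k n, AEMeasurable (Y k n) (volume.restrict (Icc 0 1)))
    (hY0 : ∀ k, Tendsto (fun n => ∫⁻ v in Icc (0 : V) 1, Y k n v) atTop (𝓝 0)) {M₀ : ℕ → ℕ}
    (hM₀ : StrictMono M₀) :
    ∃ φ : ℕ → ℕ, StrictMono φ ∧ ∀ᵐ v ∂(volume.restrict (Icc (0 : V) 1)),
      (∀ i, Gen v (fun l => M₀ (φ l)) (H i)) ∧
      (∀ i, GenB v (fun l => M₀ (φ l)) (H i)) ∧
      (∀ i, ∀ x ∈ X, GenPt v (fun l => M₀ (φ l)) (H i) x) ∧
      ∀ k, Tendsto (fun l => Y k (M₀ (φ l)) v) atTop (𝓝 0) := by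
  have hB : volume (Icc (0 : V) 1) ≠ ⊤ := (isCompact_Icc.measure_lt_top).ne
  obtain ⟨φ, hφ, h⟩ := exists_genB H X
    (fun k : κ ⊕ (ι × Idx × Fin 3) => Sum.elim Y (fun a => cubeY (H a.1) a.2.1 a.2.2) k) hH hfin hX
    (by
      rintro (k | ⟨i, q, k⟩) n
      · exact hY k n
      · exact (aemeasurable_cubeY (hH i) q k n).restrict)
    (by
      rintro (k | ⟨i, q, k⟩)
      · exact hY0 k
      · exact tendsto_cubeY (hH i) (hfin i) q k hB) hM₀
  refine ⟨φ, hφ, ?_⟩
  filter_upwards [h] with v hv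
  obtain ⟨h1, h2, h3⟩ := hv
  refine ⟨fun i => ⟨(h1 i).efin, (h1 i).sfin, fun q k δ hδ => ?_, (h1 i).square⟩, h1, h2,
    fun k => h3 (Sum.inl k)⟩
  exact cube_of_tendsto (h3 (Sum.inr (i, q, k))) hδ

/-- **(GEN)** -/
theorem specGen : SpecGen := by
  intro ι κ _ _ H X Y hH hfin hX hY hY0
  obtain ⟨φ, hφ, h⟩ := exists_gen H X Y hH hfin hX hY hY0 strictMono_id
  exact ⟨φ, hφ, h.mono fun v hv => ⟨hv.1, hv.2.2.1, hv.2.2.2⟩⟩

end Vale.Agent.P073.H194
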