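import Vale.Agent.P073.H194.MeshApp

/-!
# P073, block A15-MESH: generic functions times indicators of closed sets
-/

namespace Vale.Agent.P073.H194

open MeasureTheory Set Filter Topology Metric Vale.Agent.P073.St
open Vale.Agent.P073.SQ (ev)
open Vale.Agent.P073.AB Vale.Agent.P073.AB.P86
open P073.Net (dyc dyo)
open Vale.Agent.P073.H83 (Bw eInt_le_mul sInt_le_mul GenB ae_big ext0 idx_mem dyc_sub_of_subs)
open scoped ENNReal

/-- a generic function times a constant, on a closed set -/
theorem Gen.usc {v : V} {nn : ℕ → ℕ} {H : V → ℝ≥0∞} (hnn : StrictMono nn) (hH : Measurable H)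
    (hG : Gen v nn H) (hfin : ∫⁻ x, H x ≠ ⊤) {K : Set V} (hK : IsClosed K) {a : ℝ≥0∞}
    (ha : a ≠ ⊤) : Gen v nn fun x => K.indicator (fun _ => a) x * H x := by
  have hle : ∀ x, K.indicator (fun _ => a) x ≤ a := fun x => indicator_le_self K (fun _ => a) x
  have hW : UpperSemicontinuousOn (fun _ : V => a) K := upperSemicontinuousOn_const
  have hB : ∀ x ∈ K, (fun _ : V => a) x ≤ a := fun _ _ => le_rfl
  refine ⟨fun e => ?_, fun s => ?_, fun q k δ hδ => ?_, fun s k hk δ hδ => ?_⟩
  · have h1 : eInt v e (fun x => K.indicator (fun _ => a) x * H x) ≤ a * eInt v e H := by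
      obtain ⟨⟨n, w⟩, k⟩ := e
      exact eInt_le_mul ha fun t _ => hle _
    exact ne_top_of_le_ne_top (ENNReal.mul_ne_top ha (hG.efin e)) h1
  · have h1 : sInt v s (fun x => K.indicator (fun _ => a) x * H x) ≤ a * sInt v s H :=
      sInt_le_mul ha fun x _ => hle x
    exact ne_top_of_le_ne_top (ENNReal.mul_ne_top ha (hG.sfin s)) h1
  · exact usc_cube hnn hH hG (ne_top_of_le_ne_top hfin (setLIntegral_le_lintegral _ _)) hK hW ha
      hB (fun x _ => le_rfl) k hδ
  · exact usc_square hnn hH hG hK hW ha hB (fun x _ => le_rfl) hk hδ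

end Vale.Agent.P073.H194
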