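import Vale.Agent.P073.H194.Local

/-!
# P073, block A03-MESH: the sums over the cells of the refined partition
-/

namespace Vale.Agent.P073.H194

open MeasureTheory Set Filter Topology Metric Vale.Agent.P073.St
open Vale.Agent.P073.SQ (ev)
open Vale.Agent.P073.AB Vale.Agent.P073.AB.P86
open P073.Net (dyc dyo)
open scoped ENNReal

variable {Ω : Set V} {v : V} {I P B : Set Idx} {n : Idx → ℕ} {H : V → ℝ≥0∞}

/-- the neighbours -/
def Nb (v : V) (I : Set Idx) (q : Idx) : Set Idx :=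
  {r | r ∈ I ∧ (dyc v r.1 r.2 ∩ dyc v q.1 q.2).Nonempty}

theorem finite_Nb (hI : Part Ω v I) {q : Idx} (hq : q ∈ I) : (Nb v I q).Finite :=
  hI.fin _ (hI.sub q hq) (isCompact_dyc _ _ _)

/-- the minimal squares of a cube -/
def Sq (v : V) (I : Set Idx) (q : Idx) : Set (Idx × Fin 3) :=
  {s | MinSq v I s ∧ squ v s ⊆ dyc v q.1 q.2}

theorem finite_Sq (hI : Part Ω v I) {q : Idx} (hq : q ∈ I) : (Sq v I q).Finite :=
  finite_minSq hI hq

/-- weight of a square -/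
noncomputable def gw (v : V) (H : V → ℝ≥0∞) (F : Idx × Fin 3) : ℝ≥0∞ :=
  ENNReal.ofReal (1 / 2 ^ F.1.1) * aSum v H F

theorem cellT_eq (v : V) (I : Set Idx) (A : Set V) (H : V → ℝ≥0∞) (i : Idx) :
    cellT v I A H i = ∑' F : {F : Idx × Fin 3 | MinSq v I F ∧ squ v F ⊆ dyc v i.1 i.2 ∧
      squ v F ⊆ A}, ENNReal.ofReal (1 / 2 ^ i.1) * gw v H F.1 := by
  unfold cellT gw aSum
  refine tsum_congr fun F => ?_
  rw [← mul_assoc, ← ENNReal.ofReal_mul (by positivity), ENNReal.tsum_mul_left]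

theorem gen_of_fine (hI : Part Ω v I) {q : Idx} (hq : q ∈ I \ P) {i : Idx}
    (hi : i ∈ refine v I P B n) (hiP : i ∉ P) (hiB : i ∉ B)
    (hs : dyc v i.1 i.2 ⊆ dyc v q.1 q.2) : i.1 = n q := by
  rcases hi with (hi | hi) | ⟨q', hq', h1, h2, -⟩
  · exact absurd hi hiP
  · exact absurd hi hiB
  · have hc := dyo_sub_dyc (cen_mem v i.1 i.2)
    have hd : cen v i.1 i.2 ∈ dyo v i.1 i.2 := cen_mem v i.1 i.2
    have : q' = q := by
      by_contra hne
      -- the open cube `i` is contained in both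
      have h3 : dyo v i.1 i.2 ⊆ dyo v q'.1 q'.2 := by
        intro x hx k
        have h4 := sub_ineq h2 k
        obtain ⟨h5, h6⟩ := hx k
        constructor <;> linarith [h4.1, h4.2]
      exact Set.disjoint_left.1 (hI.disj q' hq'.1 q hq.1 hne) (h3 hd) (hs hc)
    rw [h1, this]

theorem sgen_le (hN : NbGen v I P n) {r : Idx} (hr : r ∈ I \ P) {s : Idx × Fin 3}
    (hs : s ∈ Sq v I r) : s.1.1 ≤ n r := by
  obtain ⟨⟨⟨c, hc, hf⟩, -⟩, hsub⟩ := hs
  have := hN r hr c hc ⟨sc v s, face_sub hf (rel_sub sc_mem), hsub (rel_sub sc_mem)⟩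
  rwa [hf.1]

/-- sum over the squares of generation `N` in the square `s` -/
theorem sum_gw (v : V) (H : V → ℝ≥0∞) (s : Idx × Fin 3) {N : ℕ} (hN : s.1.1 ≤ N) {t : ℝ≥0∞}
    (ht : ∀ k, k ≠ s.2 → fSum v s N k H ≤ sInt v s H + t) :
    ∑' F : {F : Idx × Fin 3 | F.1.1 = N ∧ F.2 = s.2 ∧ squ v F ⊆ squ v s}, gw v H F.1 ≤
      4 * (sInt v s H + t) := by
  have h1 : ∑' F : {F : Idx × Fin 3 | F.1.1 = N ∧ F.2 = s.2 ∧ squ v F ⊆ squ v s}, gw v H F.1 =
      ∑' F : {F : Idx × Fin 3 | F.1.1 = N ∧ F.2 = s.2 ∧ squ v F ⊆ squ v s},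
        ENNReal.ofReal (1 / 2 ^ N) * aSum v H F.1 := by
    refine tsum_congr fun F => ?_
    have h2 : F.1.1.1 = N := F.2.1
    rw [gw, h2]
  rw [h1]
  refine (sum_square v H s hN).trans ?_
  calc 2 * ∑ k ∈ Finset.univ.erase s.2, fSum v s N k H
      ≤ 2 * ∑ _k ∈ Finset.univ.erase s.2, (sInt v s H + t) := by
        gcongr with k hk
        exact ht k (Finset.ne_of_mem_erase hk)
    _ = 4 * (sInt v s H + t) := by
        rw [Finset.sum_const, Finset.card_erase_of_mem (Finset.mem_univ _), Finset.card_univ,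
          Fintype.card_fin, nsmul_eq_mul, ← mul_assoc]
        norm_num

open Classical in
/-- the pairs (neighbour, common square) -/
noncomputable def pairs (v : V) (P : Set Idx) (NF : Finset Idx) (SF : Finset (Idx × Fin 3)) :
    Finset (Idx × (Idx × Fin 3)) :=
  (NF ×ˢ SF).filter fun a => a.1 ∉ P ∧ squ v a.2 ⊆ dyc v a.1.1 a.1.2

/-- the squares of the other side -/
def TT (v : V) (n : Idx → ℕ) (a : Idx × (Idx × Fin 3)) : Set (Idx × Fin 3) :=
  {F | F.1.1 = n a.1 ∧ F.2 = a.2.2 ∧ squ v F ⊆ squ v a.2}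

theorem fine_bound (hCL : CL1) (hΩ : IsOpen Ω) (hI : Part Ω v I) (hB : Big v I P B n)
    (hN : NbGen v I P n) {q : Idx} (hq : q ∈ I \ P) {NF : Finset Idx}
    {SF : Finset (Idx × Fin 3)} (hNF : (NF : Set Idx) = Nb v I q) (hSF : (SF : Set _) = Sq v I q)
    (h5 : ∀ r ∈ I \ P, ∀ s ∈ Sq v I r, ∀ k, k ≠ s.2 → fSum v s (n r) k H ≤ sInt v s H + 1) :
    ∑' i : {i : Idx // i ∈ refine v I P B n ∧ i ∉ P ∧ i ∉ B ∧
      dyc v i.1 i.2 ⊆ dyc v q.1 q.2}, cellT v (refine v I P B n) univ H i.1 ≤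
    12 * ∑ k, cSum v q (n q) k H +
      ENNReal.ofReal (1 / 2 ^ n q) * (32 * ∑ a ∈ NF ×ˢ SF, (sInt v a.2 H + 1)) := by
  classical
  set N0 := n q with hN0
  set c : ℝ≥0∞ := ENNReal.ofReal (1 / 2 ^ N0) with hc
  set I' := refine v I P B n with hI'
  set J : Set Idx := {i | i ∈ I' ∧ i ∉ P ∧ i ∉ B ∧ dyc v i.1 i.2 ⊆ dyc v q.1 q.2} with hJ
  set T : Set (Idx × Fin 3) := ⋃ a ∈ pairs v P NF SF, TT v n a with hT
  have hgen : ∀ i ∈ J, i.1 = N0 := fun i hi => gen_of_fine hI hq hi.1 hi.2.1 hi.2.2.1 hi.2.2.2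
  -- one cell
  have hcell : ∀ i ∈ J, cellT v I' univ H i ≤
      (∑ j : Fin 3, ∑ σ : Bool, ENNReal.ofReal ((1 / 2 ^ N0) ^ 2) * aSum v H (faceP i j σ)) +
      ∑' F : {F : Idx × Fin 3 | F ∈ T ∧ squ v F ⊆ dyc v i.1 i.2}, c * gw v H F.1 := by
    intro i hi
    have hi1 := hgen i hi
    have hi2 : ENNReal.ofReal (1 / 2 ^ i.1) = ENNReal.ofReal (1 / 2 ^ N0) := by rw [hi1]
    rw [cellT_eq, hi2]
    have hsub : {F : Idx × Fin 3 | MinSq v I' F ∧ squ v F ⊆ dyc v i.1 i.2 ∧ squ v F ⊆ univ} ⊆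
        {F | FaceOf F i} ∪ {F : Idx × Fin 3 | F ∈ T ∧ squ v F ⊆ dyc v i.1 i.2} := by
      rintro F ⟨hF, hFi, -⟩
      rcases hCL Ω v I P B n hΩ hI hB hN q hq i hi.1 hi.2.1 hi.2.2.1 hi.2.2.2 F hF hFi with
        h | ⟨-, r, hr, hrq, hFr, s, hs, hFs, hsub, hsq, hsr⟩
      · exact Or.inl h
      · refine Or.inr ⟨?_, hFi⟩
        rw [hT]
        simp only [mem_iUnion]
        refine ⟨(r, s), ?_, hFr, hFs, hsub⟩
        rw [pairs, Finset.mem_filter, Finset.mem_product]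
        refine ⟨⟨?_, ?_⟩, hr.2, hsr⟩
        · have : r ∈ Nb v I q := ⟨hr.1, sc v s, hsr (rel_sub sc_mem), hsq (rel_sub sc_mem)⟩
          rw [← hNF] at this
          exact this
        · have : s ∈ Sq v I q := ⟨hs, hsq⟩
          rw [← hSF] at this
          exact this
    refine (ENNReal.tsum_mono_subtype (fun F => ENNReal.ofReal (1 / 2 ^ N0) * gw v H F)
      hsub).trans ((ENNReal.tsum_union_le (fun F => ENNReal.ofReal (1 / 2 ^ N0) * gw v H F)
        {F | FaceOf F i} {F : Idx × Fin 3 | F ∈ T ∧ squ v F ⊆ dyc v i.1 i.2}).trans ?_)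
    refine add_le_add ?_ le_rfl
    have h6 := tsum_subtype_le_sum (S := {F : Idx × Fin 3 | FaceOf F i})
      (Finset.univ : Finset (Fin 3 × Bool)) (fun a => faceP i a.1 a.2)
      (fun F => ENNReal.ofReal (1 / 2 ^ N0) * gw v H F) (by
        intro F hF
        obtain ⟨j, σ, rfl⟩ := faceOf_param hF
        exact ⟨(j, σ), Finset.mem_univ _, rfl⟩)
    refine h6.trans (le_of_eq ?_)
    rw [← Finset.univ_product_univ, Finset.sum_product]
    refine Finset.sum_congr rfl fun j _ => Finset.sum_congr rfl fun σ _ => ?_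
    have h7 : (faceP i j σ).1.1 = N0 := hi1
    rw [gw, h7, ← mul_assoc, ← ENNReal.ofReal_mul (by positivity), sq]
  -- the sum over the cells
  have hsum : ∑' i : J, cellT v I' univ H i.1 ≤
      (∑' i : J, ∑ j : Fin 3, ∑ σ : Bool,
        ENNReal.ofReal ((1 / 2 ^ N0) ^ 2) * aSum v H (faceP i.1 j σ)) +
      ∑' i : J, ∑' F : {F : Idx × Fin 3 | F ∈ T ∧ squ v F ⊆ dyc v i.1.1 i.1.2}, c * gw v H F.1 := by
    rw [← ENNReal.tsum_add]
    exact ENNReal.tsum_le_tsum fun i => hcell i.1 i.2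
  refine hsum.trans (add_le_add ?_ ?_)
  · refine le_trans ?_ (sum_cube v H q N0)
    exact ENNReal.tsum_mono_subtype (fun i => ∑ j : Fin 3, ∑ σ : Bool,
      ENNReal.ofReal ((1 / 2 ^ N0) ^ 2) * aSum v H (faceP i j σ))
      (fun i hi => ⟨hgen i hi, hi.2.2.2⟩)
  · -- swap
    have hswap : ∑' i : J, ∑' F : {F : Idx × Fin 3 | F ∈ T ∧ squ v F ⊆ dyc v i.1.1 i.1.2},
        c * gw v H F.1 ≤ ∑' F : T, 8 * (c * gw v H F.1) := by
      calc ∑' i : J, ∑' F : {F : Idx × Fin 3 | F ∈ T ∧ squ v F ⊆ dyc v i.1.1 i.1.2},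
            c * gw v H F.1
          ≤ ∑' i : J, ∑' F : T, if squ v F.1 ⊆ dyc v i.1.1 i.1.2 then c * gw v H F.1 else 0 := by
            refine ENNReal.tsum_le_tsum fun i => ?_
            let ψ : {F : Idx × Fin 3 | F ∈ T ∧ squ v F ⊆ dyc v i.1.1 i.1.2} → T :=
              fun F => ⟨F.1, F.2.1⟩
            have hψ : Function.Injective ψ := fun a b hab =>
              Subtype.ext (congrArg (fun z : T => (z : Idx × Fin 3)) hab)
            have h8 := ENNReal.tsum_comp_le_tsum_of_injective hψ (fun F : T =>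
              if squ v F.1 ⊆ dyc v i.1.1 i.1.2 then c * gw v H F.1 else 0)
            refine le_trans (le_of_eq ?_) h8
            refine tsum_congr fun F => ?_
            rw [if_pos F.2.2]
        _ = ∑' F : T, ∑' i : J, if squ v F.1 ⊆ dyc v i.1.1 i.1.2 then c * gw v H F.1 else 0 :=
            ENNReal.tsum_comm
        _ ≤ ∑' F : T, 8 * (c * gw v H F.1) := by
            refine ENNReal.tsum_le_tsum fun F => ?_
            refine le_trans ?_ (sum_mult v (sc v F.1) N0 (c * gw v H F.1))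
            rw [tsum_subtype J (fun i => if squ v F.1 ⊆ dyc v i.1 i.2 then c * gw v H F.1 else 0),
              tsum_subtype {i : Idx | i.1 = N0 ∧ sc v F.1 ∈ dyc v i.1 i.2}
                (fun _ => c * gw v H F.1)]
            refine ENNReal.tsum_le_tsum fun i => ?_
            by_cases hi : i ∈ J
            · rw [indicator_of_mem hi]
              split_ifs with h9
              · rw [indicator_of_mem]
                exact ⟨hgen i hi, h9 (rel_sub sc_mem)⟩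
              · exact zero_le
            · rw [indicator_of_notMem hi]
              exact zero_le
    refine hswap.trans ?_
    rw [ENNReal.tsum_mul_left, ENNReal.tsum_mul_left]
    have h10 : ∑' F : T, gw v H F.1 ≤ ∑ a ∈ NF ×ˢ SF, 4 * (sInt v a.2 H + 1) := by
      refine (ENNReal.tsum_biUnion_le (fun F => gw v H F) (pairs v P NF SF) (TT v n)).trans ?_
      calc ∑ a ∈ pairs v P NF SF, ∑' F : TT v n a, gw v H F.1
          ≤ ∑ a ∈ pairs v P NF SF, 4 * (sInt v a.2 H + 1) := by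
            refine Finset.sum_le_sum fun a ha => ?_
            rw [pairs, Finset.mem_filter, Finset.mem_product] at ha
            obtain ⟨⟨ha1, ha2⟩, haP, hasub⟩ := ha
            have hr : a.1 ∈ I \ P := by
              have : a.1 ∈ (NF : Set Idx) := ha1
              rw [hNF] at this
              exact ⟨this.1, haP⟩
            have hs : a.2 ∈ Sq v I a.1 := by
              have : a.2 ∈ (SF : Set _) := ha2
              rw [hSF] at this
              exact ⟨this.1, hasub⟩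
            exact sum_gw v H a.2 (sgen_le hN hr hs) (h5 a.1 hr a.2 hs)
        _ ≤ ∑ a ∈ NF ×ˢ SF, 4 * (sInt v a.2 H + 1) :=
            Finset.sum_le_sum_of_subset (Finset.filter_subset _ _)
    calc 8 * (c * ∑' F : T, gw v H F.1)
        ≤ 8 * (c * ∑ a ∈ NF ×ˢ SF, 4 * (sInt v a.2 H + 1)) := by gcongr
      _ = c * (32 * ∑ a ∈ NF ×ˢ SF, (sInt v a.2 H + 1)) := by
          rw [← Finset.mul_sum, ← mul_assoc, mul_comm 8 c, mul_assoc, ← mul_assoc 8 4]
          norm_num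

theorem big_bound (hCL : CL2) (hΩ : IsOpen Ω) (hI : Part Ω v I) (hB : Big v I P B n)
    (hN : NbGen v I P n) {b : Idx} (hb : b ∈ B) {q : Idx} (hq : q ∈ I \ P)
    (hbq : dyc v b.1 b.2 ⊆ dyo v q.1 q.2) (hbn : b.1 ≤ n q) {δ : ℝ≥0∞}
    (h6 : ∀ j σ k, k ≠ j → fSum v (faceP b j σ) (n q) k H ≤ sInt v (faceP b j σ) H + δ) :
    cellT v (refine v I P B n) univ H b ≤
      4 * (ENNReal.ofReal (1 / 2 ^ b.1) * (bInt v b H + 6 * δ)) := by
  classical
  rw [cellT_eq, ENNReal.tsum_mul_left]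
  have h1 : ∑' F : {F : Idx × Fin 3 | MinSq v (refine v I P B n) F ∧
      squ v F ⊆ dyc v b.1 b.2 ∧ squ v F ⊆ univ}, gw v H F.1 ≤
      ∑ a : Fin 3 × Bool, 4 * (sInt v (faceP b a.1 a.2) H + δ) := by
    have hsub : {F : Idx × Fin 3 | MinSq v (refine v I P B n) F ∧
        squ v F ⊆ dyc v b.1 b.2 ∧ squ v F ⊆ univ} ⊆
        ⋃ a ∈ (Finset.univ : Finset (Fin 3 × Bool)), {F : Idx × Fin 3 | F.1.1 = n q ∧
          F.2 = (faceP b a.1 a.2).2 ∧ squ v F ⊆ squ v (faceP b a.1 a.2)} := by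
      rintro F ⟨hF, hFb, -⟩
      obtain ⟨h2, s, hs, h3, h4⟩ := hCL Ω v I P B n hΩ hI hB hN b hb q hq hbq F hF hFb
      obtain ⟨j, σ, rfl⟩ := faceOf_param hs
      simp only [mem_iUnion]
      exact ⟨(j, σ), Finset.mem_univ _, h2, h3, h4⟩
    refine (ENNReal.tsum_mono_subtype (fun F => gw v H F) hsub).trans ?_
    refine (ENNReal.tsum_biUnion_le (fun F => gw v H F) _ _).trans ?_
    refine Finset.sum_le_sum fun a _ => ?_
    exact sum_gw v H (faceP b a.1 a.2) hbn (fun k hk => h6 a.1 a.2 k hk)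
  have h2 : ∑ a : Fin 3 × Bool, 4 * (sInt v (faceP b a.1 a.2) H + δ) =
      4 * (bInt v b H + 6 * δ) := by
    rw [← Finset.mul_sum, Finset.sum_add_distrib, ← Finset.univ_product_univ, Finset.sum_product,
      ← bInt_eq, Finset.sum_const, Finset.card_product, Finset.card_univ, Finset.card_univ,
      Fintype.card_fin, Fintype.card_bool, nsmul_eq_mul]
    norm_num
  rw [h2] at h1
  calc ENNReal.ofReal (1 / 2 ^ b.1) * ∑' F : {F : Idx × Fin 3 | MinSq v (refine v I P B n) F ∧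
      squ v F ⊆ dyc v b.1 b.2 ∧ squ v F ⊆ univ}, gw v H F.1
      ≤ ENNReal.ofReal (1 / 2 ^ b.1) * (4 * (bInt v b H + 6 * δ)) := by gcongr
    _ = 4 * (ENNReal.ofReal (1 / 2 ^ b.1) * (bInt v b H + 6 * δ)) := by ring

theorem kept_bound (hCL : CL3) (hCL4 : CL4) (hΩ : IsOpen Ω) (hI : Part Ω v I)
    (hB : Big v I P B n) (hN : NbGen v I P n) {p : Idx} (hp : p ∈ P) {SF : Finset (Idx × Fin 3)}
    (hSF : (SF : Set _) = Sq v I p) {t : ℝ≥0∞}
    (h5 : ∀ r ∈ I \ P, r ∈ Nb v I p → ∀ s ∈ Sq v I r, ∀ k, k ≠ s.2 →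
      fSum v s (n r) k H ≤ sInt v s H + t) :
    cellT v (refine v I P B n) (⋃ r ∈ I \ P, dyc v r.1 r.2) H p ≤
      4 * (∑' s : {s : Idx × Fin 3 // MinSq v I s ∧ squ v s ⊆ dyc v p.1 p.2},
        ENNReal.ofReal (1 / 2 ^ p.1) * sInt v s.1 H) +
      ENNReal.ofReal (1 / 2 ^ p.1) * (4 * (SF.card * t)) := by
  classical
  have hpI : p ∈ I := hB.sub hp
  rw [cellT_eq, ENNReal.tsum_mul_left]
  -- the generation on the other side
  let N : Idx × Fin 3 → ℕ := fun s =>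
    if h : ∃ r, r ∈ I \ P ∧ squ v s ⊆ dyc v r.1 r.2 then n h.choose else 0
  have hNs : ∀ s ∈ Sq v I p, ∀ r ∈ I \ P, squ v s ⊆ dyc v r.1 r.2 → N s = n r := by
    intro s hs r hr hsr
    have h : ∃ r, r ∈ I \ P ∧ squ v s ⊆ dyc v r.1 r.2 := ⟨r, hr, hsr⟩
    have h1 := h.choose_spec
    show (if h : ∃ r, r ∈ I \ P ∧ squ v s ⊆ dyc v r.1 r.2 then n h.choose else 0) = n r
    rw [dif_pos h]
    rcases hCL4 Ω v I hΩ hI s hs.1 p hpI r hr.1 h.choose h1.1.1 hs.2 hsr h1.2 with h2 | h2 | h2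
    · exact absurd (h2 ▸ hp) hr.2
    · rw [← h2]
    · exact absurd (h2 ▸ hp) h1.1.2
  have h1 : ∑' F : {F : Idx × Fin 3 | MinSq v (refine v I P B n) F ∧
      squ v F ⊆ dyc v p.1 p.2 ∧ squ v F ⊆ ⋃ r ∈ I \ P, dyc v r.1 r.2}, gw v H F.1 ≤
      ∑ s ∈ SF, 4 * (sInt v s H + t) := by
    set SG := SF.filter (fun s => ∃ r, r ∈ I \ P ∧ squ v s ⊆ dyc v r.1 r.2) with hSG
    have hsub : {F : Idx × Fin 3 | MinSq v (refine v I P B n) F ∧
        squ v F ⊆ dyc v p.1 p.2 ∧ squ v F ⊆ ⋃ r ∈ I \ P, dyc v r.1 r.2} ⊆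
        ⋃ s ∈ SG, {F : Idx × Fin 3 | F.1.1 = N s ∧ F.2 = s.2 ∧ squ v F ⊆ squ v s} := by
      rintro F ⟨hF, hFp, hFu⟩
      obtain ⟨r, hr, h2, s, hs, h3, h4, h6, h7⟩ := hCL Ω v I P B n hΩ hI hB hN p hp F hF hFp hFu
      have hsS : s ∈ Sq v I p := ⟨hs, h6⟩
      simp only [mem_iUnion]
      refine ⟨s, ?_, ?_, h3, h4⟩
      · rw [hSG, Finset.mem_filter]
        refine ⟨?_, r, hr, h7⟩
        have : s ∈ (SF : Set _) := by rw [hSF]; exact hsS
        exact this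
      · rw [h2, hNs s hsS r hr h7]
    refine (ENNReal.tsum_mono_subtype (fun F => gw v H F) hsub).trans ?_
    refine (ENNReal.tsum_biUnion_le (fun F => gw v H F) _ _).trans ?_
    refine le_trans ?_ (Finset.sum_le_sum_of_subset (Finset.filter_subset
      (fun s => ∃ r, r ∈ I \ P ∧ squ v s ⊆ dyc v r.1 r.2) SF))
    refine Finset.sum_le_sum fun s hs => ?_
    obtain ⟨hsF, r, hr, hsr⟩ := Finset.mem_filter.1 hs
    have hsS : s ∈ Sq v I p := by rw [← hSF]; exact hsF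
    have hsr' : s ∈ Sq v I r := ⟨hsS.1, hsr⟩
    have hNr := hNs s hsS r hr hsr
    refine sum_gw v H s ?_ ?_
    · rw [hNr]
      exact sgen_le hN hr hsr'
    · intro k hk
      rw [hNr]
      exact h5 r hr ⟨hr.1, sc v s, hsr (rel_sub sc_mem), hsS.2 (rel_sub sc_mem)⟩ s hsr' k hk
  have h3 : ∑' s : {s : Idx × Fin 3 // MinSq v I s ∧ squ v s ⊆ dyc v p.1 p.2},
      ENNReal.ofReal (1 / 2 ^ p.1) * sInt v s.1 H =
      ENNReal.ofReal (1 / 2 ^ p.1) * ∑ s ∈ SF, sInt v s H := by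
    rw [ENNReal.tsum_mul_left]
    congr 1
    rw [← Finset.tsum_subtype' SF (fun s => sInt v s H), hSF]
    rfl
  rw [h3]
  calc ENNReal.ofReal (1 / 2 ^ p.1) * ∑' F : {F : Idx × Fin 3 | MinSq v (refine v I P B n) F ∧
      squ v F ⊆ dyc v p.1 p.2 ∧ squ v F ⊆ ⋃ r ∈ I \ P, dyc v r.1 r.2}, gw v H F.1
      ≤ ENNReal.ofReal (1 / 2 ^ p.1) * ∑ s ∈ SF, 4 * (sInt v s H + t) := by gcongr
    _ = _ := by
        rw [← Finset.mul_sum, Finset.sum_add_distrib, Finset.sum_const, nsmul_eq_mul]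
        ring

end Vale.Agent.P073.H194
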