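import Vale.Agent.P073.H194.Local
import Vale.Agent.P073.H83.Wt

/-!
# P073, block A15-MESH: upper semicontinuous weights
-/

namespace Vale.Agent.P073.H194

open MeasureTheory Set Filter Topology Metric Vale.Agent.P073.St
open Vale.Agent.P073.SQ (ev)
open Vale.Agent.P073.AB Vale.Agent.P073.AB.P86
open P073.Net (dyc dyo)
open Vale.Agent.P073.H83 (weight_cube weight_square)
open scoped ENNReal

/-- An upper semicontinuous function on a closed set is the limit of continuous functions from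
above. -/
theorem usc_seq {K : Set V} (hK : IsClosed K) {W : V → ℝ≥0∞} (hW : UpperSemicontinuousOn W K)
    {B : ℝ≥0∞} (hBt : B ≠ ⊤) (hB : ∀ x ∈ K, W x ≤ B) :
    ∃ Wn : ℕ → V → ℝ≥0∞, (∀ n, Continuous (Wn n)) ∧ (∀ n x, Wn n x ≤ B) ∧
      (∀ n, ∀ x, K.indicator W x ≤ Wn n x) ∧
      ∀ x, Tendsto (fun n => Wn n x) atTop (𝓝 (K.indicator W x)) := by
  let Wn : ℕ → V → ℝ≥0∞ := fun n x => ⨆ y ∈ K, (W y - n * edist x y)
  have hle : ∀ n, ∀ x, K.indicator W x ≤ Wn n x := by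
    intro n x
    by_cases hx : x ∈ K
    · rw [indicator_of_mem hx]
      refine le_trans ?_ (le_iSup₂ (f := fun y (_ : y ∈ K) => W y - n * edist x y) x hx)
      rw [edist_self, mul_zero, tsub_zero]
    · rw [indicator_of_notMem hx]
      exact zero_le
  -- far away points do not matter
  have hfar : ∀ x : V, ∀ r : ℝ≥0∞, r ≠ 0 → ∀ᶠ n : ℕ in atTop, ∀ y ∈ K, r ≤ edist x y →
      W y - n * edist x y = 0 := by
    intro x r hr
    obtain ⟨N, hN⟩ : ∃ N : ℕ, B ≤ N * r := by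
      by_cases hrt : r = ⊤
      · exact ⟨1, by rw [hrt]; simp⟩
      · obtain ⟨N, hN⟩ := ENNReal.exists_nat_gt (ENNReal.div_ne_top hBt hr)
        refine ⟨N, ?_⟩
        rw [ENNReal.div_lt_iff (Or.inl hr) (Or.inl hrt)] at hN
        exact hN.le
    filter_upwards [eventually_ge_atTop N] with n hn y hy hry
    rw [tsub_eq_zero_iff_le]
    calc W y ≤ B := hB y hy
      _ ≤ N * r := hN
      _ ≤ n * edist x y := by gcongr
  refine ⟨Wn, fun n => ?_, fun n x => ?_, hle, fun x => ?_⟩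
  · refine _root_.continuous_of_le_add_edist (n : ℝ≥0∞) (ENNReal.natCast_ne_top n) ?_
    intro x x'
    refine iSup₂_le fun y hy => ?_
    rw [tsub_le_iff_right]
    have h1 : W y - n * edist x' y ≤ Wn n x' :=
      le_iSup₂ (f := fun y (_ : y ∈ K) => W y - n * edist x' y) y hy
    calc W y ≤ (W y - n * edist x' y) + n * edist x' y := le_tsub_add
      _ ≤ Wn n x' + n * (edist x x' + edist x y) := by
          gcongr
          rw [edist_comm x x']
          exact edist_triangle _ _ _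
      _ = Wn n x' + n * edist x x' + n * edist x y := by ring
  · exact iSup₂_le fun y hy => tsub_le_self.trans (hB y hy)
  · rw [tendsto_order]
    refine ⟨fun a ha => Eventually.of_forall fun n => lt_of_lt_of_le ha (hle n x), fun a ha => ?_⟩
    by_cases hx : x ∈ K
    · rw [indicator_of_mem hx] at ha
      obtain ⟨c, hc1, hc2⟩ := exists_between ha
      have h1 := hW x hx c hc1
      rw [eventually_nhdsWithin_iff] at h1
      obtain ⟨r, hr, h2⟩ := EMetric.mem_nhds_iff.1 h1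
      filter_upwards [hfar x r hr.ne'] with n hn
      refine lt_of_le_of_lt (iSup₂_le fun y hy => ?_) hc2
      rcases lt_or_ge (edist x y) r with h3 | h3
      · refine tsub_le_self.trans (h2 ?_ hy).le
        rw [Metric.mem_eball, edist_comm]
        exact h3
      · rw [hn y hy h3]
        exact zero_le
    · rw [indicator_of_notMem hx] at ha
      have h1 : Kᶜ ∈ 𝓝 x := hK.isOpen_compl.mem_nhds hx
      obtain ⟨r, hr, h2⟩ := EMetric.mem_nhds_iff.1 h1
      filter_upwards [hfar x r hr.ne'] with n hn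
      refine lt_of_le_of_lt (iSup₂_le fun y hy => ?_) ha
      rw [hn y hy]
      by_contra h3
      rw [not_le] at h3
      refine h2 ?_ hy
      rw [Metric.mem_eball, edist_comm]
      exact h3

theorem eInt_mono {v : V} {e : Idx × Fin 3} {A A' : V → ℝ≥0∞}
    (h : ∀ t ∈ Icc (0:ℝ) 1, A (pt v e.1.1 e.1.2 + t • ((1 / 2 ^ e.1.1 : ℝ) • ev e.2)) ≤
      A' (pt v e.1.1 e.1.2 + t • ((1 / 2 ^ e.1.1 : ℝ) • ev e.2))) :
    eInt v e A ≤ eInt v e A' := by
  unfold eInt
  gcongr 1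
  exact setLIntegral_mono' measurableSet_Icc h

theorem cSum_mono {v : V} {q : Idx} {n : ℕ} (k : Fin 3) (h : q.1 ≤ n) {A A' : V → ℝ≥0∞}
    (hA : ∀ x ∈ dyc v q.1 q.2, A x ≤ A' x) : cSum v q n k A ≤ cSum v q n k A' := by
  unfold cSum
  refine Finset.sum_le_sum fun w hw => ?_
  gcongr
  exact eInt_mono fun t ht => hA _ (eIn_mem h hw ht)

theorem fSum_mono {v : V} {s : Idx × Fin 3} {n : ℕ} {k : Fin 3} (hk : k ≠ s.2) (h : s.1.1 ≤ n)
    {A A' : V → ℝ≥0∞} (hA : ∀ x ∈ squ v s, A x ≤ A' x) : fSum v s n k A ≤ fSum v s n k A' := by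
  unfold fSum
  refine Finset.sum_le_sum fun w hw => ?_
  gcongr
  exact eInt_mono fun t ht => hA _ (eInSq_mem h hk hw ht)

theorem sInt_mono {v : V} {s : Idx × Fin 3} {A A' : V → ℝ≥0∞}
    (hA : ∀ x ∈ squ v s, A x ≤ A' x) : sInt v s A ≤ sInt v s A' := by
  unfold sInt
  gcongr 1
  exact setLIntegral_mono' (measurableSet_dyc v _ _) fun x hx => hA _ (update_mem_squ hx)

/-- the integrals of the continuous approximations -/
theorem exists_close {α : Type*} [MeasurableSpace α] {μ : Measure α} {π : α → V}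
    (hπ : Measurable π) {H : α → ℝ≥0∞} (hH : Measurable H) (hfin : ∫⁻ x, H x ∂μ ≠ ⊤)
    {K : Set V} (hK : IsClosed K) {W : V → ℝ≥0∞} (hW : UpperSemicontinuousOn W K)
    {B : ℝ≥0∞} (hBt : B ≠ ⊤) (hB : ∀ x ∈ K, W x ≤ B) {δ : ℝ≥0∞} (hδ : δ ≠ 0) :
    ∃ W' : V → ℝ≥0∞, Continuous W' ∧ (∀ x, W' x ≤ B) ∧ (∀ x, K.indicator W x ≤ W' x) ∧
      ∫⁻ x, W' (π x) * H x ∂μ ≤ (∫⁻ x, K.indicator W (π x) * H x ∂μ) + δ := by
  obtain ⟨Wn, h1, h2, h3, h4⟩ := usc_seq hK hW hBt hB
  have hbd : ∫⁻ x, B * H x ∂μ ≠ ⊤ := by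
    rw [lintegral_const_mul _ hH]
    exact ENNReal.mul_ne_top hBt hfin
  have hlim : Tendsto (fun n => ∫⁻ x, Wn n (π x) * H x ∂μ) atTop
      (𝓝 (∫⁻ x, K.indicator W (π x) * H x ∂μ)) := by
    refine tendsto_lintegral_filter_of_dominated_convergence (fun x => B * H x)
      (Eventually.of_forall fun n => (((h1 n).measurable.comp hπ).mul hH))
      (Eventually.of_forall fun n => ae_of_all _ fun x => ?_) hbd ?_
    · exact mul_le_mul' (h2 n _) le_rfl
    · have hf : ∀ᵐ x ∂μ, H x < ⊤ := ae_lt_top hH hfin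
      filter_upwards [hf] with x hx
      exact ENNReal.Tendsto.mul_const (h4 (π x)) (Or.inr hx.ne)
  have hfin2 : ∫⁻ x, K.indicator W (π x) * H x ∂μ ≠ ⊤ :=
    ne_top_of_le_ne_top hbd (lintegral_mono fun x =>
      mul_le_mul' ((h3 0 (π x)).trans (h2 0 _)) le_rfl)
  have h5 := hlim.eventually_le_const (ENNReal.lt_add_right hfin2 hδ)
  obtain ⟨n, hn⟩ := h5.exists
  exact ⟨Wn n, h1 n, h2 n, h3 n, hn⟩

/-- **the clause for cubes**, upper semicontinuous weights -/
theorem usc_cube {v : V} {nn : ℕ → ℕ} {H : V → ℝ≥0∞} (hnn : StrictMono nn) (hH : Measurable H)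
    (hG : Gen v nn H) {q : Idx} (hfin : ∫⁻ x in dyc v q.1 q.2, H x ≠ ⊤)
    {K : Set V} (hK : IsClosed K) {W : V → ℝ≥0∞} (hW : UpperSemicontinuousOn W K)
    {B : ℝ≥0∞} (hBt : B ≠ ⊤) (hB : ∀ x ∈ K, W x ≤ B) {A : V → ℝ≥0∞}
    (hA : ∀ x ∈ dyc v q.1 q.2, A x ≤ K.indicator W x * H x) (k : Fin 3) {δ : ℝ≥0∞} (hδ : δ ≠ 0) :
    ∀ᶠ l in atTop, cSum v q (nn l) k A ≤
      (∫⁻ x in dyc v q.1 q.2, K.indicator W x * H x) + δ := by
  have hδ2 : δ / 2 ≠ 0 := (ENNReal.half_pos hδ).ne'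
  obtain ⟨W', h1, h2, h3, h4⟩ := exists_close (μ := volume.restrict (dyc v q.1 q.2))
    measurable_id hH hfin hK hW hBt hB hδ2
  have h5 := weight_cube hnn hG hfin (W := W') h1.continuousOn
    (fun x _ => ne_top_of_le_ne_top hBt (h2 x)) k hδ2
  filter_upwards [h5, hnn.tendsto_atTop.eventually_ge_atTop q.1] with l hl hql
  calc cSum v q (nn l) k A ≤ cSum v q (nn l) k (fun x => W' x * H x) :=
        cSum_mono k hql fun x hx => (hA x hx).trans (mul_le_mul' (h3 x) le_rfl)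
    _ ≤ (∫⁻ x in dyc v q.1 q.2, W' x * H x) + δ / 2 := hl
    _ ≤ ((∫⁻ x in dyc v q.1 q.2, K.indicator W x * H x) + δ / 2) + δ / 2 := by
        gcongr
        exact h4
    _ = _ := by rw [add_assoc, ENNReal.add_halves]

/-- **the clause for squares**, upper semicontinuous weights -/
theorem usc_square {v : V} {nn : ℕ → ℕ} {H : V → ℝ≥0∞} (hnn : StrictMono nn) (hH : Measurable H)
    (hG : Gen v nn H) {s : Idx × Fin 3}
    {K : Set V} (hK : IsClosed K) {W : V → ℝ≥0∞} (hW : UpperSemicontinuousOn W K)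
    {B : ℝ≥0∞} (hBt : B ≠ ⊤) (hB : ∀ x ∈ K, W x ≤ B) {A : V → ℝ≥0∞}
    (hA : ∀ x ∈ squ v s, A x ≤ K.indicator W x * H x) {k : Fin 3} (hk : k ≠ s.2) {δ : ℝ≥0∞}
    (hδ : δ ≠ 0) :
    ∀ᶠ l in atTop, fSum v s (nn l) k A ≤ sInt v s (fun x => K.indicator W x * H x) + δ := by
  have hδ2 : δ / 2 ≠ 0 := (ENNReal.half_pos hδ).ne'
  have h2m : (2:ℝ≥0∞) ^ s.1.1 ≠ ⊤ := ENNReal.pow_ne_top (by norm_num)
  have hδ3 : δ / 2 / 2 ^ s.1.1 ≠ 0 := (ENNReal.div_pos hδ2 h2m).ne'
  set π : V → V := fun x => Function.update x s.2 (pt v s.1.1 s.1.2 s.2) with hπ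
  have hπm : Measurable π := by
    refine measurable_pi_lambda _ fun l => ?_
    by_cases hl : l = s.2
    · subst hl
      simp only [hπ, Function.update_self]
      exact measurable_const
    · simp only [hπ, Function.update_of_ne hl]
      exact measurable_pi_apply l
  have hfin : ∫⁻ x in dyc v s.1.1 s.1.2, H (π x) ≠ ⊤ := by
    intro h
    refine hG.sfin s ?_
    unfold sInt
    rw [show (∫⁻ x in dyc v s.1.1 s.1.2, H (Function.update x s.2 (pt v s.1.1 s.1.2 s.2))) = ⊤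
      from h]
    exact ENNReal.mul_top (by positivity)
  obtain ⟨W', h1, h2, h3, h4⟩ := exists_close (μ := volume.restrict (dyc v s.1.1 s.1.2))
    hπm (hH.comp hπm) hfin hK hW hBt hB hδ3
  have h5 := weight_square hnn hG (s := s) (W := W') h1.continuousOn
    (fun x _ => ne_top_of_le_ne_top hBt (h2 x)) hk hδ2
  have h6 : sInt v s (fun x => W' x * H x) ≤ sInt v s (fun x => K.indicator W x * H x) + δ / 2 := by
    unfold sInt
    calc _ ≤ (2:ℝ≥0∞) ^ s.1.1 * ((∫⁻ x in dyc v s.1.1 s.1.2, K.indicator W (π x) * H (π x)) +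
          δ / 2 / 2 ^ s.1.1) := by
          gcongr
          exact h4
      _ = _ := by
          rw [mul_add, ENNReal.mul_div_cancel (by positivity) h2m]
  filter_upwards [h5, hnn.tendsto_atTop.eventually_ge_atTop s.1.1] with l hl hsl
  calc fSum v s (nn l) k A ≤ fSum v s (nn l) k (fun x => W' x * H x) :=
        fSum_mono hk hsl fun x hx => (hA x hx).trans (mul_le_mul' (h3 x) le_rfl)
    _ ≤ sInt v s (fun x => W' x * H x) + δ / 2 := hl
    _ ≤ (sInt v s (fun x => K.indicator W x * H x) + δ / 2) + δ / 2 := by gcongr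
    _ = _ := by rw [add_assoc, ENNReal.add_halves]

end Vale.Agent.P073.H194
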