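import Vale.Agent.P073.H471.Weight

/-!
# P073, block A15-MESH: the weight is upper semicontinuous
-/

namespace Vale.Agent.P073.H194

open MeasureTheory Set Filter Topology Metric
open Vale.Agent.P073.St (V)
open Vale.Agent.P073.H471 (Cubes wgt wt)
open scoped ENNReal

variable {ι : Type*} {Λ : Set V} {z c : ι → V} {σ : ι → ℝ}

/-- locally the weight is below a continuous function with the same value -/
theorem wgt_local (W : Cubes Λ z σ) {y₀ : V} (hy : y₀ ∈ Λ) (hne : ∀ i, y₀ ≠ c i) :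
    ∃ g : V → ℝ≥0∞, ContinuousAt g y₀ ∧ g y₀ = wgt z σ c y₀ ∧ g y₀ ≠ ⊤ ∧
      ∀ᶠ y in 𝓝 y₀, wgt z σ c y ≤ g y := by
  classical
  obtain ⟨U, hU, hf⟩ := W.fin y₀ hy
  set S₁ := hf.toFinset with hS₁
  set S := S₁.filter (fun i => y₀ ∈ closedBall (z i) (σ i)) with hS
  have hpos : ∀ i, 0 < ‖y₀ - c i‖ := fun i => norm_pos_iff.2 (sub_ne_zero.2 (hne i))
  have hmemU : ∀ i y, y ∈ U → y ∈ closedBall (z i) (σ i) → i ∈ S₁ := by
    intro i y hyU hyi
    rw [hS₁, Finite.mem_toFinset]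
    exact ⟨y, hyi, hyU⟩
  refine ⟨fun y => 1 + ∑ i ∈ S, ENNReal.ofReal (σ i) / ENNReal.ofReal ‖y - c i‖, ?_, ?_, ?_, ?_⟩
  · have h01 : ContinuousAt (fun _ : V => (1:ℝ≥0∞)) y₀ := continuousAt_const
    refine h01.add ?_
    refine tendsto_finsetSum _ fun i _ => ?_
    have h1 : Continuous fun y : V => ENNReal.ofReal ‖y - c i‖ :=
      ENNReal.continuous_ofReal.comp (by fun_prop)
    refine ENNReal.Tendsto.div tendsto_const_nhds (Or.inr ?_) h1.continuousAt
      (Or.inr ENNReal.ofReal_ne_top)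
    rw [Ne, ENNReal.ofReal_eq_zero, not_le]
    exact hpos i
  · unfold wgt
    have h0 : ∀ i ∉ S, (closedBall (z i) (σ i)).indicator
        (fun y => ENNReal.ofReal (σ i) / ENNReal.ofReal ‖y - c i‖) y₀ = 0 := by
      intro i hi
      refine indicator_of_notMem (fun h => hi ?_) _
      rw [hS, Finset.mem_filter]
      exact ⟨hmemU i y₀ (mem_of_mem_nhds hU) h, h⟩
    rw [tsum_eq_sum h0]
    show 1 + ∑ i ∈ S, ENNReal.ofReal (σ i) / ENNReal.ofReal ‖y₀ - c i‖ = _
    congr 1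
    refine Finset.sum_congr rfl fun i hi => ?_
    rw [hS, Finset.mem_filter] at hi
    rw [indicator_of_mem hi.2]
  · refine ENNReal.add_ne_top.2 ⟨ENNReal.one_ne_top, ENNReal.sum_ne_top.2 fun i _ => ?_⟩
    refine ENNReal.div_ne_top ENNReal.ofReal_ne_top ?_
    rw [Ne, ENNReal.ofReal_eq_zero, not_le]
    exact hpos i
  · have h1 : ∀ᶠ y in 𝓝 y₀, ∀ i ∈ S₁, i ∉ S → y ∉ closedBall (z i) (σ i) := by
      rw [Filter.eventually_all_finset]
      intro i hi
      by_cases his : i ∈ S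
      · exact Eventually.of_forall fun _ h => absurd his h
      · have h2 : y₀ ∉ closedBall (z i) (σ i) := fun h => his (by
          rw [hS, Finset.mem_filter]
          exact ⟨hi, h⟩)
        filter_upwards [isClosed_closedBall.isOpen_compl.mem_nhds h2] with y hy _
        exact hy
    filter_upwards [h1, hU] with y hy1 hyU
    unfold wgt
    gcongr
    have h0 : ∀ i ∉ S, (closedBall (z i) (σ i)).indicator
        (fun y => ENNReal.ofReal (σ i) / ENNReal.ofReal ‖y - c i‖) y = 0 := by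
      intro i hi
      refine indicator_of_notMem (fun h => ?_) _
      exact hy1 i (hmemU i y hyU h) hi h
    rw [tsum_eq_sum h0]
    exact Finset.sum_le_sum fun i _ => indicator_le_self _ _ _

theorem wgt_ne_top (W : Cubes Λ z σ) {y : V} (hy : y ∈ Λ) (hne : ∀ i, y ≠ c i) :
    wgt z σ c y ≠ ⊤ := by
  obtain ⟨g, -, h1, h2, -⟩ := wgt_local W hy hne
  rwa [h1] at h2

/-- **upper semicontinuity** of the weight along `f`, away from the centres -/
theorem wgt_usc (W : Cubes Λ z σ) {p : ℝ} (hp : 0 ≤ p) {Ω K : Set V} {f : V → V}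
    (hf : ContinuousOn f Ω) (hK : K ⊆ Ω) (hfΛ : ∀ x ∈ K, f x ∈ Λ) (hne : ∀ x ∈ K, ∀ i, f x ≠ c i) :
    UpperSemicontinuousOn (fun x => wgt z σ c (f x) ^ p) K := by
  intro x hx a ha
  obtain ⟨g, h1, h2, -, h3⟩ := wgt_local W (hfΛ x hx) (hne x hx)
  have hfx : ContinuousWithinAt f K x := (hf x (hK hx)).mono hK
  have h4 : ContinuousAt (fun y => g y ^ p) (f x) :=
    ENNReal.continuous_rpow_const.continuousAt.comp h1
  have h5 : g (f x) ^ p < a := by rw [h2]; exact ha
  have h6 : ∀ᶠ y in 𝓝 (f x), g y ^ p < a := h4.eventually_lt_const h5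
  have h7 := hfx.eventually h6
  have h8 := hfx.eventually h3
  filter_upwards [h7, h8] with y hy1 hy2
  exact lt_of_le_of_lt (ENNReal.rpow_le_rpow hy2 hp) hy1

/-- the weight near a centre -/
theorem wgt_near (W : Cubes Λ z σ) (hc : ∀ i, ‖c i - z i‖ ≤ σ i / 2) {i : ι} {y : V}
    (hy : ‖y - c i‖ < σ i / 2) :
    wgt z σ c y ≤ 2 * (ENNReal.ofReal (σ i) / ENNReal.ofReal ‖y - c i‖) := by
  have hp := W.pos i
  have hyb : y ∈ ball (z i) (σ i) := by
    rw [mem_ball, dist_eq_norm]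
    calc ‖y - z i‖ ≤ ‖y - c i‖ + ‖c i - z i‖ := by
          refine le_trans (le_of_eq ?_) (norm_add_le _ _)
          congr 1; abel
      _ < σ i := by linarith [hc i]
  have h0 : ∀ j, j ≠ i → (closedBall (z j) (σ j)).indicator
      (fun y => ENNReal.ofReal (σ j) / ENNReal.ofReal ‖y - c j‖) y = 0 := by
    intro j hj
    refine indicator_of_notMem (fun h => ?_) _
    rw [← closure_ball _ (W.pos j).ne'] at h
    have h1 := mem_closure_iff.1 h _ isOpen_ball hyb
    obtain ⟨x, hx1, hx2⟩ := h1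
    exact disjoint_left.1 (W.disj i j hj.symm) hx1 hx2
  have h1 : (1:ℝ≥0∞) ≤ ENNReal.ofReal (σ i) / ENNReal.ofReal ‖y - c i‖ := by
    by_cases hz : ‖y - c i‖ = 0
    · rw [hz, ENNReal.ofReal_zero, ENNReal.div_zero (by simpa using hp)]
      exact le_top
    · have h2 : 0 < ‖y - c i‖ := lt_of_le_of_ne (norm_nonneg _) (Ne.symm hz)
      rw [ENNReal.le_div_iff_mul_le (Or.inl (by simpa using h2)) (Or.inl ENNReal.ofReal_ne_top),
        one_mul]
      exact ENNReal.ofReal_le_ofReal (by linarith)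
  unfold wgt
  rw [tsum_eq_single i h0, indicator_of_mem (ball_subset_closedBall hyb), two_mul]
  gcongr

end Vale.Agent.P073.H194
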