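import Vale.Agent.P073.H194.MeshLoc
import Vale.Agent.P073.H194.Usc
import Vale.Agent.P073.H194.WgtUsc
import Vale.Agent.P073.H83.Big

/-!
# P073, block A15-MESH: the mesh for the weighted energy
-/

namespace Vale.Agent.P073.H194

open MeasureTheory Set Filter Topology Metric Vale.Agent.P073.St
open Vale.Agent.P073.SQ (ev)
open Vale.Agent.P073.AB Vale.Agent.P073.AB.P86
open P073.Net (dyc dyo)
open Vale.Agent.P073.H471 (Cubes wgt wt)
open Vale.Agent.P073.H83 (Bw vc_sub idx_mem dist_le_of_mem_dyc sInt_le_mul isCompact_squ)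
open scoped ENNReal

/-! ### Cubes -/

theorem idx_mem_dyc (v : V) (n : ℕ) (x : V) : x ∈ dyc v n (idx v n x) :=
  vc_sub v (n, idx v n x) (idx_mem v n x)

theorem same_cube {v : V} {m : ℕ} {w z : Fin 3 → ℤ} {x : V} (h1 : x ∈ dyo v m w)
    (h2 : x ∈ dyc v m z) : w = z := by
  funext k
  have hp : (0:ℝ) < 2 ^ m := by positivity
  have a1 := (h1 k).1
  have a2 := (h1 k).2
  have b1 := (h2 k).1
  have b2 := (h2 k).2
  have h3 : (w k : ℝ) / 2 ^ m < ((z k : ℝ) + 1) / 2 ^ m := by linarith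
  have h4 : (z k : ℝ) / 2 ^ m < ((w k : ℝ) + 1) / 2 ^ m := by linarith
  rw [div_lt_div_iff_of_pos_right hp] at h3 h4
  have h3' : w k < z k + 1 := by exact_mod_cast h3
  have h4' : z k < w k + 1 := by exact_mod_cast h4
  omega

theorem isOpen_dyo (v : V) (m : ℕ) (z : Fin 3 → ℤ) : IsOpen (dyo v m z) := by
  have : dyo v m z = Set.pi univ fun k => Ioo (v k + z k / 2 ^ m) (v k + (z k + 1) / 2 ^ m) := by
    ext x
    exact ⟨fun h k _ => h k, fun h k => h k (mem_univ k)⟩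
  rw [this]
  exact isOpen_set_pi finite_univ fun _ _ => isOpen_Ioo

theorem ev_idx_sub {v : V} {x : V} {U : Set V} (hU : U ∈ 𝓝 x) {nn : ℕ → ℕ} (hnn : StrictMono nn) :
    ∀ᶠ l in atTop, dyc v (nn l) (idx v (nn l) x) ⊆ U := by
  obtain ⟨r, hr, hr'⟩ := Metric.mem_nhds_iff.1 hU
  obtain ⟨n, hn⟩ := exists_pow_lt_of_lt_one hr (show (1 / 2 : ℝ) < 1 by norm_num)
  filter_upwards [hnn.tendsto_atTop.eventually_ge_atTop n] with l hl y hy
  refine hr' ?_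
  rw [mem_ball]
  refine (dist_le_of_mem_dyc hy (idx_mem_dyc v (nn l) x)).trans_lt (lt_of_le_of_lt ?_ hn)
  rw [one_div_pow]
  exact one_div_le_one_div_of_le (by positivity) (pow_le_pow_right₀ (by norm_num) hl)

section

variable {ι : Type*} {Λ : Set V} {z c : ι → V} {σ : ι → ℝ}

theorem finite_meet (W : Cubes Λ z σ) {C : Set V} (hC : IsCompact C) (hCΛ : C ⊆ Λ) :
    {i | (closedBall (z i) (σ i) ∩ C).Nonempty}.Finite := by
  have h1 : ∀ y ∈ C, ∃ U ∈ 𝓝 y, {i | (closedBall (z i) (σ i) ∩ U).Nonempty}.Finite :=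
    fun y hy => W.fin y (hCΛ hy)
  choose! U hU hf using h1
  obtain ⟨T, hTC, hT⟩ := hC.elim_nhds_subcover U hU
  refine (T.finite_toSet.biUnion fun y hy => hf y (hTC y hy)).subset ?_
  rintro i ⟨y, hy, hyC⟩
  obtain ⟨y₀, hy₀, hyU⟩ := mem_iUnion₂.1 (hT hyC)
  exact mem_iUnion₂.2 ⟨y₀, hy₀, ⟨y, hy, hyU⟩⟩

theorem center_mem (W : Cubes Λ z σ) (hc : ∀ i, ‖c i - z i‖ ≤ σ i / 2) (i : ι) :
    c i ∈ ball (z i) (σ i) := by
  rw [mem_ball, dist_eq_norm]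
  have := W.pos i
  linarith [hc i]

/-- the points mapped to centres -/
def cpt (v : V) (f : V → V) (c : ι → V) (q : Idx) : Set V :=
  {x | x ∈ dyc v q.1 q.2 ∧ ∃ i, f x = c i}

theorem finite_cpt (W : Cubes Λ z σ) (hc : ∀ i, ‖c i - z i‖ ≤ σ i / 2) {v : V} {f : V → V}
    {q : Idx} (hf : ContinuousOn f (dyc v q.1 q.2)) (hfΛ : MapsTo f (dyc v q.1 q.2) Λ)
    (hinj : InjOn f (dyc v q.1 q.2)) : (cpt v f c q).Finite := by
  have h1 := finite_meet W ((isCompact_dyc v q.1 q.2).image_of_continuousOn hf)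
    hfΛ.image_subset
  have h2 : (c '' {i | (closedBall (z i) (σ i) ∩ f '' dyc v q.1 q.2).Nonempty}).Finite :=
    h1.image c
  refine Set.Finite.of_injOn (f := f) ?_ (hinj.mono fun x hx => hx.1) h2
  rintro x ⟨hx, i, hi⟩
  exact ⟨i, ⟨c i, ball_subset_closedBall (center_mem W hc i), hi ▸ mem_image_of_mem f hx⟩, hi.symm⟩

end

/-! ### The theorem -/

/-- the weighted function -/
noncomputable def wH {ι : Type*} (p : ℝ) (z : ι → V) (σ : ι → ℝ) (c : ι → V) (f : V → V)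
    (G : V → ℝ≥0∞) : V → ℝ≥0∞ := fun x => wgt z σ c (f x) ^ p * G x

/-- Data for the choice of the mesh: on the closed cubes of `I \ P` the map `f` is continuous and
injective, `G` is generic, and the preimages of the centres are generic. -/
structure MeshData {ι : Type*} (p : ℝ) (Λ : Set V) (v : V) (nn : ℕ → ℕ) (I P : Set Idx)
    (f : V → V) (G : V → ℝ≥0∞) (c : ι → V) : Prop where
  cont : ∀ q ∈ I \ P, ContinuousOn f (dyc v q.1 q.2)
  maps : ∀ q ∈ I \ P, MapsTo f (dyc v q.1 q.2) Λ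
  inj : ∀ q ∈ I \ P, InjOn f (dyc v q.1 q.2)
  gen : ∀ q ∈ I \ P, ∃ G' : V → ℝ≥0∞, Measurable G' ∧ Gen v nn G' ∧
    ∫⁻ x in dyc v q.1 q.2, G' x ≠ ⊤ ∧ ∀ x ∈ dyc v q.1 q.2, G x = G' x
  open_ : ∀ q ∈ I \ P, ∀ x ∈ dyc v q.1 q.2, ∀ i, f x = c i → ∀ n, x ∈ dyo v n (idx v n x)
  big : ∀ q ∈ I \ P, ∀ x ∈ dyc v q.1 q.2, ∀ i, f x = c i → ∀ δ : ℝ≥0∞, δ ≠ 0 →
    ∃ᶠ l in atTop, Bw p f G v (nn l) (idx v (nn l) x) (c i) < δ

section

variable {ι : Type*} {p : ℝ} {Ω Λ : Set V} {v : V} {nn : ℕ → ℕ} {I P : Set Idx} {f : V → V}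
  {G : V → ℝ≥0∞} {z c : ι → V} {σ : ι → ℝ}

theorem MeshData.mem_dyo (D : MeshData p Λ v nn I P f G c) {q : Idx} (hq : q ∈ I \ P) {x : V}
    (hx : x ∈ cpt v f c q) : x ∈ dyo v q.1 q.2 := by
  obtain ⟨hx1, i, hi⟩ := hx
  have h1 := D.open_ q hq x hx1 i hi q.1
  rwa [same_cube h1 hx1] at h1

/-- one big cell -/
theorem MeshData.exists_cell (D : MeshData p Λ v nn I P f G c) (hp : 0 ≤ p) (hnn : StrictMono nn)
    (W : Cubes Λ z σ) (hc : ∀ i, ‖c i - z i‖ ≤ σ i / 2) {q : Idx} (hq : q ∈ I \ P) {x : V}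
    (hx : x ∈ cpt v f c q) (t : ℕ) {ρ : ℝ} (hρ : 0 < ρ) {β : ℝ≥0∞} (hβ : β ≠ 0) (hβt : β ≠ ⊤) :
    ∃ n, n ∈ range nn ∧ t ≤ n ∧ dyc v n (idx v n x) ⊆ dyo v q.1 q.2 ∧
      dyc v n (idx v n x) ⊆ ball x ρ ∧ x ∈ dyo v n (idx v n x) ∧
      ENNReal.ofReal (1 / 2 ^ n) * bInt v (n, idx v n x) (wH p z σ c f G) < β := by
  have hxo := D.mem_dyo hq hx
  obtain ⟨hx1, i, hi⟩ := hx
  have hσ := W.pos i
  set K : ℝ≥0∞ := (2 * ENNReal.ofReal (σ i)) ^ p with hK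
  have hK0 : K ≠ 0 := by
    rw [hK, Ne, ENNReal.rpow_eq_zero_iff]
    rintro (⟨h, -⟩ | ⟨h, -⟩)
    · rcases mul_eq_zero.1 h with h | h
      · exact absurd h (by norm_num)
      · rw [ENNReal.ofReal_eq_zero] at h
        linarith
    · exact ENNReal.mul_ne_top (by norm_num) ENNReal.ofReal_ne_top h
  have hKt : K ≠ ⊤ := ENNReal.rpow_ne_top_of_nonneg hp
    (ENNReal.mul_ne_top (by norm_num) ENNReal.ofReal_ne_top)
  have hδ : β / 2 / K ≠ 0 := (ENNReal.div_pos (ENNReal.half_pos hβ).ne' hKt).ne'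
  have h1 := D.big q hq x hx1 i hi (β / 2 / K) hδ
  -- near `x` the weight is given by the centre `c i`
  have h2 : ∀ᶠ y in 𝓝 x, y ∈ dyc v q.1 q.2 → ‖f y - c i‖ < σ i / 2 := by
    have h3 := (D.cont q hq) x hx1
    have h4 : ∀ᶠ y in 𝓝[dyc v q.1 q.2] x, ‖f y - c i‖ < σ i / 2 := by
      have h5 : Tendsto (fun y => ‖f y - c i‖) (𝓝[dyc v q.1 q.2] x) (𝓝 ‖f x - c i‖) :=
        (h3.tendsto.sub tendsto_const_nhds).norm
      refine h5.eventually_lt_const ?_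
      rw [hi, sub_self, norm_zero]
      positivity
    rwa [eventually_nhdsWithin_iff] at h4
  have h3 : ∀ᶠ l in atTop, dyc v (nn l) (idx v (nn l) x) ⊆
      {y | y ∈ dyc v q.1 q.2 → ‖f y - c i‖ < σ i / 2} := ev_idx_sub h2 hnn
  have h4 : ∀ᶠ l in atTop, dyc v (nn l) (idx v (nn l) x) ⊆ dyo v q.1 q.2 :=
    ev_idx_sub ((isOpen_dyo v _ _).mem_nhds hxo) hnn
  have h5 : ∀ᶠ l in atTop, dyc v (nn l) (idx v (nn l) x) ⊆ ball x ρ :=
    ev_idx_sub (ball_mem_nhds x hρ) hnn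
  obtain ⟨l, h1, h3, h4, h5, h6⟩ := (h1.and_eventually (h3.and (h4.and (h5.and
    (hnn.tendsto_atTop.eventually_ge_atTop t))))).exists
  refine ⟨nn l, mem_range_self l, h6, h4, h5, D.open_ q hq x hx1 i hi (nn l), ?_⟩
  have h7 : bInt v (nn l, idx v (nn l) x) (wH p z σ c f G) ≤
      K * bInt v (nn l, idx v (nn l) x) (fun y => wt p 1 (f y - c i) * G y) := by
    rw [bInt_eq, bInt_eq, Finset.mul_sum]
    refine Finset.sum_le_sum fun j _ => ?_
    rw [Finset.mul_sum]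
    refine Finset.sum_le_sum fun τ _ => ?_
    have h8 : sInt v (faceP (nn l, idx v (nn l) x) j τ) (wH p z σ c f G) ≤
        sInt v (faceP (nn l, idx v (nn l) x) j τ)
          (fun y => K * (wt p 1 (f y - c i) * G y)) := by
      refine sInt_mono fun y hy => ?_
      have hy' : y ∈ dyc v (nn l) (idx v (nn l) x) := faceP_sub _ j τ hy
      have h9 := wgt_near W hc (h3 hy' (dyo_sub_dyc (h4 hy')))
      have h10 : wgt z σ c (f y) ^ p ≤ K * wt p 1 (f y - c i) := by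
        calc wgt z σ c (f y) ^ p
            ≤ (2 * (ENNReal.ofReal (σ i) / ENNReal.ofReal ‖f y - c i‖)) ^ p := by gcongr
          _ = K * wt p 1 (f y - c i) := by
            rw [hK, wt, ← ENNReal.mul_rpow_of_nonneg _ _ hp, ENNReal.ofReal_one]
            congr 1
            rw [div_eq_mul_inv, one_div, mul_assoc]
      calc wH p z σ c f G y = wgt z σ c (f y) ^ p * G y := rfl
        _ ≤ (K * wt p 1 (f y - c i)) * G y := by gcongr
        _ = _ := by ring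
    exact h8.trans (sInt_le_mul hKt fun _ _ => le_rfl)
  calc ENNReal.ofReal (1 / 2 ^ nn l) * bInt v (nn l, idx v (nn l) x) (wH p z σ c f G)
      ≤ ENNReal.ofReal (1 / 2 ^ nn l) *
        (K * bInt v (nn l, idx v (nn l) x) (fun y => wt p 1 (f y - c i) * G y)) := by gcongr
    _ = K * Bw p f G v (nn l) (idx v (nn l) x) (c i) := by
        rw [Bw]
        ring
    _ ≤ K * (β / 2 / K) := by gcongr
    _ = β / 2 := ENNReal.mul_div_cancel hK0 hKt
    _ < β := ENNReal.half_lt_self hβ hβt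

/-- upper bound of the weight on a compact set without centres -/
theorem exists_bound (hp : 0 ≤ p) (W : Cubes Λ z σ) {S K : Set V} (hf : ContinuousOn f S)
    (hfΛ : MapsTo f S Λ) (hK : IsCompact K) (hKS : K ⊆ S) (hne : ∀ x ∈ K, ∀ i, f x ≠ c i) :
    ∃ B : ℝ≥0∞, B ≠ ⊤ ∧ ∀ x ∈ K, wgt z σ c (f x) ^ p ≤ B := by
  rcases K.eq_empty_or_nonempty with rfl | hKne
  · exact ⟨0, by norm_num, fun x hx => absurd hx (notMem_empty x)⟩
  · obtain ⟨x₀, hx₀, hmax⟩ := (wgt_usc W hp hf hKS (fun x hx => hfΛ (hKS hx))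
      hne).exists_isMaxOn hKne hK
    exact ⟨wgt z σ c (f x₀) ^ p, ENNReal.rpow_ne_top_of_nonneg hp
      (wgt_ne_top W (hfΛ (hKS hx₀)) (hne x₀ hx₀)), hmax⟩

/-- the first part of the result: big cells around the preimages of the centres -/
structure IsBig (v : V) (nn : ℕ → ℕ) (I P : Set Idx) (f : V → V) (c : ι → V) (tB : Idx → ℕ)
    (B : Set Idx) : Prop where
  cell : ∀ b ∈ B, ∃ q ∈ I \ P, dyc v b.1 b.2 ⊆ dyo v q.1 q.2 ∧ b.1 ∈ range nn ∧ tB q ≤ b.1 ∧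
    ∃ x ∈ cpt v f c q, x ∈ dyo v b.1 b.2
  disj : ∀ b ∈ B, ∀ b' ∈ B, b ≠ b' → Disjoint (dyc v b.1 b.2) (dyc v b'.1 b'.2)
  fin : ∀ q ∈ I \ P, {b | b ∈ B ∧ dyc v b.1 b.2 ⊆ dyc v q.1 q.2}.Finite
  cen : ∀ q ∈ I \ P, ∀ x ∈ cpt v f c q, ∃ b ∈ B, x ∈ dyo v b.1 b.2 ∧
    dyc v b.1 b.2 ⊆ dyo v q.1 q.2

theorem part_eq (hI : Part Ω v I) {q q' b : Idx} (hq : q ∈ I) (hq' : q' ∈ I)
    (h : dyc v b.1 b.2 ⊆ dyo v q.1 q.2) (h' : dyc v b.1 b.2 ⊆ dyc v q'.1 q'.2) : q = q' := by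
  have hx : cen v b.1 b.2 ∈ dyc v b.1 b.2 := dyo_sub_dyc (cen_mem v b.1 b.2)
  exact eq_of_mem hI hq hq' (h hx) (h' hx)

theorem exists_rho {X : Set V} (hX : X.Finite) : ∃ ρ > 0, ∀ x ∈ X, ∀ y ∈ X, x ≠ y →
    Disjoint (ball x ρ) (ball y ρ) := by
  classical
  have h1 : ∀ᶠ ρ in 𝓝[>] (0:ℝ), ∀ x ∈ X, ∀ y ∈ X, x ≠ y → Disjoint (ball x ρ) (ball y ρ) := by
    rw [eventually_all_finite hX]
    intro x _
    rw [eventually_all_finite hX]
    intro y _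
    by_cases hxy : x = y
    · exact Eventually.of_forall fun _ h => absurd hxy h
    · have h2 : 0 < dist x y / 2 := by have := dist_pos.2 hxy; positivity
      filter_upwards [Ioo_mem_nhdsGT h2] with ρ hρ _
      exact ball_disjoint_ball (by linarith [hρ.2])
  obtain ⟨ρ, hρ, hρ0⟩ := (h1.and self_mem_nhdsWithin).exists
  exact ⟨ρ, hρ0, hρ⟩

/-- **[MESH-A15]** -/
theorem mesh_app (D : MeshData p Λ v nn I P f G c) (hp : 0 ≤ p) (hΩ : IsOpen Ω)
    (hI : Part Ω v I) (hP : P ⊆ I) (hnn : StrictMono nn) (W : Cubes Λ z σ)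
    (hc : ∀ i, ‖c i - z i‖ ≤ σ i / 2) {ε : Idx → ℝ≥0∞} (hε : ∀ q, ε q ≠ 0) (tB : Idx → ℕ)
    {γ : Type*} (gr : Idx → γ) (hgr : ∀ a, {q | q ∈ I \ P ∧ gr q = a}.Finite) :
    ∃ B : Set Idx, IsBig v nn I P f c tB B ∧ ∀ th : Idx → ℕ,
      ∃ n : Idx → ℕ, Big v I P B n ∧ (∀ q ∈ I \ P, th q ≤ n q ∧ n q ∈ range nn) ∧
      (∀ q ∈ I \ P, ∀ q' ∈ I \ P, gr q = gr q' → n q = n q') ∧
      (∀ q ∈ I \ P, ∑' i : {i : Idx // i ∈ refine v I P B n ∧ i ∉ P ∧
          dyc v i.1 i.2 ⊆ dyc v q.1 q.2},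
        cellT v (refine v I P B n) univ (wH p z σ c f G) i.1 ≤
        36 * (∫⁻ x in dyc v q.1 q.2, wH p z σ c f G x) + ε q) ∧
      (∀ q ∈ P, cellT v (refine v I P B n) (⋃ r ∈ I \ P, dyc v r.1 r.2) (wH p z σ c f G) q ≤
        36 * (∑' s : {s : Idx × Fin 3 // MinSq v I s ∧ squ v s ⊆ dyc v q.1 q.2 ∧
          ∃ r ∈ I \ P, squ v s ⊆ dyc v r.1 r.2},
            ENNReal.ofReal (1 / 2 ^ q.1) * sInt v s.1 (wH p z σ c f G)) + ε q) := by
  classical
  set H := wH p z σ c f G with hH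
  have hXf : ∀ q ∈ I \ P, (cpt v f c q).Finite := fun q hq =>
    finite_cpt W hc (D.cont q hq) (D.maps q hq) (D.inj q hq)
  -- tolerances
  have hβex : ∀ q ∈ I \ P, ∃ β : ℝ≥0∞, β ≠ 0 ∧ β ≠ ⊤ ∧
      ∀ T : Finset Idx, T.card ≤ (cpt v f c q).ncard → 36 * (T.card * β) ≤ ε q / 2 := by
    intro q hq
    have h1 : ∀ᶠ β in 𝓝[>] (0:ℝ≥0∞), (36 * ((cpt v f c q).ncard : ℝ≥0∞)) * β ≤ ε q / 2 :=
      ev_mul (ENNReal.mul_ne_top (by norm_num) (ENNReal.natCast_ne_top _))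
        (ENNReal.half_pos (hε q)).ne'
    obtain ⟨β, hβ0, hβ1, hβ2⟩ := exists_pos_of_ev (h1.and (ev_le one_ne_zero))
    refine ⟨β, hβ0, ne_top_of_le_ne_top ENNReal.one_ne_top hβ2, fun T hT => ?_⟩
    calc 36 * ((T.card : ℝ≥0∞) * β) ≤ 36 * (((cpt v f c q).ncard : ℝ≥0∞) * β) := by gcongr
      _ = (36 * ((cpt v f c q).ncard : ℝ≥0∞)) * β := by ring
      _ ≤ ε q / 2 := hβ1
  choose! β hβ0 hβt hβs using hβex
  have hρex : ∀ q ∈ I \ P, ∃ ρ > 0, ∀ x ∈ cpt v f c q, ∀ y ∈ cpt v f c q, x ≠ y →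
      Disjoint (ball x ρ) (ball y ρ) := fun q hq => exists_rho (hXf q hq)
  choose! ρ hρ0 hρd using hρex
  -- the big cells
  have hcell : ∀ q ∈ I \ P, ∀ x ∈ cpt v f c q, ∃ n, n ∈ range nn ∧ tB q ≤ n ∧
      dyc v n (idx v n x) ⊆ dyo v q.1 q.2 ∧ dyc v n (idx v n x) ⊆ ball x (ρ q) ∧
      x ∈ dyo v n (idx v n x) ∧
      ENNReal.ofReal (1 / 2 ^ n) * bInt v (n, idx v n x) H < β q := fun q hq x hx =>
    D.exists_cell hp hnn W hc hq hx (tB q) (hρ0 q hq) (hβ0 q hq) (hβt q hq)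
  choose! m m1 m2 m3 m4 m5 m6 using hcell
  set B : Set Idx := {b | ∃ q ∈ I \ P, ∃ x ∈ cpt v f c q, b = (m q x, idx v (m q x) x)} with hB
  have hBq : ∀ b ∈ B, ∀ q ∈ I \ P, dyc v b.1 b.2 ⊆ dyc v q.1 q.2 →
      ∃ x ∈ cpt v f c q, b = (m q x, idx v (m q x) x) := by
    rintro b ⟨q', hq', x, hx, rfl⟩ q hq hsub
    have h1 := part_eq hI hq'.1 hq.1 (m3 q' hq' x hx) hsub
    subst h1
    exact ⟨x, hx, rfl⟩
  have hBf : ∀ q ∈ I \ P, {b | b ∈ B ∧ dyc v b.1 b.2 ⊆ dyc v q.1 q.2} ⊆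
      (fun x => ((m q x, idx v (m q x) x) : Idx)) '' cpt v f c q := by
    rintro q hq b ⟨hb, hbq⟩
    obtain ⟨x, hx, h⟩ := hBq b hb q hq hbq
    exact ⟨x, hx, h.symm⟩
  have hIs : IsBig v nn I P f c tB B := by
    refine ⟨?_, ?_, fun q hq => ((hXf q hq).image _).subset (hBf q hq), fun q hq x hx =>
      ⟨_, ⟨q, hq, x, hx, rfl⟩, m5 q hq x hx, m3 q hq x hx⟩⟩
    · rintro b ⟨q, hq, x, hx, rfl⟩
      exact ⟨q, hq, m3 q hq x hx, m1 q hq x hx, m2 q hq x hx, x, hx, m5 q hq x hx⟩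
    · rintro b ⟨q, hq, x, hx, rfl⟩ b' ⟨q', hq', x', hx', rfl⟩ hne
      by_cases hqq : q = q'
      · subst hqq
        have hxx : x ≠ x' := fun h => hne (by rw [h])
        exact (hρd q hq x hx x' hx' hxx).mono (m4 q hq x hx) (m4 q hq x' hx')
      · exact (hI.disj q hq.1 q' hq'.1 hqq).mono (m3 q hq x hx)
          ((m3 q' hq' x' hx').trans dyo_sub_dyc)
  -- the tolerance of a big cell
  have hqB : ∀ b ∈ B, ∃ q ∈ I \ P, dyc v b.1 b.2 ⊆ dyo v q.1 q.2 := fun b hb => by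
    obtain ⟨q, hq, h, -⟩ := hIs.cell b hb
    exact ⟨q, hq, h⟩
  choose! Q hQ hQs using hqB
  have hQe : ∀ b ∈ B, ∀ q ∈ I \ P, dyc v b.1 b.2 ⊆ dyc v q.1 q.2 → Q b = q := fun b hb q hq h =>
    part_eq hI (hQ b hb).1 hq.1 (hQs b hb) h
  -- no centres
  have hoff : ∀ q ∈ I \ P, ∀ x ∈ dyc v q.1 q.2, (∀ b ∈ B, x ∉ dyo v b.1 b.2) → ∀ i,
      f x ≠ c i := by
    intro q hq x hx hxb i hi
    obtain ⟨b, hb, h1, -⟩ := hIs.cen q hq x ⟨hx, i, hi⟩
    exact hxb b hb h1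
  have hsqb : ∀ s, MinSq v I s → ∀ x ∈ squ v s, ∀ b ∈ B, x ∉ dyo v b.1 b.2 := by
    intro s hs x hx b hb hxb
    exact Set.disjoint_left.1 (minSq_disj hI (hQ b hb).1 hs) hx (hQs b hb (dyo_sub_dyc hxb))
  have hfab : ∀ b ∈ B, ∀ j τ, ∀ x ∈ squ v (faceP b j τ), ∀ b' ∈ B, x ∉ dyo v b'.1 b'.2 := by
    intro b hb j τ x hx b' hb' hxb
    by_cases h : b = b'
    · subst h
      exact Set.disjoint_left.1 (face_disj (faceOf_faceP b j τ)) hx hxb
    · exact Set.disjoint_left.1 (hIs.disj b hb b' hb' h) (faceP_sub b j τ hx) (dyo_sub_dyc hxb)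
  -- the clause for a compact set without centres
  have husc : ∀ q ∈ I \ P, ∀ K ⊆ dyc v q.1 q.2, IsCompact K →
      (∀ x ∈ K, ∀ b ∈ B, x ∉ dyo v b.1 b.2) →
      UpperSemicontinuousOn (fun x => wgt z σ c (f x) ^ p) K ∧
        ∃ C : ℝ≥0∞, C ≠ ⊤ ∧ ∀ x ∈ K, wgt z σ c (f x) ^ p ≤ C := by
    intro q hq K hKq hK hKb
    have hne : ∀ x ∈ K, ∀ i, f x ≠ c i := fun x hx => hoff q hq x (hKq hx) (hKb x hx)
    exact ⟨wgt_usc W hp (D.cont q hq) hKq (fun x hx => D.maps q hq (hKq hx)) hne,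
      exists_bound hp W (D.cont q hq) (D.maps q hq) hK hKq hne⟩
  have hsquare : ∀ q ∈ I \ P, ∀ s : Idx × Fin 3, squ v s ⊆ dyc v q.1 q.2 →
      (∀ x ∈ squ v s, ∀ b ∈ B, x ∉ dyo v b.1 b.2) → sInt v s H ≠ ⊤ ∧
      ∀ k, k ≠ s.2 → ∀ δ : ℝ≥0∞, δ ≠ 0 → ∀ᶠ l in atTop,
        fSum v s (nn l) k H ≤ sInt v s H + δ := by
    intro q hq s hsq hsb
    obtain ⟨G', hG1, hG2, hG3, hG4⟩ := D.gen q hq
    obtain ⟨hu, C, hCt, hC⟩ := husc q hq (squ v s) hsq (isCompact_squ v s) hsb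
    have hHs : ∀ x ∈ squ v s, H x = (squ v s).indicator (fun x => wgt z σ c (f x) ^ p) x * G' x := by
      intro x hx
      rw [indicator_of_mem hx, ← hG4 x (hsq hx)]
      rfl
    constructor
    · have h1 : sInt v s H ≤ C * sInt v s G' := by
        refine le_trans (sInt_mono (A' := fun x => C * G' x) fun x hx => ?_)
          (sInt_le_mul hCt fun _ _ => le_rfl)
        rw [hHs x hx, indicator_of_mem hx]
        exact mul_le_mul' (hC x hx) le_rfl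
      exact ne_top_of_le_ne_top (ENNReal.mul_ne_top hCt (hG2.sfin s)) h1
    · intro k hk δ hδ
      have h1 := usc_square hnn hG1 hG2 (s := s) (isCompact_squ v s).isClosed hu hCt hC
        (A := H) (fun x hx => (hHs x hx).le) hk hδ
      rwa [← sInt_congr hHs] at h1
  refine ⟨B, hIs, fun th => ?_⟩
  have hε2 : ∀ q, ε q / 2 ≠ 0 := fun q => (ENNReal.half_pos (hε q)).ne'
  obtain ⟨n, hBig, hn, hng, h1, h2, h3⟩ := mesh_loc gr (H := H) (ε := fun q => ε q / 2)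
    (β := fun b => β (Q b)) (a := fun q => ∫⁻ x in dyc v q.1 q.2, H x) (th := th) hΩ hI hP hnn
    hε2 hgr (fun b hb => ⟨Q b, hQ b hb, hQs b hb⟩) hIs.disj hIs.fin
    (by
      intro q hq k δ hδ
      obtain ⟨G', hG1, hG2, hG3, hG4⟩ := D.gen q hq
      set K := dyc v q.1 q.2 \ ⋃ b ∈ B, dyo v b.1 b.2 with hK
      have hKc : IsCompact K := (isCompact_dyc v _ _).diff
        (isOpen_biUnion fun b _ => isOpen_dyo v _ _)
      have hKb : ∀ x ∈ K, ∀ b ∈ B, x ∉ dyo v b.1 b.2 := by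
        intro x hx b hb hxb
        exact hx.2 (mem_biUnion hb hxb)
      obtain ⟨hu, C, hCt, hC⟩ := husc q hq K Set.sdiff_subset hKc hKb
      have h4 := usc_cube hnn hG1 hG2 hG3 hKc.isClosed hu hCt hC (A := offB v B H)
        (by
          intro x hx
          by_cases hxb : x ∈ ⋃ b ∈ B, dyo v b.1 b.2
          · have : offB v B H x = 0 := indicator_of_notMem
              (show x ∉ (⋃ b ∈ B, dyo v b.1 b.2)ᶜ from fun h => h hxb) H
            rw [this]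
            exact zero_le
          · have hxK : x ∈ K := ⟨hx, hxb⟩
            rw [indicator_of_mem hxK, ← hG4 x hx]
            exact offB_le v B H x) k hδ
      filter_upwards [h4] with l hl
      refine hl.trans ?_
      gcongr 1
      refine setLIntegral_mono' (measurableSet_dyc v _ _) fun x hx => ?_
      rw [← hG4 x hx]
      exact mul_le_mul' (indicator_le_self _ _ x) le_rfl)
    (fun q hq s hs => (hsquare q hq s hs.2 (hsqb s hs.1)).1)
    (fun q hq s hs => (hsquare q hq s hs.2 (hsqb s hs.1)).2)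
    (fun b hb j τ => (hsquare (Q b) (hQ b hb) (faceP b j τ)
      ((faceP_sub b j τ).trans ((hQs b hb).trans dyo_sub_dyc)) (hfab b hb j τ)).2)
    (fun b hb => by
      obtain ⟨x, hx, h⟩ := hBq b hb (Q b) (hQ b hb) ((hQs b hb).trans dyo_sub_dyc)
      have h4 := m6 (Q b) (hQ b hb) x hx
      have e : m (Q b) x = b.1 := (congrArg Prod.fst h).symm
      rwa [← h, e] at h4)
  refine ⟨n, hBig, hn, hng, fun q hq => ?_, fun q hq => ?_⟩
  · -- the fine cells and the big cells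
    set S₁ : Set Idx := {i | i ∈ refine v I P B n ∧ i ∉ P ∧ i ∉ B ∧
      dyc v i.1 i.2 ⊆ dyc v q.1 q.2} with hS₁
    set S₂ : Set Idx := {b | b ∈ B ∧ dyc v b.1 b.2 ⊆ dyc v q.1 q.2} with hS₂
    have hsub : {i : Idx | i ∈ refine v I P B n ∧ i ∉ P ∧ dyc v i.1 i.2 ⊆ dyc v q.1 q.2} ⊆
        S₁ ∪ S₂ := by
      rintro i ⟨h4, h5, h6⟩
      by_cases hiB : i ∈ B
      · exact Or.inr ⟨hiB, h6⟩
      · exact Or.inl ⟨h4, h5, hiB, h6⟩
    have h4 := (ENNReal.tsum_mono_subtype (fun i => cellT v (refine v I P B n) univ H i)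
      hsub).trans (ENNReal.tsum_union_le (fun i => cellT v (refine v I P B n) univ H i) S₁ S₂)
    refine h4.trans ?_
    have hSf := hIs.fin q hq
    have h5 : ∑' i : S₂, cellT v (refine v I P B n) univ H i.1 ≤ ε q / 2 := by
      have h6 : ∑' i : S₂, cellT v (refine v I P B n) univ H i.1 =
          ∑ b ∈ hSf.toFinset, cellT v (refine v I P B n) univ H b := by
        rw [← Finset.tsum_subtype' hSf.toFinset
          (fun b => cellT v (refine v I P B n) univ H b), hSf.coe_toFinset]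
      rw [h6]
      calc ∑ b ∈ hSf.toFinset, cellT v (refine v I P B n) univ H b
          ≤ ∑ _b ∈ hSf.toFinset, 36 * β q := by
            refine Finset.sum_le_sum fun b hb => ?_
            rw [Finite.mem_toFinset] at hb
            have h7 := h2 b hb.1
            rwa [hQe b hb.1 q hq hb.2] at h7
        _ = 36 * (hSf.toFinset.card * β q) := by
            rw [Finset.sum_const, nsmul_eq_mul]
            ring
        _ ≤ ε q / 2 := by
            refine hβs q hq _ ?_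
            rw [← Set.ncard_eq_toFinset_card _ hSf]
            refine (Set.ncard_le_ncard (hBf q hq) ((hXf q hq).image _)).trans ?_
            exact Set.ncard_image_le (hXf q hq)
    calc (∑' i : S₁, cellT v (refine v I P B n) univ H i.1) +
          ∑' i : S₂, cellT v (refine v I P B n) univ H i.1
        ≤ (36 * (∫⁻ x in dyc v q.1 q.2, H x) + ε q / 2) + ε q / 2 :=
          add_le_add (h1 q hq) h5
      _ = _ := by rw [add_assoc, ENNReal.add_halves]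
  · refine (h3 q hq).trans ?_
    gcongr
    exact ENNReal.half_le_self

end

end Vale.Agent.P073.H194
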