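import Vale.Agent.P073.H194.MeshMain
import Vale.Agent.P073.H193.Class

/-!
# P073, block A03-MESH: the theorem
-/

namespace Vale.Agent.P073.H194

open Vale.Agent.P073.H193

theorem cls1 : CL1 := by
  intro Ω v I P B n hΩ hI hB hN q hq i hi hiP hiB hiq F hF hFi
  rcases cl1 hΩ hI hB hN hq hi hiP hiB hiq hF hFi with h | ⟨h1, r, hr, hrq, h2, s, h3, h4, h5⟩
  · exact Or.inl h
  · exact Or.inr ⟨h1, r, hr, hrq, h2, s, h3, h4.symm, h5⟩

theorem cls2 : CL2 := by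
  intro Ω v I P B n hΩ hI hB hN b hb q hq hbq F hF hFb
  obtain ⟨h1, s, h2, h3, h4⟩ := cl2 hΩ hI hB hq hb hbq hF hFb
  exact ⟨h1, s, h2, h3.symm, h4⟩

theorem cls3 : CL3 := by
  intro Ω v I P B n hΩ hI hB hN p hp F hF hFp hFr
  obtain ⟨r, hr, h1, s, h2, h3, h4⟩ := cl3 hΩ hI hB hN hp hF hFp hFr
  exact ⟨r, hr, h1, s, h2, h3.symm, h4⟩

theorem cls4 : CL4 := by
  intro Ω v I hΩ hI s hs a ha b hb c hc hsa hsb hsc
  rcases cl4 hΩ hI hs ha hb hc hsa hsb hsc with h | h | h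
  · exact Or.inl h
  · exact Or.inr (Or.inr h)
  · exact Or.inr (Or.inl h)

/-- **(MESH)** -/
theorem specMesh : SpecMesh := specMesh_of cls1 cls2 cls3 cls4

end Vale.Agent.P073.H194
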