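import Vale.Agent.P073.H194.PreMesh2
import Vale.Agent.P073.H340.PEspec

/-!
# P073, [PRE-2], [E8]
-/

namespace Vale.Agent.P073.H194

/-- **[E8]** -/
theorem specMeshIn2 (p : ℝ) : H340.SpecMeshIn2 p := by
  intro θ M κ' m₁ n k₁ k₀ mt m' Ω Λ g f G v nn J A L H c hΛ hf hnn hGm hfin hG hB hF haff h1 h2
    hmid hgood
  exact meshIn_of2 hΛ hf hnn hGm hfin hG hB H hF haff h1 h2 hmid hgood

end Vale.Agent.P073.H194
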