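import Vale.Agent.P073.H194.MeshFinal

/-!
# P073, block A03-MESH: local form of the choice of the fine generations
-/

namespace Vale.Agent.P073.H194

open MeasureTheory Set Filter Topology Metric Vale.Agent.P073.St
open Vale.Agent.P073.SQ (ev)
open Vale.Agent.P073.AB Vale.Agent.P073.AB.P86
open P073.Net (dyc dyo)
open scoped ENNReal

section

variable {Ω : Set V} {v : V} {I P B : Set Idx} {n : Idx → ℕ} {H : V → ℝ≥0∞}

/-- kept cells, only the squares on the divided neighbours -/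
theorem kept_bound2 (hCL : CL3) (hCL4 : CL4) (hΩ : IsOpen Ω) (hI : Part Ω v I)
    (hB : Big v I P B n) (hN : NbGen v I P n) {p : Idx} (hp : p ∈ P) {SF : Finset (Idx × Fin 3)}
    (hSF : (SF : Set _) = Sq v I p) {t : ℝ≥0∞}
    (h5 : ∀ r ∈ I \ P, r ∈ Nb v I p → ∀ s ∈ Sq v I r, ∀ k, k ≠ s.2 →
      fSum v s (n r) k H ≤ sInt v s H + t) :
    cellT v (refine v I P B n) (⋃ r ∈ I \ P, dyc v r.1 r.2) H p ≤
      4 * (∑' s : {s : Idx × Fin 3 // MinSq v I s ∧ squ v s ⊆ dyc v p.1 p.2 ∧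
          ∃ r ∈ I \ P, squ v s ⊆ dyc v r.1 r.2}, ENNReal.ofReal (1 / 2 ^ p.1) * sInt v s.1 H) +
      ENNReal.ofReal (1 / 2 ^ p.1) * (4 * (SF.card * t)) := by
  classical
  have hpI : p ∈ I := hB.sub hp
  rw [cellT_eq, ENNReal.tsum_mul_left]
  -- the generation on the other side
  let N : Idx × Fin 3 → ℕ := fun s =>
    if h : ∃ r, r ∈ I \ P ∧ squ v s ⊆ dyc v r.1 r.2 then n h.choose else 0
  have hNs : ∀ s ∈ Sq v I p, ∀ r ∈ I \ P, squ v s ⊆ dyc v r.1 r.2 → N s = n r := by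
    intro s hs r hr hsr
    have h : ∃ r, r ∈ I \ P ∧ squ v s ⊆ dyc v r.1 r.2 := ⟨r, hr, hsr⟩
    have h1 := h.choose_spec
    show (if h : ∃ r, r ∈ I \ P ∧ squ v s ⊆ dyc v r.1 r.2 then n h.choose else 0) = n r
    rw [dif_pos h]
    rcases hCL4 Ω v I hΩ hI s hs.1 p hpI r hr.1 h.choose h1.1.1 hs.2 hsr h1.2 with h2 | h2 | h2
    · exact absurd (h2 ▸ hp) hr.2
    · rw [← h2]
    · exact absurd (h2 ▸ hp) h1.1.2
  set SG := SF.filter (fun s => ∃ r, r ∈ I \ P ∧ squ v s ⊆ dyc v r.1 r.2) with hSG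
  have h1 : ∑' F : {F : Idx × Fin 3 | MinSq v (refine v I P B n) F ∧
      squ v F ⊆ dyc v p.1 p.2 ∧ squ v F ⊆ ⋃ r ∈ I \ P, dyc v r.1 r.2}, gw v H F.1 ≤
      ∑ s ∈ SG, 4 * (sInt v s H + t) := by
    have hsub : {F : Idx × Fin 3 | MinSq v (refine v I P B n) F ∧
        squ v F ⊆ dyc v p.1 p.2 ∧ squ v F ⊆ ⋃ r ∈ I \ P, dyc v r.1 r.2} ⊆
        ⋃ s ∈ SG, {F : Idx × Fin 3 | F.1.1 = N s ∧ F.2 = s.2 ∧ squ v F ⊆ squ v s} := by
      rintro F ⟨hF, hFp, hFu⟩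
      obtain ⟨r, hr, h2, s, hs, h3, h4, h6, h7⟩ := hCL Ω v I P B n hΩ hI hB hN p hp F hF hFp hFu
      have hsS : s ∈ Sq v I p := ⟨hs, h6⟩
      simp only [mem_iUnion]
      refine ⟨s, ?_, ?_, h3, h4⟩
      · rw [hSG, Finset.mem_filter]
        refine ⟨?_, r, hr, h7⟩
        have : s ∈ (SF : Set _) := by rw [hSF]; exact hsS
        exact this
      · rw [h2, hNs s hsS r hr h7]
    refine (ENNReal.tsum_mono_subtype (fun F => gw v H F) hsub).trans ?_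
    refine (ENNReal.tsum_biUnion_le (fun F => gw v H F) _ _).trans ?_
    refine Finset.sum_le_sum fun s hs => ?_
    obtain ⟨hsF, r, hr, hsr⟩ := Finset.mem_filter.1 hs
    have hsS : s ∈ Sq v I p := by rw [← hSF]; exact hsF
    have hsr' : s ∈ Sq v I r := ⟨hsS.1, hsr⟩
    have hNr := hNs s hsS r hr hsr
    refine sum_gw v H s ?_ ?_
    · rw [hNr]
      exact sgen_le hN hr hsr'
    · intro k hk
      rw [hNr]
      exact h5 r hr ⟨hr.1, sc v s, hsr (rel_sub sc_mem), hsS.2 (rel_sub sc_mem)⟩ s hsr' k hk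
  have hSGs : ((SG : Finset (Idx × Fin 3)) : Set (Idx × Fin 3)) = {s | MinSq v I s ∧
      squ v s ⊆ dyc v p.1 p.2 ∧ ∃ r ∈ I \ P, squ v s ⊆ dyc v r.1 r.2} := by
    ext s
    rw [Finset.mem_coe, hSG, Finset.mem_filter]
    constructor
    · rintro ⟨h4, h6⟩
      have h7 : s ∈ Sq v I p := by rw [← hSF]; exact h4
      exact ⟨h7.1, h7.2, h6⟩
    · rintro ⟨h4, h6, h7⟩
      refine ⟨?_, h7⟩
      have : s ∈ (SF : Set _) := by rw [hSF]; exact ⟨h4, h6⟩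
      exact this
  have h3 : ∑' s : {s : Idx × Fin 3 // MinSq v I s ∧ squ v s ⊆ dyc v p.1 p.2 ∧
      ∃ r ∈ I \ P, squ v s ⊆ dyc v r.1 r.2}, ENNReal.ofReal (1 / 2 ^ p.1) * sInt v s.1 H =
      ENNReal.ofReal (1 / 2 ^ p.1) * ∑ s ∈ SG, sInt v s H := by
    rw [ENNReal.tsum_mul_left]
    congr 1
    rw [← Finset.tsum_subtype' SG (fun s => sInt v s H), hSGs]
    rfl
  rw [h3]
  calc ENNReal.ofReal (1 / 2 ^ p.1) * ∑' F : {F : Idx × Fin 3 | MinSq v (refine v I P B n) F ∧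
      squ v F ⊆ dyc v p.1 p.2 ∧ squ v F ⊆ ⋃ r ∈ I \ P, dyc v r.1 r.2}, gw v H F.1
      ≤ ENNReal.ofReal (1 / 2 ^ p.1) * ∑ s ∈ SG, 4 * (sInt v s H + t) := by gcongr
    _ = ENNReal.ofReal (1 / 2 ^ p.1) * (4 * (∑ s ∈ SG, sInt v s H + SG.card * t)) := by
        rw [← Finset.mul_sum, Finset.sum_add_distrib, Finset.sum_const, nsmul_eq_mul]
    _ ≤ ENNReal.ofReal (1 / 2 ^ p.1) * (4 * (∑ s ∈ SG, sInt v s H + SF.card * t)) := by
        gcongr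
        exact Finset.filter_subset _ _
    _ = _ := by ring

end

theorem mesh_clauses (h1 : CL1) (h2 : CL2) (h3 : CL3) (h4 : CL4) {Ω : Set V} {v : V}
    {γ : Type*} (gr : Idx → γ) {I P B : Set Idx} {nn : ℕ → ℕ} {H : V → ℝ≥0∞} {ε β a : Idx → ℝ≥0∞} {th : Idx → ℕ}
    (hΩ : IsOpen Ω) (hI : Part Ω v I) (hP : P ⊆ I) (hnn : StrictMono nn) (hε : ∀ q, ε q ≠ 0)
    (hgr : ∀ a, {q | q ∈ I \ P ∧ gr q = a}.Finite)
    (hB1 : ∀ b ∈ B, ∃ q ∈ I \ P, dyc v b.1 b.2 ⊆ dyo v q.1 q.2)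
    (hBd : ∀ b ∈ B, ∀ b' ∈ B, b ≠ b' → Disjoint (dyc v b.1 b.2) (dyc v b'.1 b'.2))
    (hBf : ∀ q ∈ I \ P, {b | b ∈ B ∧ dyc v b.1 b.2 ⊆ dyc v q.1 q.2}.Finite)
    (gc : ∀ q ∈ I \ P, ∀ (k : Fin 3) (δ : ℝ≥0∞), δ ≠ 0 → ∀ᶠ l in atTop,
      cSum v q (nn l) k H ≤ a q + δ)
    (gf : ∀ q ∈ I \ P, ∀ s ∈ Sq v I q, sInt v s H ≠ ⊤)
    (gs : ∀ q ∈ I \ P, ∀ s ∈ Sq v I q, ∀ k, k ≠ s.2 → ∀ δ : ℝ≥0∞, δ ≠ 0 → ∀ᶠ l in atTop,
      fSum v s (nn l) k H ≤ sInt v s H + δ)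
    (gb : ∀ b ∈ B, ∀ j σ k, k ≠ j → ∀ δ : ℝ≥0∞, δ ≠ 0 → ∀ᶠ l in atTop,
      fSum v (faceP b j σ) (nn l) k H ≤ sInt v (faceP b j σ) H + δ)
    (hβ : ∀ b ∈ B, ENNReal.ofReal (1 / 2 ^ b.1) * bInt v b H < β b) :
    ∃ n : Idx → ℕ, Big v I P B n ∧ (∀ q ∈ I \ P, th q ≤ n q ∧ n q ∈ range nn) ∧
      (∀ q ∈ I \ P, ∀ q' ∈ I \ P, gr q = gr q' → n q = n q') ∧
      (∀ q ∈ I \ P, ∑' i : {i : Idx // i ∈ refine v I P B n ∧ i ∉ P ∧ i ∉ B ∧
          dyc v i.1 i.2 ⊆ dyc v q.1 q.2}, cellT v (refine v I P B n) univ H i.1 ≤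
        36 * a q + ε q) ∧
      (∀ b ∈ B, cellT v (refine v I P B n) univ H b ≤ 36 * β b) ∧
      (∀ q ∈ P, cellT v (refine v I P B n) (⋃ r ∈ I \ P, dyc v r.1 r.2) H q ≤
        36 * (∑' s : {s : Idx × Fin 3 // MinSq v I s ∧ squ v s ⊆ dyc v q.1 q.2 ∧
          ∃ r ∈ I \ P, squ v s ⊆ dyc v r.1 r.2}, ENNReal.ofReal (1 / 2 ^ q.1) * sInt v s.1 H) +
          ε q) := by
  classical
  have hcT : ∀ m : ℕ, ENNReal.ofReal (1 / 2 ^ m) ≠ ⊤ := fun m => ENNReal.ofReal_ne_top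
  -- tolerance at the kept cubes
  have ht1 : ∀ p ∈ P, ∃ t : ℝ≥0∞, t ≠ 0 ∧ ∀ hp : p ∈ I, ENNReal.ofReal (1 / 2 ^ p.1) *
      (4 * (((finite_Sq hI hp).toFinset.card : ℝ≥0∞) * t)) ≤ ε p := by
    intro p hp
    obtain ⟨t, ht0, ht⟩ := exists_pos_of_ev (ev_mul (c := ENNReal.ofReal (1 / 2 ^ p.1) *
      (4 * ((finite_Sq hI (hP hp)).toFinset.card : ℝ≥0∞)))
      (ENNReal.mul_ne_top (hcT _) (ENNReal.mul_ne_top (by norm_num) (ENNReal.natCast_ne_top _)))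
      (hε p))
    refine ⟨t, ht0, fun _ => ?_⟩
    calc _ = ENNReal.ofReal (1 / 2 ^ p.1) *
      (4 * ((finite_Sq hI (hP hp)).toFinset.card : ℝ≥0∞)) * t := by ring
      _ ≤ ε p := ht
  choose! tp htp0 htp using ht1
  have ht2 : ∀ r ∈ I \ P, ∃ t : ℝ≥0∞, t ≠ 0 ∧ t ≤ 1 ∧ ∀ p ∈ P, p ∈ Nb v I r → t ≤ tp p := by
    intro r hr
    have h5 : ∀ᶠ t in 𝓝[>] (0:ℝ≥0∞), t ≤ 1 ∧ ∀ p ∈ Nb v I r, p ∈ P → t ≤ tp p := by
      refine (ev_le one_ne_zero).and ?_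
      rw [eventually_all_finite (finite_Nb hI hr.1)]
      intro p _
      by_cases hp : p ∈ P
      · exact (ev_le (htp0 p hp)).mono fun _ h _ => h
      · exact Eventually.of_forall fun _ h => absurd h hp
    obtain ⟨t, ht0, ht1, ht⟩ := exists_pos_of_ev h5
    exact ⟨t, ht0, ht1, fun p hp hpr => ht p hpr hp⟩
  choose! tol htol0 htol1 htol using ht2
  -- tolerance at the big cells
  have hd1 : ∀ b ∈ B, ∃ δ : ℝ≥0∞, δ ≠ 0 ∧
      ENNReal.ofReal (1 / 2 ^ b.1) * (bInt v b H + 6 * δ) ≤ β b := by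
    intro b hb
    have h5 := hβ b hb
    have h6 : β b - ENNReal.ofReal (1 / 2 ^ b.1) * bInt v b H ≠ 0 := (tsub_pos_of_lt h5).ne'
    obtain ⟨δ, hδ0, hδ⟩ := exists_pos_of_ev (ev_mul (c := ENNReal.ofReal (1 / 2 ^ b.1) * 6)
      (ENNReal.mul_ne_top (hcT _) (by norm_num)) h6)
    refine ⟨δ, hδ0, ?_⟩
    calc ENNReal.ofReal (1 / 2 ^ b.1) * (bInt v b H + 6 * δ) =
        ENNReal.ofReal (1 / 2 ^ b.1) * bInt v b H + ENNReal.ofReal (1 / 2 ^ b.1) * 6 * δ := by ring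
      _ ≤ ENNReal.ofReal (1 / 2 ^ b.1) * bInt v b H +
          (β b - ENNReal.ofReal (1 / 2 ^ b.1) * bInt v b H) := by gcongr
      _ = β b := add_tsub_cancel_of_le h5.le
  choose! δB hδB0 hδB using hd1
  -- the finite sets
  have hNbq : ∀ q ∈ I, ∃ NF : Finset Idx, (NF : Set Idx) = Nb v I q := fun q hq =>
    ⟨(finite_Nb hI hq).toFinset, (finite_Nb hI hq).coe_toFinset⟩
  choose! NF hNF using hNbq
  have hSqq : ∀ q ∈ I, ∃ SF : Finset (Idx × Fin 3), (SF : Set _) = Sq v I q := fun q hq =>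
    ⟨(finite_Sq hI hq).toFinset, (finite_Sq hI hq).coe_toFinset⟩
  choose! SF hSF using hSqq
  -- the choice
  let Cond : Idx → ℕ → Prop := fun q m => th q ≤ m ∧ (∀ r ∈ Nb v I q, r.1 ≤ m) ∧
      (∀ b ∈ B, dyc v b.1 b.2 ⊆ dyc v q.1 q.2 → b.1 ≤ m) ∧
      (∀ k, cSum v q m k H ≤ a q + ε q / 2 / 36) ∧
      (∀ s ∈ Sq v I q, ∀ k, k ≠ s.2 → fSum v s m k H ≤ sInt v s H + tol q) ∧
      (∀ b ∈ B, dyc v b.1 b.2 ⊆ dyc v q.1 q.2 → ∀ j σ k, k ≠ j →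
        fSum v (faceP b j σ) m k H ≤ sInt v (faceP b j σ) H + δB b) ∧
      ENNReal.ofReal (1 / 2 ^ m) * (32 * ∑ a ∈ NF q ×ˢ SF q, (sInt v a.2 H + 1)) ≤ ε q / 2
  have main : ∀ q ∈ I \ P, ∀ᶠ l in atTop, Cond q (nn l) := by
    intro q hq
    have htop : Tendsto nn atTop atTop := hnn.tendsto_atTop
    have hqq : q ∈ Nb v I q := ⟨hq.1, cen v q.1 q.2, dyo_sub_dyc (cen_mem _ _ _),
      dyo_sub_dyc (cen_mem _ _ _)⟩
    have hε2 : ε q / 2 ≠ 0 := (ENNReal.div_pos (hε q) (by norm_num)).ne'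
    have hε3 : ε q / 2 / 36 ≠ 0 := (ENNReal.div_pos hε2 (by norm_num)).ne'
    have e1 : ∀ᶠ l in atTop, th q ≤ nn l := htop.eventually_ge_atTop _
    have e2 : ∀ᶠ l in atTop, ∀ r ∈ Nb v I q, r.1 ≤ nn l := by
      rw [eventually_all_finite (finite_Nb hI hq.1)]
      exact fun r _ => htop.eventually_ge_atTop _
    have e3 : ∀ᶠ l in atTop, ∀ b ∈ {b | b ∈ B ∧ dyc v b.1 b.2 ⊆ dyc v q.1 q.2}, b.1 ≤ nn l := by
      rw [eventually_all_finite (hBf q hq)]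
      exact fun r _ => htop.eventually_ge_atTop _
    have e4 : ∀ᶠ l in atTop, ∀ k, cSum v q (nn l) k H ≤ a q + ε q / 2 / 36 := by
      rw [eventually_all]
      exact fun k => gc q hq k _ hε3
    have e5 : ∀ᶠ l in atTop, ∀ s ∈ Sq v I q, ∀ k, k ≠ s.2 →
        fSum v s (nn l) k H ≤ sInt v s H + tol q := by
      rw [eventually_all_finite (finite_Sq hI hq.1)]
      intro s hs
      rw [eventually_all]
      intro k
      by_cases hk : k = s.2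
      · exact Eventually.of_forall fun _ h => absurd hk h
      · exact (gs q hq s hs k hk _ (htol0 q hq)).mono fun _ h _ => h
    have e6 : ∀ᶠ l in atTop, ∀ b ∈ {b | b ∈ B ∧ dyc v b.1 b.2 ⊆ dyc v q.1 q.2}, ∀ j σ k, k ≠ j →
        fSum v (faceP b j σ) (nn l) k H ≤ sInt v (faceP b j σ) H + δB b := by
      rw [eventually_all_finite (hBf q hq)]
      intro b hb
      rw [eventually_all]
      intro j
      rw [eventually_all]
      intro σ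
      rw [eventually_all]
      intro k
      by_cases hk : k = j
      · exact Eventually.of_forall fun _ h => absurd hk h
      · exact (gb b hb.1 j σ k hk _ (hδB0 b hb.1)).mono fun _ h _ => h
    have hK : 32 * ∑ a ∈ NF q ×ˢ SF q, (sInt v a.2 H + 1) ≠ ⊤ := by
      refine ENNReal.mul_ne_top (by norm_num) ((ENNReal.sum_lt_top).2 fun a ha => ?_).ne
      have ha2 : a.2 ∈ Sq v I q := by
        rw [← hSF q hq.1]
        exact (Finset.mem_product.1 ha).2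
      exact ENNReal.add_lt_top.2 ⟨(gf q hq _ ha2).lt_top, ENNReal.one_lt_top⟩
    have e7 : ∀ᶠ l in atTop, ENNReal.ofReal (1 / 2 ^ nn l) *
        (32 * ∑ a ∈ NF q ×ˢ SF q, (sInt v a.2 H + 1)) ≤ ε q / 2 := by
      have h5 : Tendsto (fun m : ℕ => ENNReal.ofReal (1 / 2 ^ m)) atTop (𝓝 0) := by
        have h6 : Tendsto (fun m : ℕ => (1 / 2 ^ m : ℝ)) atTop (𝓝 0) := by
          simpa [one_div, inv_pow] using
            tendsto_pow_atTop_nhds_zero_of_lt_one (r := (1/2 : ℝ)) (by norm_num) (by norm_num)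
        simpa using ENNReal.tendsto_ofReal h6
      have h7 : Tendsto (fun l => ENNReal.ofReal (1 / 2 ^ nn l) *
          (32 * ∑ a ∈ NF q ×ˢ SF q, (sInt v a.2 H + 1))) atTop (𝓝 (0 *
          (32 * ∑ a ∈ NF q ×ˢ SF q, (sInt v a.2 H + 1)))) :=
        ENNReal.Tendsto.mul_const (h5.comp htop) (Or.inr hK)
      rw [zero_mul] at h7
      exact (h7.eventually_lt_const (pos_iff_ne_zero.2 hε2)).mono fun _ h => h.le
    refine (e1.and (e2.and (e3.and (e4.and (e5.and (e6.and e7)))))).mono ?_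
    rintro l ⟨l1, l2, l3, l4, l5, l6, l7⟩
    exact ⟨l1, l2, fun b hb hbq => l3 b ⟨hb, hbq⟩, l4, l5, fun b hb hbq j σ k hk =>
      l6 b ⟨hb, hbq⟩ j σ k hk, l7⟩
  have main2 : ∀ a, ∃ l, ∀ q ∈ {q | q ∈ I \ P ∧ gr q = a}, Cond q (nn l) := by
    intro a
    have h5 : ∀ᶠ l in atTop, ∀ q ∈ {q | q ∈ I \ P ∧ gr q = a}, Cond q (nn l) := by
      rw [eventually_all_finite (hgr a)]
      exact fun q hq => main q hq.1
    exact h5.exists
  choose L hL using main2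
  have main3 : ∀ q ∈ I \ P, ∃ m : ℕ, m = nn (L (gr q)) ∧ Cond q m := fun q hq =>
    ⟨_, rfl, hL (gr q) q ⟨hq, rfl⟩⟩
  choose! n n1 n2 n3 n4 n5 n6 n7 n8 using main3
  have hBig : Big v I P B n := by
    refine ⟨hP, fun q hq => n3 q hq q ⟨hq.1, cen v q.1 q.2, dyo_sub_dyc (cen_mem _ _ _),
      dyo_sub_dyc (cen_mem _ _ _)⟩, fun b hb => ?_, hBd⟩
    obtain ⟨q, hq, hbq⟩ := hB1 b hb
    exact ⟨q, hq, hbq, n4 q hq b hb (hbq.trans dyo_sub_dyc)⟩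
  have hNG : NbGen v I P n := fun q hq r hr hrq => n3 q hq r ⟨hr, hrq⟩
  refine ⟨n, hBig, fun q hq => ⟨n2 q hq, by rw [n1 q hq]; exact mem_range_self _⟩,
    fun q hq q' hq' h => by rw [n1 q hq, n1 q' hq', h], fun q hq => ?_, fun b hb => ?_,
    fun p hp => ?_⟩
  · refine (fine_bound h1 hΩ hI hBig hNG hq (hNF q hq.1) (hSF q hq.1)
      (fun r hr s hs k hk => (n6 r hr s hs k hk).trans (by gcongr; exact htol1 r hr))).trans ?_
    calc 12 * ∑ k, cSum v q (n q) k H +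
          ENNReal.ofReal (1 / 2 ^ n q) * (32 * ∑ a ∈ NF q ×ˢ SF q, (sInt v a.2 H + 1))
        ≤ 12 * ∑ _k : Fin 3, (a q + ε q / 2 / 36) + ε q / 2 := by
          gcongr with k
          · exact n5 q hq k
          · exact n8 q hq
      _ = 36 * a q + (36 * (ε q / 2 / 36) + ε q / 2) := by
          rw [Finset.sum_const, Finset.card_univ, Fintype.card_fin, nsmul_eq_mul]
          push_cast
          ring
      _ = 36 * a q + ε q := by
          rw [ENNReal.mul_div_cancel (by norm_num) (by norm_num), ENNReal.add_halves]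
  · obtain ⟨q, hq, hbq⟩ := hB1 b hb
    have hbq' := hbq.trans dyo_sub_dyc
    refine (big_bound h2 hΩ hI hBig hNG hb hq hbq (n4 q hq b hb hbq')
      (fun j σ k hk => n7 q hq b hb hbq' j σ k hk)).trans ?_
    calc 4 * (ENNReal.ofReal (1 / 2 ^ b.1) * (bInt v b H + 6 * δB b)) ≤ 4 * β b := by
          gcongr
          exact hδB b hb
      _ ≤ 36 * β b := by gcongr; norm_num
  · have hpI := hP hp
    refine (kept_bound2 h3 h4 hΩ hI hBig hNG hp (SF := (finite_Sq hI hpI).toFinset)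
      (finite_Sq hI hpI).coe_toFinset (t := tp p) (fun r hr hrp s hs k hk =>
        (n6 r hr s hs k hk).trans ?_)).trans ?_
    · have hpr : p ∈ Nb v I r := by
        obtain ⟨hr1, x, hx1, hx2⟩ := hrp
        exact ⟨hpI, x, hx2, hx1⟩
      gcongr
      exact htol r hr p hp hpr
    · refine add_le_add ?_ (htp p hp hpI)
      gcongr
      norm_num

/-! ## The function outside of the big cells -/

/-- `H` outside of the open big cells -/
noncomputable def offB (v : V) (B : Set Idx) (H : V → ℝ≥0∞) : V → ℝ≥0∞ :=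
  (⋃ b ∈ B, dyo v b.1 b.2)ᶜ.indicator H

theorem offB_le (v : V) (B : Set Idx) (H : V → ℝ≥0∞) (x : V) : offB v B H x ≤ H x :=
  indicator_le_self _ _ x

theorem offB_eq {v : V} {B : Set Idx} (H : V → ℝ≥0∞) {x : V}
    (h : ∀ b ∈ B, x ∉ dyo v b.1 b.2) : offB v B H x = H x := by
  refine indicator_of_mem ?_ _
  simp only [mem_compl_iff, mem_iUnion, not_exists]
  exact fun b hb => h b hb

theorem face_disj {v : V} {F : Idx × Fin 3} {i : Idx} (h : FaceOf F i) :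
    Disjoint (squ v F) (dyo v i.1 i.2) := by
  rw [Set.disjoint_left]
  intro x hx hxi
  obtain ⟨hF1, hF2, hF3⟩ := h
  obtain ⟨hx1, -⟩ := hx
  obtain ⟨h1, h2⟩ := hxi F.2
  rw [hF1] at hx1
  have hp : (0:ℝ) < 2 ^ i.1 := by positivity
  rcases hF2 with h3 | h3
  · rw [h3] at hx1
    linarith
  · rw [h3] at hx1
    push_cast at hx1
    linarith

theorem minSq_disj {Ω : Set V} {v : V} {I : Set Idx} (hI : Part Ω v I) {q : Idx} (hq : q ∈ I)
    {F : Idx × Fin 3} (hF : MinSq v I F) : Disjoint (squ v F) (dyo v q.1 q.2) := by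
  obtain ⟨⟨c, hc, hFc⟩, -⟩ := hF
  by_cases h : q = c
  · subst h
    exact face_disj hFc
  · exact ((hI.disj q hq c hc h).mono_right (face_sub hFc)).symm

theorem edgeOfSq_mem {v : V} {e F : Idx × Fin 3} (h : EdgeOfSq e F) {t : ℝ}
    (ht : t ∈ Icc (0:ℝ) 1) : pt v e.1.1 e.1.2 + t • ((1 / 2 ^ e.1.1 : ℝ) • ev e.2) ∈ squ v F := by
  obtain ⟨h1, h2, h3, h4, h5⟩ := h
  have hp : (0:ℝ) < 2 ^ F.1.1 := by positivity
  refine ⟨?_, fun l hl => ?_⟩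
  · rw [edge_pt_apply, if_neg (Ne.symm h2), add_zero, h1, h4]
  · rw [edge_pt_apply, h1]
    have key : ∀ a b c w : ℝ, a ≤ b → b ≤ c → w + a / 2 ^ F.1.1 ≤ w + b / 2 ^ F.1.1 ∧
        w + b / 2 ^ F.1.1 ≤ w + c / 2 ^ F.1.1 := fun a b c w h6 h7 =>
      ⟨add_le_add le_rfl (div_le_div_of_nonneg_right h6 hp.le),
        add_le_add le_rfl (div_le_div_of_nonneg_right h7 hp.le)⟩
    by_cases hle : l = e.2
    · subst hle
      rw [if_pos rfl, h3]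
      exact key _ _ _ _ (by linarith [ht.1]) (by linarith [ht.2])
    · rw [if_neg hle, add_zero]
      rcases h5 l hle hl with h6 | h6
      · rw [h6]
        exact key _ _ _ _ le_rfl (by linarith)
      · rw [h6]
        push_cast
        exact key _ _ _ _ (by linarith) le_rfl

theorem cellT_congr {v : V} {I : Set Idx} {A : Set V} {H H' : V → ℝ≥0∞} {i : Idx}
    (h : ∀ F, MinSq v I F → squ v F ⊆ dyc v i.1 i.2 → ∀ x ∈ squ v F, H x = H' x) :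
    cellT v I A H i = cellT v I A H' i := by
  unfold cellT
  refine tsum_congr fun F => tsum_congr fun e => ?_
  rw [eInt_congr fun t ht => h F.1 F.2.1 F.2.2.1 _ (edgeOfSq_mem e.2 ht)]

/-- **(MESH), local form**: only the clauses outside of the open big cells are used. -/
theorem mesh_loc {Ω : Set V} {v : V} {γ : Type*} (gr : Idx → γ)
    {I P B : Set Idx} {nn : ℕ → ℕ} {H : V → ℝ≥0∞} {ε β a : Idx → ℝ≥0∞} {th : Idx → ℕ}
    (hΩ : IsOpen Ω) (hI : Part Ω v I) (hP : P ⊆ I) (hnn : StrictMono nn) (hε : ∀ q, ε q ≠ 0)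
    (hgr : ∀ a, {q | q ∈ I \ P ∧ gr q = a}.Finite)
    (hB1 : ∀ b ∈ B, ∃ q ∈ I \ P, dyc v b.1 b.2 ⊆ dyo v q.1 q.2)
    (hBd : ∀ b ∈ B, ∀ b' ∈ B, b ≠ b' → Disjoint (dyc v b.1 b.2) (dyc v b'.1 b'.2))
    (hBf : ∀ q ∈ I \ P, {b | b ∈ B ∧ dyc v b.1 b.2 ⊆ dyc v q.1 q.2}.Finite)
    (gc : ∀ q ∈ I \ P, ∀ (k : Fin 3) (δ : ℝ≥0∞), δ ≠ 0 → ∀ᶠ l in atTop,
      cSum v q (nn l) k (offB v B H) ≤ a q + δ)
    (gf : ∀ q ∈ I \ P, ∀ s ∈ Sq v I q, sInt v s H ≠ ⊤)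
    (gs : ∀ q ∈ I \ P, ∀ s ∈ Sq v I q, ∀ k, k ≠ s.2 → ∀ δ : ℝ≥0∞, δ ≠ 0 → ∀ᶠ l in atTop,
      fSum v s (nn l) k H ≤ sInt v s H + δ)
    (gb : ∀ b ∈ B, ∀ j σ k, k ≠ j → ∀ δ : ℝ≥0∞, δ ≠ 0 → ∀ᶠ l in atTop,
      fSum v (faceP b j σ) (nn l) k H ≤ sInt v (faceP b j σ) H + δ)
    (hβ : ∀ b ∈ B, ENNReal.ofReal (1 / 2 ^ b.1) * bInt v b H < β b) :
    ∃ n : Idx → ℕ, Big v I P B n ∧ (∀ q ∈ I \ P, th q ≤ n q ∧ n q ∈ range nn) ∧
      (∀ q ∈ I \ P, ∀ q' ∈ I \ P, gr q = gr q' → n q = n q') ∧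
      (∀ q ∈ I \ P, ∑' i : {i : Idx // i ∈ refine v I P B n ∧ i ∉ P ∧ i ∉ B ∧
          dyc v i.1 i.2 ⊆ dyc v q.1 q.2}, cellT v (refine v I P B n) univ H i.1 ≤
        36 * a q + ε q) ∧
      (∀ b ∈ B, cellT v (refine v I P B n) univ H b ≤ 36 * β b) ∧
      (∀ q ∈ P, cellT v (refine v I P B n) (⋃ r ∈ I \ P, dyc v r.1 r.2) H q ≤
        36 * (∑' s : {s : Idx × Fin 3 // MinSq v I s ∧ squ v s ⊆ dyc v q.1 q.2 ∧
          ∃ r ∈ I \ P, squ v s ⊆ dyc v r.1 r.2}, ENNReal.ofReal (1 / 2 ^ q.1) * sInt v s.1 H) +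
          ε q) := by
  -- `H` and `offB` agree on the squares
  have hsq : ∀ s, MinSq v I s → ∀ x ∈ squ v s, offB v B H x = H x := by
    intro s hs x hx
    refine offB_eq H fun b hb hxb => ?_
    obtain ⟨q, hq, hbq⟩ := hB1 b hb
    exact Set.disjoint_left.1 (minSq_disj hI hq.1 hs) hx (hbq (dyo_sub_dyc hxb))
  have hbf : ∀ b ∈ B, ∀ j σ, ∀ x ∈ squ v (faceP b j σ), offB v B H x = H x := by
    intro b hb j σ x hx
    refine offB_eq H fun b' hb' hxb => ?_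
    by_cases h : b = b'
    · subst h
      exact Set.disjoint_left.1 (face_disj (faceOf_faceP b j σ)) hx hxb
    · exact Set.disjoint_left.1 (hBd b hb b' hb' h) (faceP_sub b j σ hx) (dyo_sub_dyc hxb)
  have e3 : ∀ b ∈ B, bInt v b (offB v B H) = bInt v b H := by
    intro b hb
    rw [bInt_eq, bInt_eq]
    exact Finset.sum_congr rfl fun j _ => Finset.sum_congr rfl fun σ _ =>
      sInt_congr (hbf b hb j σ)
  obtain ⟨n, hBig, hn, hng, h1, h2, h3⟩ := mesh_clauses cls1 cls2 cls3 cls4 gr (H := offB v B H)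
    (ε := ε) (β := β) (a := a) (th := th) hΩ hI hP hnn hε hgr hB1 hBd hBf gc
    (fun q hq s hs => by rw [sInt_congr (hsq s hs.1)]; exact gf q hq s hs)
    (fun q hq s hs k hk δ hδ => by
      refine ((gs q hq s hs k hk δ hδ).and (hnn.tendsto_atTop.eventually_ge_atTop s.1.1)).mono ?_
      rintro l ⟨hl, hl2⟩
      rw [sInt_congr (hsq s hs.1), fSum_congr hk hl2 (hsq s hs.1)]
      exact hl)
    (fun b hb j σ k hk δ hδ => by
      refine ((gb b hb j σ k hk δ hδ).and (hnn.tendsto_atTop.eventually_ge_atTop b.1)).mono ?_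
      rintro l ⟨hl, hl2⟩
      rw [sInt_congr (hbf b hb j σ), fSum_congr (s := faceP b j σ) hk hl2 (hbf b hb j σ)]
      exact hl)
    (fun b hb => by rw [e3 b hb]; exact hβ b hb)
  have hPart : Part Ω v (refine v I P B n) := _root_.Vale.Agent.P073.H193.specRefine Ω v I P B n hΩ hI hBig
  have hcell : ∀ (A : Set V) (i : Idx), cellT v (refine v I P B n) A (offB v B H) i =
      cellT v (refine v I P B n) A H i := by
    intro A i
    refine cellT_congr fun F hF _ x hx => offB_eq H fun b hb hxb => ?_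
    exact Set.disjoint_left.1 (minSq_disj hPart (Or.inl (Or.inr hb)) hF) hx hxb
  refine ⟨n, hBig, hn, hng, fun q hq => ?_, fun b hb => ?_, fun q hq => ?_⟩
  · have := h1 q hq
    simpa only [hcell] using this
  · rw [← hcell]
    exact h2 b hb
  · rw [← hcell]
    refine (h3 q hq).trans (le_of_eq ?_)
    congr 2
    exact tsum_congr fun s => by rw [sInt_congr (hsq s.1 s.2.1)]

end Vale.Agent.P073.H194
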