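import Vale.Agent.P073.H194.Mesh

/-!
# P073, block A03-MESH: the choice of the fine generations
-/

namespace Vale.Agent.P073.H194

open MeasureTheory Set Filter Topology Metric Vale.Agent.P073.St
open Vale.Agent.P073.SQ (ev)
open Vale.Agent.P073.AB Vale.Agent.P073.AB.P86
open P073.Net (dyc dyo)
open scoped ENNReal

theorem ev_mul {c e : ℝ≥0∞} (hc : c ≠ ⊤) (he : e ≠ 0) : ∀ᶠ t in 𝓝[>] (0:ℝ≥0∞), c * t ≤ e := by
  have h1 : Tendsto (fun t : ℝ≥0∞ => c * t) (𝓝 0) (𝓝 (c * 0)) :=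
    ENNReal.Tendsto.const_mul tendsto_id (Or.inr hc)
  rw [mul_zero] at h1
  have h2 : ∀ᶠ t in 𝓝 (0:ℝ≥0∞), c * t < e := h1.eventually_lt_const (pos_iff_ne_zero.2 he)
  exact (h2.filter_mono nhdsWithin_le_nhds).mono fun _ h => h.le

theorem ev_le {e : ℝ≥0∞} (he : e ≠ 0) : ∀ᶠ t in 𝓝[>] (0:ℝ≥0∞), t ≤ e :=
  (ev_mul ENNReal.one_ne_top he).mono fun _ h => by rwa [one_mul] at h

theorem exists_pos_of_ev {p : ℝ≥0∞ → Prop} (h : ∀ᶠ t in 𝓝[>] (0:ℝ≥0∞), p t) :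
    ∃ t, t ≠ 0 ∧ p t := by
  obtain ⟨t, ht, ht0⟩ := (h.and self_mem_nhdsWithin).exists
  exact ⟨t, (ht0 : 0 < t).ne', ht⟩

theorem specMesh_of (h1 : CL1) (h2 : CL2) (h3 : CL3) (h4 : CL4) : SpecMesh := by
  classical
  refine ⟨36, by norm_num, ?_⟩
  intro Ω v I P B nn H ε β th hΩ hI hP hnn hε hB1 hBd hBf hgen hβ
  have hcT : ∀ m : ℕ, ENNReal.ofReal (1 / 2 ^ m) ≠ ⊤ := fun m => ENNReal.ofReal_ne_top
  -- tolerance at the kept cubes
  have ht1 : ∀ p ∈ P, ∃ t : ℝ≥0∞, t ≠ 0 ∧ ∀ hp : p ∈ I, ENNReal.ofReal (1 / 2 ^ p.1) *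
      (4 * (((finite_Sq hI hp).toFinset.card : ℝ≥0∞) * t)) ≤ ε p := by
    intro p hp
    obtain ⟨t, ht0, ht⟩ := exists_pos_of_ev (ev_mul (c := ENNReal.ofReal (1 / 2 ^ p.1) *
      (4 * ((finite_Sq hI (hP hp)).toFinset.card : ℝ≥0∞)))
      (ENNReal.mul_ne_top (hcT _) (ENNReal.mul_ne_top (by norm_num) (ENNReal.natCast_ne_top _)))
      (hε p))
    refine ⟨t, ht0, fun _ => ?_⟩
    calc _ = ENNReal.ofReal (1 / 2 ^ p.1) *
      (4 * ((finite_Sq hI (hP hp)).toFinset.card : ℝ≥0∞)) * t := by ring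
      _ ≤ ε p := ht
  choose! tp htp0 htp using ht1
  have ht2 : ∀ r ∈ I \ P, ∃ t : ℝ≥0∞, t ≠ 0 ∧ t ≤ 1 ∧ ∀ p ∈ P, p ∈ Nb v I r → t ≤ tp p := by
    intro r hr
    have h5 : ∀ᶠ t in 𝓝[>] (0:ℝ≥0∞), t ≤ 1 ∧ ∀ p ∈ Nb v I r, p ∈ P → t ≤ tp p := by
      refine (ev_le one_ne_zero).and ?_
      rw [eventually_all_finite (finite_Nb hI hr.1)]
      intro p _
      by_cases hp : p ∈ P
      · exact (ev_le (htp0 p hp)).mono fun _ h _ => h
      · exact Eventually.of_forall fun _ h => absurd h hp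
    obtain ⟨t, ht0, ht1, ht⟩ := exists_pos_of_ev h5
    exact ⟨t, ht0, ht1, fun p hp hpr => ht p hpr hp⟩
  choose! tol htol0 htol1 htol using ht2
  -- tolerance at the big cells
  have hd1 : ∀ b ∈ B, ∃ δ : ℝ≥0∞, δ ≠ 0 ∧
      ENNReal.ofReal (1 / 2 ^ b.1) * (bInt v b H + 6 * δ) ≤ β b := by
    intro b hb
    have h5 := hβ b hb
    have h6 : β b - ENNReal.ofReal (1 / 2 ^ b.1) * bInt v b H ≠ 0 := (tsub_pos_of_lt h5).ne'
    obtain ⟨δ, hδ0, hδ⟩ := exists_pos_of_ev (ev_mul (c := ENNReal.ofReal (1 / 2 ^ b.1) * 6)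
      (ENNReal.mul_ne_top (hcT _) (by norm_num)) h6)
    refine ⟨δ, hδ0, ?_⟩
    calc ENNReal.ofReal (1 / 2 ^ b.1) * (bInt v b H + 6 * δ) =
        ENNReal.ofReal (1 / 2 ^ b.1) * bInt v b H + ENNReal.ofReal (1 / 2 ^ b.1) * 6 * δ := by ring
      _ ≤ ENNReal.ofReal (1 / 2 ^ b.1) * bInt v b H +
          (β b - ENNReal.ofReal (1 / 2 ^ b.1) * bInt v b H) := by gcongr
      _ = β b := add_tsub_cancel_of_le h5.le
  choose! δB hδB0 hδB using hd1
  -- the finite sets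
  have hNbq : ∀ q ∈ I, ∃ NF : Finset Idx, (NF : Set Idx) = Nb v I q := fun q hq =>
    ⟨(finite_Nb hI hq).toFinset, (finite_Nb hI hq).coe_toFinset⟩
  choose! NF hNF using hNbq
  have hSqq : ∀ q ∈ I, ∃ SF : Finset (Idx × Fin 3), (SF : Set _) = Sq v I q := fun q hq =>
    ⟨(finite_Sq hI hq).toFinset, (finite_Sq hI hq).coe_toFinset⟩
  choose! SF hSF using hSqq
  -- the choice
  have main : ∀ q ∈ I \ P, ∃ m : ℕ, m ∈ range nn ∧ th q ≤ m ∧ (∀ r ∈ Nb v I q, r.1 ≤ m) ∧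
      (∀ b ∈ B, dyc v b.1 b.2 ⊆ dyc v q.1 q.2 → b.1 ≤ m) ∧
      (∀ k, cSum v q m k H ≤ (∫⁻ x in dyc v q.1 q.2, H x) + ε q / 2 / 36) ∧
      (∀ s ∈ Sq v I q, ∀ k, k ≠ s.2 → fSum v s m k H ≤ sInt v s H + tol q) ∧
      (∀ b ∈ B, dyc v b.1 b.2 ⊆ dyc v q.1 q.2 → ∀ j σ k, k ≠ j →
        fSum v (faceP b j σ) m k H ≤ sInt v (faceP b j σ) H + δB b) ∧
      ENNReal.ofReal (1 / 2 ^ m) * (32 * ∑ a ∈ NF q ×ˢ SF q, (sInt v a.2 H + 1)) ≤ ε q / 2 := by
    intro q hq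
    obtain ⟨H', hG, hH'⟩ := hgen q hq.1
    have htop : Tendsto nn atTop atTop := hnn.tendsto_atTop
    have hqq : q ∈ Nb v I q := ⟨hq.1, cen v q.1 q.2, dyo_sub_dyc (cen_mem _ _ _),
      dyo_sub_dyc (cen_mem _ _ _)⟩
    have hε2 : ε q / 2 ≠ 0 := (ENNReal.div_pos (hε q) (by norm_num)).ne'
    have hε3 : ε q / 2 / 36 ≠ 0 := (ENNReal.div_pos hε2 (by norm_num)).ne'
    have e1 : ∀ᶠ l in atTop, th q ≤ nn l := htop.eventually_ge_atTop _
    have e2 : ∀ᶠ l in atTop, ∀ r ∈ Nb v I q, r.1 ≤ nn l := by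
      rw [eventually_all_finite (finite_Nb hI hq.1)]
      exact fun r _ => htop.eventually_ge_atTop _
    have e3 : ∀ᶠ l in atTop, ∀ b ∈ {b | b ∈ B ∧ dyc v b.1 b.2 ⊆ dyc v q.1 q.2}, b.1 ≤ nn l := by
      rw [eventually_all_finite (hBf q hq)]
      exact fun r _ => htop.eventually_ge_atTop _
    have e4 : ∀ᶠ l in atTop, ∀ k, cSum v q (nn l) k H' ≤
        (∫⁻ x in dyc v q.1 q.2, H' x) + ε q / 2 / 36 := by
      rw [eventually_all]
      exact fun k => hG.cube q k _ hε3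
    have e5 : ∀ᶠ l in atTop, ∀ s ∈ Sq v I q, ∀ k, k ≠ s.2 →
        fSum v s (nn l) k H' ≤ sInt v s H' + tol q := by
      rw [eventually_all_finite (finite_Sq hI hq.1)]
      intro s _
      rw [eventually_all]
      intro k
      by_cases hk : k = s.2
      · exact Eventually.of_forall fun _ h => absurd hk h
      · exact (hG.square s k hk _ (htol0 q hq)).mono fun _ h _ => h
    have e6 : ∀ᶠ l in atTop, ∀ b ∈ {b | b ∈ B ∧ dyc v b.1 b.2 ⊆ dyc v q.1 q.2}, ∀ j σ k, k ≠ j →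
        fSum v (faceP b j σ) (nn l) k H' ≤ sInt v (faceP b j σ) H' + δB b := by
      rw [eventually_all_finite (hBf q hq)]
      intro b hb
      rw [eventually_all]
      intro j
      rw [eventually_all]
      intro σ
      rw [eventually_all]
      intro k
      by_cases hk : k = j
      · exact Eventually.of_forall fun _ h => absurd hk h
      · exact (hG.square (faceP b j σ) k hk _ (hδB0 b hb.1)).mono fun _ h _ => h
    have hK : 32 * ∑ a ∈ NF q ×ˢ SF q, (sInt v a.2 H + 1) ≠ ⊤ := by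
      refine ENNReal.mul_ne_top (by norm_num) ((ENNReal.sum_lt_top).2 fun a ha => ?_).ne
      have ha2 : a.2 ∈ Sq v I q := by
        rw [← hSF q hq.1]
        exact (Finset.mem_product.1 ha).2
      rw [sInt_congr (H' := H') fun x hx => hH' x (ha2.2 hx)]
      exact ENNReal.add_lt_top.2 ⟨(hG.sfin _).lt_top, ENNReal.one_lt_top⟩
    have e7 : ∀ᶠ l in atTop, ENNReal.ofReal (1 / 2 ^ nn l) *
        (32 * ∑ a ∈ NF q ×ˢ SF q, (sInt v a.2 H + 1)) ≤ ε q / 2 := by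
      have h5 : Tendsto (fun m : ℕ => ENNReal.ofReal (1 / 2 ^ m)) atTop (𝓝 0) := by
        have h6 : Tendsto (fun m : ℕ => (1 / 2 ^ m : ℝ)) atTop (𝓝 0) := by
          simpa [one_div, inv_pow] using
            tendsto_pow_atTop_nhds_zero_of_lt_one (r := (1/2 : ℝ)) (by norm_num) (by norm_num)
        simpa using ENNReal.tendsto_ofReal h6
      have h7 : Tendsto (fun l => ENNReal.ofReal (1 / 2 ^ nn l) *
          (32 * ∑ a ∈ NF q ×ˢ SF q, (sInt v a.2 H + 1))) atTop (𝓝 (0 *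
          (32 * ∑ a ∈ NF q ×ˢ SF q, (sInt v a.2 H + 1)))) :=
        ENNReal.Tendsto.mul_const (h5.comp htop) (Or.inr hK)
      rw [zero_mul] at h7
      exact (h7.eventually_lt_const (pos_iff_ne_zero.2 hε2)).mono fun _ h => h.le
    obtain ⟨l, l1, l2, l3, l4, l5, l6, l7⟩ :=
      (e1.and (e2.and (e3.and (e4.and (e5.and (e6.and e7)))))).exists
    have hqn : q.1 ≤ nn l := l2 q hqq
    refine ⟨nn l, mem_range_self l, l1, l2, fun b hb hbq => l3 b ⟨hb, hbq⟩, fun k => ?_,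
      fun s hs k hk => ?_, fun b hb hbq j σ k hk => ?_, l7⟩
    · rw [cSum_congr k hqn hH', setLIntegral_congr_fun (measurableSet_dyc v q.1 q.2) hH']
      exact l4 k
    · have hsn : s.1.1 ≤ nn l := by
        obtain ⟨⟨⟨c, hc, hf⟩, -⟩, hsub⟩ := hs
        have := l2 c ⟨hc, sc v s, face_sub hf (rel_sub sc_mem), hsub (rel_sub sc_mem)⟩
        rwa [hf.1]
      have hc : ∀ x ∈ squ v s, H x = H' x := fun x hx => hH' x (hs.2 hx)
      rw [fSum_congr hk hsn hc, sInt_congr hc]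
      exact l5 s hs k hk
    · have hbn : (faceP b j σ).1.1 ≤ nn l := l3 b ⟨hb, hbq⟩
      have hc : ∀ x ∈ squ v (faceP b j σ), H x = H' x := fun x hx =>
        hH' x (hbq (faceP_sub b j σ hx))
      rw [fSum_congr (s := faceP b j σ) hk hbn hc, sInt_congr hc]
      exact l6 b ⟨hb, hbq⟩ j σ k hk
  choose! n n1 n2 n3 n4 n5 n6 n7 n8 using main
  have hBig : Big v I P B n := by
    refine ⟨hP, fun q hq => n3 q hq q ⟨hq.1, cen v q.1 q.2, dyo_sub_dyc (cen_mem _ _ _),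
      dyo_sub_dyc (cen_mem _ _ _)⟩, fun b hb => ?_, hBd⟩
    obtain ⟨q, hq, hbq⟩ := hB1 b hb
    exact ⟨q, hq, hbq, n4 q hq b hb (hbq.trans dyo_sub_dyc)⟩
  have hNG : NbGen v I P n := fun q hq r hr hrq => n3 q hq r ⟨hr, hrq⟩
  refine ⟨n, hBig, fun q hq => ⟨n2 q hq, n1 q hq⟩, fun q hq => ?_, fun b hb => ?_, fun p hp => ?_⟩
  · refine (fine_bound h1 hΩ hI hBig hNG hq (hNF q hq.1) (hSF q hq.1)
      (fun r hr s hs k hk => (n6 r hr s hs k hk).trans (by gcongr; exact htol1 r hr))).trans ?_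
    calc 12 * ∑ k, cSum v q (n q) k H +
          ENNReal.ofReal (1 / 2 ^ n q) * (32 * ∑ a ∈ NF q ×ˢ SF q, (sInt v a.2 H + 1))
        ≤ 12 * ∑ _k : Fin 3, ((∫⁻ x in dyc v q.1 q.2, H x) + ε q / 2 / 36) + ε q / 2 := by
          gcongr with k
          · exact n5 q hq k
          · exact n8 q hq
      _ = 36 * (∫⁻ x in dyc v q.1 q.2, H x) + (36 * (ε q / 2 / 36) + ε q / 2) := by
          rw [Finset.sum_const, Finset.card_univ, Fintype.card_fin, nsmul_eq_mul]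
          push_cast
          ring
      _ = 36 * (∫⁻ x in dyc v q.1 q.2, H x) + ε q := by
          rw [ENNReal.mul_div_cancel (by norm_num) (by norm_num), ENNReal.add_halves]
  · obtain ⟨q, hq, hbq⟩ := hB1 b hb
    have hbq' := hbq.trans dyo_sub_dyc
    refine (big_bound h2 hΩ hI hBig hNG hb hq hbq (n4 q hq b hb hbq')
      (fun j σ k hk => n7 q hq b hb hbq' j σ k hk)).trans ?_
    calc 4 * (ENNReal.ofReal (1 / 2 ^ b.1) * (bInt v b H + 6 * δB b)) ≤ 4 * β b := by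
          gcongr
          exact hδB b hb
      _ ≤ 36 * β b := by gcongr; norm_num
  · have hpI := hP hp
    refine (kept_bound h3 h4 hΩ hI hBig hNG hp (SF := (finite_Sq hI hpI).toFinset)
      (finite_Sq hI hpI).coe_toFinset (t := tp p) (fun r hr hrp s hs k hk =>
        (n6 r hr s hs k hk).trans ?_)).trans ?_
    · have hpr : p ∈ Nb v I r := by
        obtain ⟨hr1, x, hx1, hx2⟩ := hrp
        exact ⟨hpI, x, hx2, hx1⟩
      gcongr
      exact htol r hr p hp hpr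
    · refine add_le_add ?_ (htp p hp hpI)
      gcongr
      norm_num

end Vale.Agent.P073.H194
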