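import Vale.Agent.P073.H194.GoodC
import Vale.Agent.P073.H194.Faces
import Vale.Agent.P073.H73.PreSpec

/-!
# P073, block A15-MESH: the mesh for the data `Pre`
-/

namespace Vale.Agent.P073.H194

open MeasureTheory Set Filter Topology Metric Vale.Agent.P073.St
open Vale.Agent.P073.SQ (ev)
open Vale.Agent.P073.AB Vale.Agent.P073.AB.P86
open P073.Net (dyc dyo)
open Vale.Agent.P073.H73 (Bix)
open Vale.Agent.P073.H471 (Cubes wgt wt)
open Vale.Agent.P073.H83 (Bw GenB)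
open scoped ENNReal

/-- the map `A z` on the protected boxes, `f` outside -/
noncomputable def fs (v : V) (n k₁ : ℕ) (J : Finset (Fin 3 → ℤ)) (A : (Fin 3 → ℤ) → V → V)
    (f : V → V) : V → V := by
  classical
  exact fun x => if idx v n x ∈ J ∧ x ∈ boxR v n k₁ (idx v n x) then A (idx v n x) x else f x

/-- the complement of the open cells -/
def Oc (Bx : Finset Bix) (A : (Fin 3 → ℤ) → V → V) : Set V :=
  (⋃ b ∈ Bx, interior (b.cell A))ᶜ

/-- the density -/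
noncomputable def Gs (p : ℝ) (v : V) (n k₁ : ℕ) (J : Finset (Fin 3 → ℤ))
    (A : (Fin 3 → ℤ) → V → V) (L : (Fin 3 → ℤ) → V →L[ℝ] V) (Bx : Finset Bix)
    (G : V → ℝ≥0∞) : V → ℝ≥0∞ := by
  classical
  exact fun x => if idx v n x ∈ J ∧ x ∈ boxR v n k₁ (idx v n x) then
    (Oc Bx A).indicator (fun _ => ‖L (idx v n x)‖ₑ ^ p) x else G x

theorem isClosed_Oc (Bx : Finset Bix) (A : (Fin 3 → ℤ) → V → V) : IsClosed (Oc Bx A) :=
  (isOpen_biUnion fun _ _ => isOpen_interior).isClosed_compl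

theorem boxR_sub_dyo {v : V} {n k₁ : ℕ} {z : Fin 3 → ℤ} : boxR v n k₁ z ⊆ dyo v n z := by
  intro x hx k
  obtain ⟨h1, h2⟩ := hx k
  have h3 : (0:ℝ) < 2 / 2 ^ (n + k₁) := by positivity
  constructor <;> linarith

theorem idx_of_boxR {v : V} {n k₁ : ℕ} {z : Fin 3 → ℤ} {x : V} (hx : x ∈ boxR v n k₁ z) :
    idx v n x = z := (same_cube (boxR_sub_dyo hx) (idx_mem_dyc v n x)).symm

section

variable {v : V} {n k₁ : ℕ} {J : Finset (Fin 3 → ℤ)} {A : (Fin 3 → ℤ) → V → V}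
  {L : (Fin 3 → ℤ) → V →L[ℝ] V} {Bx : Finset Bix} {f : V → V} {G : V → ℝ≥0∞} {p : ℝ}

theorem fs_in {z : Fin 3 → ℤ} (hz : z ∈ J) {x : V} (hx : x ∈ boxR v n k₁ z) :
    fs v n k₁ J A f x = A z x := by
  unfold fs
  rw [idx_of_boxR hx, if_pos ⟨hz, hx⟩]

theorem fs_out {x : V} (hx : ∀ z ∈ J, x ∉ boxR v n k₁ z) : fs v n k₁ J A f x = f x := by
  unfold fs
  rw [if_neg fun h => hx _ h.1 h.2]

theorem Gs_in {z : Fin 3 → ℤ} (hz : z ∈ J) {x : V} (hx : x ∈ boxR v n k₁ z) :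
    Gs p v n k₁ J A L Bx G x = (Oc Bx A).indicator (fun _ => ‖L z‖ₑ ^ p) x := by
  unfold Gs
  rw [idx_of_boxR hx, if_pos ⟨hz, hx⟩]

theorem Gs_out {x : V} (hx : ∀ z ∈ J, x ∉ boxR v n k₁ z) : Gs p v n k₁ J A L Bx G x = G x := by
  unfold Gs
  rw [if_neg fun h => hx _ h.1 h.2]

end

/-- the data -/
structure MeshIn {ι : Type*} (p : ℝ) (Ω Λ : Set V) (f : V → V) (G : V → ℝ≥0∞) (v : V)
    (nn : ℕ → ℕ) (n k₁ : ℕ) (J : Finset (Fin 3 → ℤ)) (A : (Fin 3 → ℤ) → V → V)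
    (L : (Fin 3 → ℤ) → V →L[ℝ] V) (I P : Set Idx) (Bx : Finset Bix) (c : ι → V) : Prop where
  oΩ : IsOpen Ω
  oΛ : IsOpen Λ
  hom : St.IsHomeo Ω Λ f
  mono : StrictMono nn
  meas : Measurable G
  fin : ∫⁻ x, G x ≠ ⊤
  gen : Gen v nn G
  gen1 : ∀ k, Gen v nn (Bk k)
  aff : ∀ z x y, A z y - A z x = L z (y - x)
  inj : ∀ z ∈ J, Function.Injective (L z)
  mapR : ∀ z ∈ J, ∀ x ∈ boxR v n k₁ z, A z x ∈ Λ
  subR : ∀ z ∈ J, boxR v n k₁ z ⊆ Ω
  part : Part Ω v I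
  PI : P ⊆ I
  /-- a divided cube is inside a protected box, or outside of all of them -/
  base : ∀ q ∈ I \ P, (∃ z ∈ J, dyc v q.1 q.2 ⊆ boxR v n k₁ z) ∨
    ∀ z ∈ J, Disjoint (dyc v q.1 q.2) (boxR v n k₁ z)
  baseP : ∀ q ∈ P, ∀ z ∈ J, Disjoint (dyc v q.1 q.2) (interior (boxR v n k₁ z))
  bJ : ∀ b ∈ Bx, b.1 ∈ J
  cellR : ∀ b ∈ Bx, b.cell A ⊆ interior (boxR v n k₁ b.1)
  cbox : ∀ i, ∀ b ∈ Bx, c i ∉ b.box
  good : ∀ i, GoodC p Ω f G v nn J A (c i)

namespace MeshIn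

variable {ι : Type*} {p : ℝ} {Ω Λ : Set V} {f : V → V} {G : V → ℝ≥0∞} {v : V}
  {nn : ℕ → ℕ} {n k₁ : ℕ} {J : Finset (Fin 3 → ℤ)} {A : (Fin 3 → ℤ) → V → V}
  {L : (Fin 3 → ℤ) → V →L[ℝ] V} {I P : Set Idx} {Bx : Finset Bix} {c : ι → V}

theorem cont_A (D : MeshIn p Ω Λ f G v nn n k₁ J A L I P Bx c) (z : Fin 3 → ℤ) :
    Continuous (A z) := by
  have : A z = fun x => A z 0 + L z x := by
    funext x
    have := D.aff z 0 x
    rw [sub_zero] at this
    rw [← this]; abel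
  rw [this]; fun_prop

theorem inj_A (D : MeshIn p Ω Λ f G v nn n k₁ J A L I P Bx c) {z : Fin 3 → ℤ} (hz : z ∈ J) :
    Function.Injective (A z) := by
  intro x y hxy
  have h1 := D.aff z y x
  rw [hxy, sub_self] at h1
  have h2 : x - y = 0 := D.inj z hz (by rw [← h1, map_zero])
  exact sub_eq_zero.1 h2

theorem fs_core {z : Fin 3 → ℤ} (hz : z ∈ J) {q : Idx} (hq : dyc v q.1 q.2 ⊆ boxR v n k₁ z) :
    EqOn (fs v n k₁ J A f) (A z) (dyc v q.1 q.2) := fun _ hx => fs_in hz (hq hx)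

theorem fs_off {q : Idx} (hq : ∀ z ∈ J, Disjoint (dyc v q.1 q.2) (boxR v n k₁ z)) :
    EqOn (fs v n k₁ J A f) f (dyc v q.1 q.2) := fun _ hx =>
  fs_out fun z hz h => Set.disjoint_left.1 (hq z hz) hx h

/-- the data for the mesh -/
theorem meshData (D : MeshIn p Ω Λ f G v nn n k₁ J A L I P Bx c) (hp : 0 ≤ p) :
    MeshData p Λ v nn I P (fs v n k₁ J A f) (Gs p v n k₁ J A L Bx G) c where
  cont q hq := by
    rcases D.base q hq with ⟨z, hz, h⟩ | h
    · exact (D.cont_A z).continuousOn.congr (fs_core hz h)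
    · obtain ⟨g, -, hfc, -⟩ := D.hom
      exact (hfc.mono (D.part.sub q hq.1)).congr (fs_off h)
  maps q hq := by
    intro x hx
    rcases D.base q hq with ⟨z, hz, h⟩ | h
    · rw [fs_core hz h hx]
      exact D.mapR z hz x (h hx)
    · rw [fs_off h hx]
      obtain ⟨g, hg, -, -⟩ := D.hom
      exact (hg.1 x (D.part.sub q hq.1 hx)).1
  inj q hq := by
    intro x hx y hy hxy
    rcases D.base q hq with ⟨z, hz, h⟩ | h
    · rw [fs_core hz h hx, fs_core hz h hy] at hxy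
      exact D.inj_A hz hxy
    · rw [fs_off h hx, fs_off h hy] at hxy
      obtain ⟨g, hg, -, -⟩ := D.hom
      rw [← (hg.1 x (D.part.sub q hq.1 hx)).2, hxy, (hg.1 y (D.part.sub q hq.1 hy)).2]
  gen q hq := by
    rcases D.base q hq with ⟨z, hz, h⟩ | h
    · have ha : ‖L z‖ₑ ^ p ≠ ⊤ := ENNReal.rpow_ne_top_of_nonneg hp enorm_ne_top
      obtain ⟨R, hR⟩ := (isCompact_dyc v q.1 q.2).isBounded.subset_closedBall (0 : V)
      obtain ⟨k, hk⟩ := exists_nat_ge R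
      refine ⟨fun x => (Oc Bx A).indicator (fun _ => ‖L z‖ₑ ^ p) x * Bk k x, ?_, ?_, ?_, ?_⟩
      · exact (measurable_const.indicator (isClosed_Oc Bx A).measurableSet).mul (measurable_Bk k)
      · exact (D.gen1 k).usc D.mono (measurable_Bk k) (lintegral_Bk k) (isClosed_Oc Bx A) ha
      · have h1 : ∫⁻ x, (Oc Bx A).indicator (fun _ => ‖L z‖ₑ ^ p) x * Bk k x ≤
            ‖L z‖ₑ ^ p * ∫⁻ x, Bk k x := by
          rw [← lintegral_const_mul' _ _ ha]
          refine lintegral_mono fun x => mul_le_mul' ?_ le_rfl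
          exact indicator_le_self (Oc Bx A) (fun _ => ‖L z‖ₑ ^ p) x
        exact ne_top_of_le_ne_top (ENNReal.mul_ne_top ha (lintegral_Bk k))
          ((setLIntegral_le_lintegral _ _).trans h1)
      · intro x hx
        have h1 : Bk k x = 1 :=
          indicator_of_mem (closedBall_subset_closedBall hk (hR hx)) (fun _ => (1:ℝ≥0∞))
        show Gs p v n k₁ J A L Bx G x = (Oc Bx A).indicator (fun _ => ‖L z‖ₑ ^ p) x * Bk k x
        rw [Gs_in hz (h hx), h1, mul_one]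
    · refine ⟨G, D.meas, D.gen, ne_top_of_le_ne_top D.fin (setLIntegral_le_lintegral _ _), ?_⟩
      intro x hx
      exact Gs_out fun z hz h' => Set.disjoint_left.1 (h z hz) hx h'
  open_ q hq x hx i hi m := by
    rcases D.base q hq with ⟨z, hz, h⟩ | h
    · rw [fs_core hz h hx] at hi
      exact ((D.good i).2 z hz x hi).1 m
    · rw [fs_off h hx] at hi
      exact ((D.good i).1 x (D.part.sub q hq.1 hx) hi).1 m
  big q hq x hx i hi δ hδ := by
    rcases D.base q hq with ⟨z, hz, h⟩ | h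
    · have hsub : ∀ᶠ l in atTop, dyc v (nn l) (idx v (nn l) x) ⊆ dyo v q.1 q.2 := by
        rw [fs_core hz h hx] at hi
        have h1 := ((D.good i).2 z hz x hi).1 q.1
        rw [same_cube h1 hx] at h1
        exact ev_idx_sub ((isOpen_dyo v _ _).mem_nhds h1) D.mono
      rw [fs_core hz h hx] at hi
      have ha : ‖L z‖ₑ ^ p + 1 ≠ ⊤ := ENNReal.add_ne_top.2
        ⟨ENNReal.rpow_ne_top_of_nonneg hp enorm_ne_top, ENNReal.one_ne_top⟩
      have ha0 : ‖L z‖ₑ ^ p + 1 ≠ 0 := by simp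
      have h2 := ((D.good i).2 z hz x hi).2 (δ / (‖L z‖ₑ ^ p + 1)) (ENNReal.div_pos hδ ha).ne'
      refine (h2.and_eventually hsub).mono fun l hl => ?_
      obtain ⟨hl, hl'⟩ := hl
      have hsub' := hl'.trans (dyo_sub_dyc (v := v) (m := q.1) (z := q.2))
      refine lt_of_le_of_lt (Bw_le (f := fs v n k₁ J A f) (g := A z) (H' := fun _ => 1) ha
        (fun y hy => fs_core hz h (hsub' hy)) (fun y hy => ?_) (c i)) ?_
      · rw [Gs_in hz (h (hsub' hy)), mul_one]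
        exact (indicator_le_self (Oc Bx A) (fun _ => ‖L z‖ₑ ^ p) y).trans le_self_add
      · rw [mul_comm]
        exact (ENNReal.lt_div_iff_mul_lt (Or.inl ha0) (Or.inl ha)).1 hl
    · have hx' := D.part.sub q hq.1 hx
      have hsub : ∀ᶠ l in atTop, dyc v (nn l) (idx v (nn l) x) ⊆ dyo v q.1 q.2 := by
        rw [fs_off h hx] at hi
        have h1 := ((D.good i).1 x hx' hi).1 q.1
        rw [same_cube h1 hx] at h1
        exact ev_idx_sub ((isOpen_dyo v _ _).mem_nhds h1) D.mono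
      rw [fs_off h hx] at hi
      have h2 := ((D.good i).1 x hx' hi).2 δ hδ
      refine (h2.and_eventually hsub).mono fun l hl => ?_
      obtain ⟨hl, hl'⟩ := hl
      have hsub' := hl'.trans (dyo_sub_dyc (v := v) (m := q.1) (z := q.2))
      refine lt_of_le_of_lt (Bw_le (f := fs v n k₁ J A f) (g := f) (H' := G) ENNReal.one_ne_top
        (fun y hy => fs_off h (hsub' hy)) (fun y hy => ?_) (c i)) (by rwa [one_mul])
      rw [Gs_out fun z hz h' => Set.disjoint_left.1 (h z hz) (hsub' hy) h', one_mul]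

end MeshIn

end Vale.Agent.P073.H194
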