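import Vale.Agent.P073.H194.MeshPre2

/-!
# P073, block A15-MESH: the mesh for the data `Pre`, the theorem
-/

namespace Vale.Agent.P073.H194

open MeasureTheory Set Filter Topology Metric Vale.Agent.P073.St
open Vale.Agent.P073.SQ (ev)
open Vale.Agent.P073.AB Vale.Agent.P073.AB.P86
open P073.Net (dyc dyo)
open Vale.Agent.P073.H73 (Bix)
open Vale.Agent.P073.H471 (Cubes wgt wt)
open Vale.Agent.P073.H83 (Bw GenB)
open Vale.Agent.P073.H193 (refine_cases)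
open scoped ENNReal

/-- the refined partition; `H` is the weighted density -/
structure MeshOut {ι : Type*} (p δ : ℝ) (Ω Λ : Set V) (f : V → V) (G : V → ℝ≥0∞) (v : V)
    (n k₁ : ℕ) (J : Finset (Fin 3 → ℤ)) (A : (Fin 3 → ℤ) → V → V)
    (L : (Fin 3 → ℤ) → V →L[ℝ] V) (I P : Set Idx) (Bx : Finset Bix) (z : ι → V) (σ : ι → ℝ)
    (c : ι → V) (e : Idx → ℝ≥0∞) (τ : Idx → ℝ) (B : Set Idx) (nf : Idx → ℕ) (nr : ℕ) :
    Prop where
  big : Big v I P B nf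
  /-- the fine cells are smaller than the big cells -/
  lt : ∀ b ∈ B, ∀ q ∈ I \ P, dyc v b.1 b.2 ⊆ dyc v q.1 q.2 → b.1 < nf q
  part : Part Ω v (refine v I P B nf)
  /-- one generation in the protected boxes -/
  core : ∀ q ∈ MeshIn.core v n k₁ J I P, nf q = nr
  /-- one generation near the cells -/
  unif : ∀ b ∈ Bx, ∀ q ∈ refine v I P B nf,
    (∃ x ∈ dyc v q.1 q.2, ∃ y ∈ b.cell A, ‖x - y‖ ≤ 8 / 2 ^ nr) → q.1 = nr
  /-- the minimal squares in the divided cubes are small -/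
  gen : ∀ F, MinSq v (refine v I P B nf) F → ∀ q ∈ I \ P, squ v F ⊆ dyc v q.1 q.2 → nf q ≤ F.1.1
  /-- the images of the minimal squares in the divided cubes are small -/
  faces : ∀ F, MinSq v (refine v I P B nf) F → ∀ q ∈ I \ P, squ v F ⊆ dyc v q.1 q.2 →
    ∀ g : V → V, (∀ x ∈ squ v F, ‖g x - fs v n k₁ J A f x‖ ≤ τ q) →
      (∀ x ∈ squ v F, g x ∈ Λ) ∧
      (∀ x ∈ squ v F, ∀ i, g x ∈ closedBall (z i) (σ i) → g x ≠ c i ∧
        ∀ y ∈ squ v F, ‖g x - g y‖ ≤ δ * ‖g x - c i‖) ∧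
      ∃ w : ℝ, 1 ≤ w ∧ (∀ x ∈ squ v F, ∀ i, g x ∈ closedBall (z i) (σ i) →
          2 * σ i ≤ w * ‖g x - c i‖) ∧
        ∀ x ∈ squ v F, ENNReal.ofReal w ≤ 2178 * wgt z σ c (fs v n k₁ J A f x)
  /-- the weights are finite on the minimal squares in the divided cubes -/
  wfin : ∀ F, MinSq v (refine v I P B nf) F → ∀ q ∈ I \ P, squ v F ⊆ dyc v q.1 q.2 →
    ∀ x ∈ squ v F, wgt z σ c (fs v n k₁ J A f x) ≠ ⊤
  /-- the divided cubes -/
  sum : ∑' i : {i : Idx // i ∈ refine v I P B nf ∧ i ∉ P},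
      cellT v (refine v I P B nf) univ
        (wH p z σ c (fs v n k₁ J A f) (Gs p v n k₁ J A L Bx G)) i.1 ≤
    36 * (∫⁻ x in ⋃ q ∈ I \ P, dyc v q.1 q.2,
      wH p z σ c (fs v n k₁ J A f) (Gs p v n k₁ J A L Bx G) x) + ∑' q : (I \ P : Set Idx), e q
  /-- the kept cubes, squares on divided cubes -/
  kept : ∀ q ∈ P, cellT v (refine v I P B nf) (⋃ r ∈ I \ P, dyc v r.1 r.2)
      (wH p z σ c (fs v n k₁ J A f) (Gs p v n k₁ J A L Bx G)) q ≤
    36 * (∑' s : {s : Idx × Fin 3 // MinSq v I s ∧ squ v s ⊆ dyc v q.1 q.2 ∧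
      ∃ r ∈ I \ P, squ v s ⊆ dyc v r.1 r.2}, ENNReal.ofReal (1 / 2 ^ q.1) *
        sInt v s.1 (wH p z σ c (fs v n k₁ J A f) (Gs p v n k₁ J A L Bx G))) + e q

theorem exists_t {d : ℝ} (hd : 0 < d) (a : ℝ) : ∃ t : ℕ, ∀ m, t ≤ m → a / 2 ^ m ≤ d := by
  have h1 : Tendsto (fun m : ℕ => a * (1 / 2) ^ m) atTop (𝓝 (a * 0)) :=
    (tendsto_pow_atTop_nhds_zero_of_lt_one (by norm_num) (by norm_num)).const_mul a
  rw [mul_zero] at h1
  obtain ⟨t, ht⟩ := eventually_atTop.1 (h1.eventually_lt_const hd)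
  refine ⟨t, fun m hm => ?_⟩
  have := ht m hm
  rw [one_div_pow] at this
  rw [div_eq_mul_one_div]
  exact this.le

/-- **[PRE-E]** -/
theorem mesh_pre {ι : Type*} {p : ℝ} {Ω Λ : Set V} {f : V → V} {G : V → ℝ≥0∞} {v : V}
    {nn : ℕ → ℕ} {n k₁ : ℕ} {J : Finset (Fin 3 → ℤ)} {A : (Fin 3 → ℤ) → V → V}
    {L : (Fin 3 → ℤ) → V →L[ℝ] V} {I P : Set Idx} {Bx : Finset Bix} {z c : ι → V} {σ : ι → ℝ}
    (D : MeshIn p Ω Λ f G v nn n k₁ J A L I P Bx c) (hp : 0 ≤ p) (W : Cubes Λ z σ)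
    (hc : ∀ i, ‖c i - z i‖ ≤ σ i / 2) {δ : ℝ} (hδ : 0 < δ) {e : Idx → ℝ≥0∞} (he : ∀ q, e q ≠ 0) :
    ∃ (B : Set Idx) (τ : Idx → ℝ), (∀ q, 0 < τ q) ∧ ∀ (th : Idx → ℕ) (N₁ : ℕ),
      ∃ (nf : Idx → ℕ) (nr : ℕ), N₁ ≤ nr ∧ (∀ q ∈ I \ P, th q ≤ nf q) ∧
        MeshOut p δ Ω Λ f G v n k₁ J A L I P Bx z σ c e τ B nf nr := by
  classical
  have hM := D.meshData hp
  obtain ⟨d₀, hd₀, hd₀'⟩ := D.exists_d0
  obtain ⟨d₁, hd₁, hd₁'⟩ := D.exists_d1 hp W rfl hc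
  obtain ⟨t₁, ht₁⟩ := exists_t (show 0 < d₁ / 4 by positivity) 1
  set d := min d₀ (d₁ / 4) with hd
  have hdpos : 0 < d := lt_min hd₀ (by positivity)
  obtain ⟨t₀, ht₀⟩ := exists_t hdpos 8
  set gr : Idx → Option Idx := fun q => if q ∈ MeshIn.core v n k₁ J I P then none else some q
    with hgr
  have hgrf : ∀ a, {q | q ∈ I \ P ∧ gr q = a}.Finite := by
    rintro (_ | q₀)
    · refine D.finite_core.subset ?_
      rintro q ⟨hq, h⟩
      by_contra hcon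
      rw [hgr] at h
      simp only [hcon, if_false, reduceCtorEq] at h
    · refine (Set.finite_singleton q₀).subset ?_
      rintro q ⟨hq, h⟩
      by_cases hcon : q ∈ MeshIn.core v n k₁ J I P
      · rw [hgr] at h
        simp only [hcon, if_true, reduceCtorEq] at h
      · rw [hgr] at h
        simp only [hcon, if_false, Option.some.injEq] at h
        exact h
  obtain ⟨B, hB, hmain⟩ := mesh_app hM hp D.oΩ D.part D.PI D.mono W hc he (fun _ => t₁) gr hgrf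
  obtain ⟨thF, τ, hτ, hF⟩ := hM.faces D.oΩ D.oΛ D.part W hc hB hδ
  refine ⟨B, τ, hτ, fun th N₁ => ?_⟩
  have hlt : ∀ q ∈ I \ P, ∃ t : ℕ, ∀ b ∈ B, dyc v b.1 b.2 ⊆ dyc v q.1 q.2 → b.1 < t := by
    intro q hq
    refine ⟨(hB.fin q hq).toFinset.sup (fun b => b.1) + 1, fun b hb hbq => ?_⟩
    have := Finset.le_sup (f := fun b : Idx => b.1) ((Finite.mem_toFinset (hB.fin q hq)).2 ⟨hb, hbq⟩)
    exact Nat.lt_succ_of_le this
  choose! tL htL using hlt
  obtain ⟨nf, hBig, hn, hng, hsum, hkept⟩ := hmain fun q =>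
    max (max (max (th q) (tL q)) (thF q)) (max t₀ N₁)
  have hn1 : ∀ q ∈ I \ P, th q ≤ nf q := fun q hq =>
    (((le_max_left _ _).trans (le_max_left _ _)).trans (le_max_left _ _)).trans (hn q hq).1
  have hn4 : ∀ q ∈ I \ P, tL q ≤ nf q := fun q hq =>
    (((le_max_right _ _).trans (le_max_left _ _)).trans (le_max_left _ _)).trans (hn q hq).1
  have hn2 : ∀ q ∈ I \ P, thF q ≤ nf q := fun q hq =>
    ((le_max_right _ _).trans (le_max_left _ _)).trans (hn q hq).1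
  have hn3 : ∀ q ∈ I \ P, max t₀ N₁ ≤ nf q := fun q hq =>
    (le_max_right _ _).trans (hn q hq).1
  obtain ⟨nr, hnr, hcore⟩ : ∃ nr, max t₀ N₁ ≤ nr ∧ ∀ q ∈ MeshIn.core v n k₁ J I P, nf q = nr := by
    by_cases hne : (MeshIn.core v n k₁ J I P).Nonempty
    · obtain ⟨q₀, hq₀⟩ := hne
      refine ⟨nf q₀, hn3 q₀ hq₀.1, fun q hq => hng q hq.1 q₀ hq₀.1 ?_⟩
      rw [hgr]
      simp only [hq, hq₀, if_true]
    · rw [not_nonempty_iff_eq_empty] at hne
      refine ⟨max t₀ N₁, le_rfl, fun q hq => ?_⟩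
      rw [hne] at hq
      exact absurd hq (notMem_empty q)
  have hnr0 : (8 / 2 ^ nr : ℝ) ≤ d := ht₀ nr ((le_max_left _ _).trans hnr)
  refine ⟨nf, nr, (le_max_right _ _).trans hnr, hn1, hBig,
    fun b hb q hq hbq => (htL q hq b hb hbq).trans_le (hn4 q hq),
    _root_.Vale.Agent.P073.H193.specRefine Ω v I P B nf D.oΩ D.part hBig, hcore, ?_,
    fun F hF' q hq hFq => gen_ge D.oΩ D.part hBig hF' hq hFq,
    fun F hF' q hq hFq g hg => hF nf hBig hn2 F hF' q hq hFq g hg, ?_, ?_, hkept⟩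
  · -- unif
    rintro b hb q hq ⟨x, hx, y, hy, hxy⟩
    have hx1 : x ∈ interior (boxR v n k₁ b.1) :=
      hd₀' b hb y hy x (hxy.trans (hnr0.trans (min_le_left _ _)))
    have hmeet : ∀ q' ∈ I \ P, x ∈ dyc v q'.1 q'.2 → q' ∈ MeshIn.core v n k₁ J I P := by
      intro q' hq' hxq'
      rcases D.base q' hq' with h | h
      · exact ⟨hq', h⟩
      · exact absurd (interior_subset hx1) (Set.disjoint_left.1 (h b.1 (D.bJ b hb)) hxq')
    by_cases hqB : q ∈ B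
    · exfalso
      obtain ⟨q', hq', h1, -, h2, x', hx', hx'b⟩ := hB.cell q hqB
      have hq'c := hmeet q' hq' (dyo_sub_dyc (h1 hx))
      have h3 := hd₁' q' hq'c x' hx' b hb y hy
      have h4 : ‖x' - x‖ ≤ d₁ / 4 := by
        have := H83.dist_le_of_mem_dyc (dyo_sub_dyc hx'b) hx
        rw [dist_eq_norm] at this
        exact this.trans (ht₁ q.1 h2)
      have h5 : ‖x - y‖ ≤ d₁ / 4 := hxy.trans (hnr0.trans (min_le_right _ _))
      have h6 : ‖x' - y‖ ≤ ‖x' - x‖ + ‖x - y‖ := by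
        calc ‖x' - y‖ = ‖(x' - x) + (x - y)‖ := by congr 1; abel
          _ ≤ _ := norm_add_le _ _
      linarith
    · have hqP : q ∉ P := fun hqP =>
        Set.disjoint_left.1 (D.baseP q hqP b.1 (D.bJ b hb)) hx hx1
      rcases hq with (h | h) | ⟨q', hq', h1, h2, -⟩
      · exact absurd h hqP
      · exact absurd h hqB
      · rw [h1]
        exact hcore q' (hmeet q' hq' (h2 hx))
  · -- finite weights
    intro F hF' q hq hFq x hx
    refine wgt_ne_top W (hM.maps q hq (hFq hx)) fun i hi => ?_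
    obtain ⟨b, hb, h3, -⟩ := hB.cen q hq x ⟨hFq hx, i, hi⟩
    exact Set.disjoint_left.1 (minSq_off D.oΩ D.part hBig hF' hb) hx h3
  · -- sum
    set H := wH p z σ c (fs v n k₁ J A f) (Gs p v n k₁ J A L Bx G) with hH
    have h1 : {i : Idx | i ∈ refine v I P B nf ∧ i ∉ P} ⊆
        ⋃ q ∈ I \ P, {i : Idx | i ∈ refine v I P B nf ∧ i ∉ P ∧
          dyc v i.1 i.2 ⊆ dyc v q.1 q.2} := by
      rintro i ⟨hi, hiP⟩
      rw [mem_iUnion₂]
      rcases hi with (h | h) | ⟨q', hq', h1, h2, h3⟩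
      · exact absurd h hiP
      · obtain ⟨q', hq', h1, -⟩ := hBig.big i h
        exact ⟨q', hq', Or.inl (Or.inr h), hiP, h1.trans dyo_sub_dyc⟩
      · exact ⟨q', hq', Or.inr ⟨q', hq', h1, h2, h3⟩, hiP, h2⟩
    calc ∑' i : {i : Idx // i ∈ refine v I P B nf ∧ i ∉ P},
          cellT v (refine v I P B nf) univ H i.1
        ≤ ∑' i : ↥(⋃ q ∈ I \ P, {i : Idx | i ∈ refine v I P B nf ∧ i ∉ P ∧
            dyc v i.1 i.2 ⊆ dyc v q.1 q.2}), cellT v (refine v I P B nf) univ H i.1 :=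
          ENNReal.tsum_mono_subtype (fun i => cellT v (refine v I P B nf) univ H i) h1
      _ ≤ ∑' q : (I \ P : Set Idx), ∑' i : {i : Idx | i ∈ refine v I P B nf ∧ i ∉ P ∧
            dyc v i.1 i.2 ⊆ dyc v q.1.1 q.1.2}, cellT v (refine v I P B nf) univ H i.1 :=
          ENNReal.tsum_biUnion_le_tsum (fun i => cellT v (refine v I P B nf) univ H i) (I \ P)
            fun q => {i : Idx | i ∈ refine v I P B nf ∧ i ∉ P ∧ dyc v i.1 i.2 ⊆ dyc v q.1 q.2}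
      _ ≤ ∑' q : (I \ P : Set Idx), (36 * (∫⁻ x in dyc v q.1.1 q.1.2, H x) + e q) :=
          ENNReal.tsum_le_tsum fun q => hsum q.1 q.2
      _ = 36 * (∑' q : (I \ P : Set Idx), ∫⁻ x in dyc v q.1.1 q.1.2, H x) +
            ∑' q : (I \ P : Set Idx), e q := by
          rw [ENNReal.tsum_add, ENNReal.tsum_mul_left]
      _ ≤ _ := by
          gcongr
          exact tsum_lintegral_le D.part Set.sdiff_subset H

end Vale.Agent.P073.H194
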