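import Vale.Agent.P073.H194.MeshPre3
import Vale.Agent.P073.H669.BaseI
import Vale.Agent.P073.H83.Grid4

/-!
# P073, block A15-PRE: the data for the mesh
-/

namespace Vale.Agent.P073.H194

open MeasureTheory Set Filter Topology Metric Vale.Agent.P073.St
open Vale.Agent.P073.SQ (ev)
open Vale.Agent.P073.AB Vale.Agent.P073.AB.P86
open P073.Net (dyc dyo IsTile SizeFn)
open Vale.Agent.P073.H73 (Bix)
open Vale.Agent.P073.H471 (Cubes wgt wt TI zt st)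
open Vale.Agent.P073.H83 (CellsG gB mem_gB gB_J gB_tile grho Fam bixOf cell_sub_boxR cell_bixOf)
open Vale.Agent.P073.H333 (lay gap core out base)

open scoped ENNReal

/-- the tiles which are not inside a box -/
abbrev OT (ρ : V → ℝ) (Bx : Finset Bix) : Type :=
  {i : TI ρ 0 // ∀ b ∈ Bx, ¬ dyc 0 i.1.1 i.1.2 ⊆ b.box}

/-- centre, half of the side, and prescribed centre -/
noncomputable def zo (ρ : V → ℝ) (Bx : Finset Bix) (i : OT ρ Bx) : V := zt ρ 0 i.1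
noncomputable def so (ρ : V → ℝ) (Bx : Finset Bix) (i : OT ρ Bx) : ℝ := st ρ 0 i.1
def co (ρ : V → ℝ) (Bx : Finset Bix) (c : ℕ → (Fin 3 → ℤ) → V) (i : OT ρ Bx) : V :=
  c i.1.1.1 i.1.1.2

theorem cubes_OT {Λ : Set V} {ρ : V → ℝ} (hρ : SizeFn Λ ρ) (Bx : Finset Bix) :
    Cubes Λ (zo ρ Bx) (so ρ Bx) :=
  (H471.cubes_tiles hρ 0).restrict (e := fun i : OT ρ Bx => i.1) Subtype.val_injective

theorem co_near {ρ : V → ℝ} {Bx : Finset Bix} {c : ℕ → (Fin 3 → ℤ) → V}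
    (hc : ∀ m z, IsTile ρ 0 m z → ‖c m z - H73.ctr 0 m z‖ ≤ 1 / 4 / 2 ^ m) (i : OT ρ Bx) :
    ‖co ρ Bx c i - zo ρ Bx i‖ ≤ so ρ Bx i / 2 := by
  have h := hc i.1.1.1 i.1.1.2 i.1.2
  refine h.trans (le_of_eq ?_)
  show (1:ℝ) / 4 / 2 ^ i.1.1.1 = 1 / 2 / 2 ^ i.1.1.1 / 2
  ring

theorem boxR_sub_dyo' {v : V} {n k₁ : ℕ} {z : Fin 3 → ℤ} : boxR v n k₁ z ⊆ dyo v n z :=
  boxR_sub_dyo

variable {θ M κ : ℝ} {m₁ n k₁ k₀ mt m' : ℕ} {Ω Λ : Set V} {f : V → V} {v : V}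
  {J : Finset (Fin 3 → ℤ)} {A : (Fin 3 → ℤ) → V → V} {L : (Fin 3 → ℤ) → V →L[ℝ] V}

theorem cell_sub_int (H : CellsG θ M κ m₁ n k₁ Ω Λ f v J A L) {b : Bix} (hb : b ∈ gB H mt) :
    b.cell A ⊆ interior (boxR v n k₁ b.1) := by
  obtain ⟨q, hq, rfl⟩ := (mem_gB H).1 hb
  rw [cell_bixOf]
  intro x hx
  show x ∈ interior (boxR v n k₁ q.1)
  have hx' : A q.1 x ∈ dyc 0 m₁ q.2 := H83.bx_sub_dyc 0 m₁ mt q.2 hx
  have hc := H.continuous hq.1
  rw [mem_interior]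
  refine ⟨{y | ‖A q.1 y - A q.1 x‖ < 3 / 2 ^ m₁}, fun y hy => ?_, ?_, ?_⟩
  · obtain ⟨u, hu, huy⟩ := hq.2 (A q.1 y) ⟨A q.1 x, hx', le_of_lt hy⟩
    rwa [← H.injective hq.1 huy]
  · exact isOpen_lt ((hc.sub continuous_const).norm) continuous_const
  · show ‖A q.1 x - A q.1 x‖ < 3 / 2 ^ m₁
    rw [sub_self, norm_zero]; positivity

/-- **[PRE-F6]** the data for the mesh -/
theorem meshIn_of {p : ℝ} {nn : ℕ → ℕ} {G : V → ℝ≥0∞} (hΛ : IsOpen Λ)
    (hf : St.IsHomeo Ω Λ f) (hnn : StrictMono nn) (hGm : Measurable G) (hfin : ∫⁻ x, G x ≠ ⊤)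
    (hG : Gen v nn G) (hB1 : ∀ k, Gen v nn (Bk k)) (H : CellsG θ M κ m₁ n k₁ Ω Λ f v J A L)
    (hF : H669.Fine Ω v n k₁ k₀ J) (haff : ∀ z x y, A z y - A z x = L z (y - x)) (h1 : m₁ ≤ m')
    (h2 : mt ≤ m') {c : ℕ → (Fin 3 → ℤ) → V}
    (hc : ∀ m z, IsTile (grho 0 v n k₁ m₁ mt m' J A Λ) 0 m z →
      ‖c m z - H73.ctr 0 m z‖ ≤ 1 / 4 / 2 ^ m)
    (hgood : ∀ m z, IsTile (grho 0 v n k₁ m₁ mt m' J A Λ) 0 m z →
      GoodC p Ω f G v nn J A (c m z)) :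
    MeshIn p Ω Λ f G v nn n k₁ J A L (base Ω v n k₁ k₀ J) (lay v n k₁ k₀ J ∪ gap v n k₁ J)
      (gB H mt) (co (grho 0 v n k₁ m₁ mt m' J A Λ) (gB H mt) c) where
  oΩ := H.oΩ
  oΛ := hΛ
  hom := hf
  mono := hnn
  meas := hGm
  fin := hfin
  gen := hG
  gen1 := hB1
  aff := haff
  inj z hz := by
    intro x y hxy
    have h3 := H.below z hz (x - y)
    rw [map_sub, hxy, sub_self, norm_zero] at h3
    have h4 : ‖x - y‖ ≤ 0 := by
      have := H.θ0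
      by_contra hcon
      push Not at hcon
      have := mul_pos H.θ0 hcon
      linarith
    exact sub_eq_zero.1 (norm_eq_zero.1 (le_antisymm h4 (norm_nonneg _)))
  mapR z hz x hx := by
    have h3 := H.core z hz x (dyo_sub_dyc (boxR_sub_dyo hx))
    by_contra hcon
    have h4 : infDist (A z x) Λᶜ = 0 := infDist_zero_of_mem hcon
    rw [h4] at h3
    have : (0:ℝ) < 4 / 2 ^ m₁ := by positivity
    linarith
  subR z hz := (boxR_sub_dyo.trans dyo_sub_dyc).trans (H.sub z hz)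
  part := hF.part_base
  PI := H669.lay_gap_sub
  base q hq := by
    rw [hF.diff_eq] at hq
    rcases hq with hq | ⟨-, z, hz, h⟩
    · exact Or.inr fun z hz => (hF.out_disj hq hz).mono_right boxR_sub_dyo
    · exact Or.inl ⟨z, hz, h⟩
  baseP q hq z hz := by
    rcases hq with hq | hq
    · obtain ⟨-, z', hz', h3, h4⟩ := H669.lay_disj hq
      by_cases hzz : z' = z
      · subst hzz
        exact h4.mono_right (interior_mono (AB.S308.boxR_sub_boxB z'))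
      · rw [Set.disjoint_left]
        intro x hx hx'
        exact hzz (same_cube (boxR_sub_dyo (interior_subset hx')) (h3 hx)).symm
    · obtain ⟨-, z', hz', h3, h4⟩ := H669.gap_disj hq
      by_cases hzz : z' = z
      · subst hzz
        exact h4
      · rw [Set.disjoint_left]
        intro x hx hx'
        exact hzz (same_cube (boxR_sub_dyo (interior_subset hx'))
          (AB.S308.boxB_sub_dyc z' (h3 hx))).symm
  bJ := gB_J H
  cellR b hb := cell_sub_int H hb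
  cbox i b hb hcon := by
    rcases gB_tile H h1 h2 b hb i.1.1.1 i.1.1.2 i.1.2 with h3 | h3
    · exact i.2 b hb h3
    · refine Set.disjoint_left.1 h3 ?_ hcon
      rw [H471.dyo_eq_ball, mem_ball, dist_eq_norm]
      refine (hc _ _ i.1.2).trans_lt ?_
      have hp : (0:ℝ) < 1 / 2 ^ i.1.1.1 := by positivity
      have e1 : (1:ℝ) / 4 / 2 ^ i.1.1.1 = 1 / 2 ^ i.1.1.1 / 4 := by ring
      have e2 : (1:ℝ) / 2 / 2 ^ i.1.1.1 = 1 / 2 ^ i.1.1.1 / 2 := by ring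
      rw [e1, e2]; linarith
  good i := hgood _ _ i.1.2

end Vale.Agent.P073.H194
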