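import Vale.Agent.P073.H194.PreMesh
import Vale.Agent.P073.H340.PE

/-!
# P073, [PRE-2], [E8]: the data for the mesh, exponent two
-/

namespace Vale.Agent.P073.H194

open MeasureTheory Set Filter Topology Metric Vale.Agent.P073.St
open Vale.Agent.P073.SQ (ev)
open Vale.Agent.P073.AB Vale.Agent.P073.AB.P86
open P073.Net (dyc dyo IsTile SizeFn)
open Vale.Agent.P073.H73 (Bix)
open Vale.Agent.P073.H471 (Cubes wgt wt TI zt st)
open Vale.Agent.P073.H83 (CellsG gB mem_gB gB_J gB_tile grho Fam bixOf cell_sub_boxR cell_bixOf)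
open Vale.Agent.P073.H333 (lay gap core out base)
open Vale.Agent.P073.H340 (olay kept)
open Vale.Agent.P073.H234 (Tch Touch)

open scoped ENNReal

variable {θ M κ : ℝ} {m₁ n k₁ k₀ mt m' : ℕ} {Ω Λ : Set V} {f g : V → V} {v : V}
  {J : Finset (Fin 3 → ℤ)} {A : (Fin 3 → ℤ) → V → V} {L : (Fin 3 → ℤ) → V →L[ℝ] V}

theorem olay_sub_out (hF : H669.Fine Ω v n k₁ k₀ J) :
    olay v n k₁ k₀ J ⊆ out Ω v n k₁ k₀ J := by
  rintro ⟨m, u⟩ ⟨h1, ⟨z, hz, h2⟩, h3⟩
  simp only at h1 h2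
  subst h1
  exact ⟨hF.fine z hz u h2, h3⟩

theorem out_sub_base : out Ω v n k₁ k₀ J ⊆ base Ω v n k₁ k₀ J :=
  fun _ h => Or.inl (Or.inl (Or.inl h))

theorem kept_sub_base (hF : H669.Fine Ω v n k₁ k₀ J) :
    kept v n k₁ k₀ J ⊆ base Ω v n k₁ k₀ J := by
  rintro q (h | h)
  · exact H669.lay_gap_sub h
  · exact out_sub_base (olay_sub_out hF h)

/-- **[E8]** the data for the mesh -/
theorem meshIn_of2 {p : ℝ} {nn : ℕ → ℕ} {G : V → ℝ≥0∞} (hΛ : IsOpen Λ)
    (hf : St.IsHomeo Ω Λ f) (hnn : StrictMono nn) (hGm : Measurable G) (hfin : ∫⁻ x, G x ≠ ⊤)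
    (hG : Gen v nn G) (hB1 : ∀ k, Gen v nn (Bk k)) (H : CellsG θ M κ m₁ n k₁ Ω Λ g v J A L)
    (hF : H669.Fine Ω v n k₁ k₀ J) (haff : ∀ z x y, A z y - A z x = L z (y - x)) (h1 : m₁ ≤ m')
    (h2 : mt ≤ m') {c : ℕ → (Fin 3 → ℤ) → V}
    (hc : ∀ m z, IsTile (grho 0 v n k₁ m₁ mt m' J A Λ) 0 m z →
      ‖c m z - H73.ctr 0 m z‖ ≤ 1 / 4 / 2 ^ m)
    (hgood : ∀ m z, IsTile (grho 0 v n k₁ m₁ mt m' J A Λ) 0 m z →
      GoodC p Ω f G v nn J A (c m z)) :
    MeshIn p Ω Λ f G v nn n k₁ J A L (base Ω v n k₁ k₀ J) (kept v n k₁ k₀ J)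
      (gB H mt) (co (grho 0 v n k₁ m₁ mt m' J A Λ) (gB H mt) c) where
  oΩ := H.oΩ
  oΛ := hΛ
  hom := hf
  mono := hnn
  meas := hGm
  fin := hfin
  gen := hG
  gen1 := hB1
  aff := haff
  inj z hz := by
    intro x y hxy
    have h3 := H.below z hz (x - y)
    rw [map_sub, hxy, sub_self, norm_zero] at h3
    have h4 : ‖x - y‖ ≤ 0 := by
      have := H.θ0
      by_contra hcon
      push Not at hcon
      have := mul_pos H.θ0 hcon
      linarith
    exact sub_eq_zero.1 (norm_eq_zero.1 (le_antisymm h4 (norm_nonneg _)))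
  mapR z hz x hx := by
    have h3 := H.core z hz x (dyo_sub_dyc (boxR_sub_dyo hx))
    by_contra hcon
    have h4 : infDist (A z x) Λᶜ = 0 := infDist_zero_of_mem hcon
    rw [h4] at h3
    have : (0:ℝ) < 4 / 2 ^ m₁ := by positivity
    linarith
  subR z hz := (boxR_sub_dyo.trans dyo_sub_dyc).trans (H.sub z hz)
  part := hF.part_base
  PI := kept_sub_base hF
  base q hq := by
    have hq' : q ∈ base Ω v n k₁ k₀ J \ (lay v n k₁ k₀ J ∪ gap v n k₁ J) :=
      ⟨hq.1, fun h => hq.2 (Or.inl h)⟩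
    rw [hF.diff_eq] at hq'
    rcases hq' with hq | ⟨-, z, hz, h⟩
    · exact Or.inr fun z hz => (hF.out_disj hq hz).mono_right boxR_sub_dyo
    · exact Or.inl ⟨z, hz, h⟩
  baseP q hq z hz := by
    rcases hq with (hq | hq) | hq
    · obtain ⟨-, z', hz', h3, h4⟩ := H669.lay_disj hq
      by_cases hzz : z' = z
      · subst hzz
        exact h4.mono_right (interior_mono (AB.S308.boxR_sub_boxB z'))
      · rw [Set.disjoint_left]
        intro x hx hx'
        exact hzz (same_cube (boxR_sub_dyo (interior_subset hx')) (h3 hx)).symm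
    · obtain ⟨-, z', hz', h3, h4⟩ := H669.gap_disj hq
      by_cases hzz : z' = z
      · subst hzz
        exact h4
      · rw [Set.disjoint_left]
        intro x hx hx'
        exact hzz (same_cube (boxR_sub_dyo (interior_subset hx'))
          (AB.S308.boxB_sub_dyc z' (h3 hx))).symm
    · exact ((hF.out_disj (olay_sub_out hF hq) hz).mono_right boxR_sub_dyo).mono_right
        interior_subset
  bJ := gB_J H
  cellR b hb := cell_sub_int H hb
  cbox i b hb hcon := by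
    rcases gB_tile H h1 h2 b hb i.1.1.1 i.1.1.2 i.1.2 with h3 | h3
    · exact i.2 b hb h3
    · refine Set.disjoint_left.1 h3 ?_ hcon
      rw [H471.dyo_eq_ball, mem_ball, dist_eq_norm]
      refine (hc _ _ i.1.2).trans_lt ?_
      have hp : (0:ℝ) < 1 / 2 ^ i.1.1.1 := by positivity
      have e1 : (1:ℝ) / 4 / 2 ^ i.1.1.1 = 1 / 2 ^ i.1.1.1 / 4 := by ring
      have e2 : (1:ℝ) / 2 / 2 ^ i.1.1.1 = 1 / 2 ^ i.1.1.1 / 2 := by ring
      rw [e1, e2]; linarith
  good i := hgood _ _ i.1.2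

end Vale.Agent.P073.H194
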