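import Vale.Agent.P073.H399.GivM
import Vale.Agent.P073.H669.GamG
import Vale.Agent.P073.H605.GamK
import Vale.Agent.P073.H244.GivPt
import Vale.Agent.P073.H194.FarK

/-!
# P073, H194: **(ptv)** of [RT-GIV]

`ptv_of`: on a protected cell, at a point whose image is in a processed plate and in the support of
a box of round T, the given map of `exists_gv` has the same lateral coordinates as `h`, if the
charts are vertical (`H605.Vert`).
-/

open Set Metric Topology Filter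

namespace P073.H194

open P073 P073.TR P073.H936 P073.H345 P073.H236 P073.H579 P073.H399
open Vale.Agent.P073.H73 (Mesh)
open Vale.Agent.P073.H193 (Edges)

section gen

variable {γ : Type*} {Ω Λ : Set (Fin 3 → ℝ)} {M : Mesh Ω} {E : Edges M} {h h' : ConHomeo Ω Λ}
  {B : γ → BX 3} {Gv : Set M.ι} {W R : γ → Set (Fin 3 → ℝ)} {C : γ → Set (Fin 3 → ℝ)} {w : γ → ℝ}
  {Γ : ∀ (g : γ) (m : Fin (B g).N), ConHomeo
    (lev (C g) (uG h B g) ((B g).a m) ×ˢ Icc (-1:ℝ) 1)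
    (band (C g) (uG h B g) ((B g).a m) (w g))}
  {c : γ → ℝ} {h0 : ∀ g, 0 < c g} {h1 : ∀ g, c g ≤ (B g).c} {κ : (Fin 3 → ℝ) → Fin 3 → ℝ}
  {Ψ : ∀ j ∈ Gv, ConHomeo (M.Q j) (Pre κ Λ h' (M.Q j))} {φ : M.ι → (Fin 3 → ℝ) → Fin 3 → ℝ}

/-- a point of a given cell `j`: nothing happens, or there is a chart; if the old map and the new map
agree on the cell and the fibre is vertical, the coordinates across the direction of the box do
not change -/
theorem lat_gen (G : GVch M E h h' B Gv W R C w Γ)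
    (O : GVout M E h h' B Gv W C w Γ c h0 h1 κ Ψ φ) {j : M.ι} (hj : j ∈ Gv)
    (heq : ∀ x ∈ M.Q j, h'.toFun x = h.toFun x) {x : Fin 3 → ℝ} (hx : x ∈ M.Q j) {g₀ : γ}
    (hg : ∀ g, h.toFun x ∈ R g → g = g₀)
    (hV : h.toFun x ∈ R g₀ → ∀ m : Fin (B g₀).N, ∀ z ∈ lev (C g₀) (uG h B g₀) ((B g₀).a m),
      z ∈ M.Q j → ∀ s ∈ Icc (-1:ℝ) 1, (Γ g₀ m).toFun (z, s) = x → ∀ s' ∈ Icc (-1:ℝ) 1,
      ∀ l, l ≠ (B g₀).j → h.toFun ((Γ g₀ m).toFun (z, s')) l = h.toFun x l)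
    {l : Fin 3} (hl : l ≠ (B g₀).j) : (Ψ j hj).toFun x l = h.toFun x l := by
  by_cases hex : ∃ g, ∃ m : Fin (B g).N, ∃ z ∈ M.Q j, h'.toFun z (B g).j = (B g).a m ∧
      h'.toFun z ∈ W g ∧ ∃ s ∈ Icc (-1:ℝ) 1, (Γ g m).toFun (z, s) = x
  · obtain ⟨g, m, z, hz, hza, hzW, s, hs, he⟩ := hex
    have hzl := G.mem_lev hj m hz hza (G.WR g hzW)
    have hxR := G.win j hj g m z hzl hz hzW s hs
    rw [he, heq x hx] at hxR
    have hgg := hg g hxR
    subst hgg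
    obtain ⟨-, a2⟩ := O.form j hj g m z hz hza hzW s hs
    rw [← he, a2]
    have hr := rm_mem (h := h'.toFun) (r := 1 / (2 * c g))
      (μ := mu (thin (B g) (c g) (h0 g) (h1 g))) (q := (z, s)) hs
    rw [ym, Function.update_of_ne hl, cm]
    have hin : (Γ g m).toFun (z, rm h'.toFun (1 / (2 * c g))
        (mu (thin (B g) (c g) (h0 g) (h1 g))) (z, s)) ∈ M.Q j := (G.mem_cell hj m hzl hr).2 hz
    show h'.toFun _ l = _
    rw [heq _ hin, he]
    exact hV hxR m z hzl hz s hs he _ hr l hl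
  · push Not at hex
    obtain ⟨a1, -⟩ := O.off j hj x hx fun g m z hz hza hzW s hs => hex g m z hz hza hzW s hs
    rw [a1, heq x hx]

end gen

end P073.H194

namespace Vale.Agent.P073.H194.K3

open _root_.P073 _root_.P073.Net _root_.P073.PA691 _root_.P073.H236 _root_.P073.H579
open _root_.P073.H267
open _root_.P073.H936 (lev band)
open _root_.P073.H345 (PK IsQ)
open _root_.P073.H399 (GVch GVout uG)
open _root_.P073.H605 (tcell gX FarC Vert)
open Vale.Agent.P073.St (V)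
open Vale.Agent.P073.H471 Vale.Agent.P073.H267 Vale.Agent.P073.H267.Geo
open Vale.Agent.P073.H73 (Mesh)
open Vale.Agent.P073.H193 (Edges)
open Vale.Agent.P073.H304 (Nb In Zmax)
open Vale.Agent.P073.H669 (TLv Cht rtO rtO_sub bxG)
open Vale.Agent.P073.H579 (TStageW)
open Vale.Agent.P073.H926
open Vale.Agent.P073.H238.K3 (Zd Wc Act)

variable {c₀ n δ : ℝ} {j : ℕ} {Ω Λ : Set V} {v w : V} {ρ : V → ℝ} {M : Mesh Ω} {h : ConHomeo Ω Λ}
  {J₀ J : Set (ℕ × (Fin 3 → ℤ))} {P Z : Set M.ι} {K : BoxCx Λ w}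

section

variable (D : KIn3 c₀ n j δ v w ρ M h J₀ J P Z) (C : Cells ρ w K)

/-- a point of a protected cell over a processed plate and in the support of a box is far from the
passive cells with a given map -/
theorem farC_of_PK {b : TBx K} (hb : b ∈ pB C J₀) {i : M.ι} (hi : i ∈ P) {x z : V}
    (hz : z ∈ M.Q i) (hzx : ∀ l, l ≠ b.ax → h.toFun z l = h.toFun x l) {s : K.S}
    (hs : s ∈ pS C J₀) (hxs : h.toFun x ∈ PX (D.G C) s) (hxb : h.toFun x ∈ (D.G C).TB false b)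
    (hlat : ∀ l, l ≠ b.ax → (D.G C).tlo false b l + 2 * ω3T δ C b ≤ h.toFun x l ∧
      h.toFun x l ≤ (D.G C).thi false b l - 2 * ω3T δ C b) : FarC D C b i z where
  mem := hz
  lo := fun l hl => by rw [hzx l hl]; exact (hlat l hl).1
  hi := fun l hl => by rw [hzx l hl]; exact (hlat l hl).2
  far := by
    rintro k ⟨hk, x₀, hx₀, hm⟩ hne y hyi hyk
    rcases hk with hk | hk
    · exact absurd hyi (Set.disjoint_left.1 (D.disjoint_prot C hk hi hne) hyk)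
    · obtain ⟨l, hl, h1⟩ := D.far_K C hk.1 hb hk.2.1 hk.2.2 hx₀ hm hyk hs hxs hxb
      exact ⟨l, hl, by rw [hzx l hl]; exact h1⟩

variable {D C} {E : Edges M} {Tt : TBx K → Finset (ℝ × ℝ)} {ηn : ℝ} {τ : Type*} {A : τ → Set V}
  {Cs : Set ℝ} {εE : E.ε → ℝ} {dl : TBx K → ℝ}

/-- **(ptv)** -/
theorem ptv_of (L : TLv (D.G C) E h (ω3T δ C) Tt ηn A Cs εE dl) {c₁ : TBx K → ℝ}
    (hc0 : ∀ b, 0 < c₁ b) (hc : ∀ b, c₁ b ≤ dl b / 8) {h' : ConHomeo Ω Λ}
    {Wt : Set M.ι} {Act₀ : Set M.κ}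
    (O : TStageW (D.G C) M h h' P Wt Act₀ (pB C J₀) L.lev (ω3T δ C)) {Gv : Set M.ι}
    {η : TBx K → ℝ}
    {Γ : ∀ (b : pB C J₀) (m : Fin (L.N b.1)), Cht h (gX D C b.1) b.1.ax (L.a b.1 m) (η b.1)}
    (G : GVch M E h h' (bxG L hc0 hc (pB C J₀)) Gv
      (fun b => rtO (D.G C) (ω3T δ C) b.1 45) (fun b => rtO (D.G C) (ω3T δ C) b.1 60)
      (fun b => gX D C b.1) (fun b => η b.1) Γ)
    (hV : ∀ (b : pB C J₀) (m : Fin (L.N b.1)), Vert D C b.1 (L.a b.1 m) (Γ b m))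
    {c : pB C J₀ → ℝ} {h0 : ∀ g, 0 < c g}
    {h1 : ∀ g, c g ≤ (bxG L hc0 hc (pB C J₀) g).c} {κ : V → V}
    {Ψ : ∀ i ∈ Gv, ConHomeo (M.Q i) (Pre κ Λ h' (M.Q i))} {φ : M.ι → V → V}
    (Ov : GVout M E h h' (bxG L hc0 hc (pB C J₀)) Gv
      (fun b => rtO (D.G C) (ω3T δ C) b.1 45) (fun b => gX D C b.1) (fun b => η b.1) Γ c h0 h1 κ
      Ψ φ)
    {i : M.ι} (hi : i ∈ P) (hiG : i ∈ Gv) {s : K.S} (hs : s ∈ pS C J₀) {x : V} (hx : x ∈ M.Q i)
    (hxs : h.toFun x ∈ PX (D.G C) s) {b : TBx K} (hb : b ∈ pB C J₀)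
    (hxb : h.toFun x ∈ (D.G C).TB false b) {l : Fin 3} (hl : l ≠ b.ax) :
    (Ψ i hiG).toFun x l = h.toFun x l := by
  have hω := D.ω3T_pos C b
  refine _root_.P073.H194.lat_gen G Ov hiG (fun y hy => (O.wall i hi y hy).self_of_nhds) hx
    (g₀ := ⟨b, hb⟩) ?_ ?_ hl
  · -- only one box
    rintro ⟨b', hb'⟩ hR
    by_contra hne
    have h1 := _root_.P073.H244.int_of_rtK L (u := 60) (by norm_num) (rtO_sub b' 60 hR) hR.1.1
      hR.1.2
    exact Set.disjoint_left.1 (Geo.disjoint_TB (G := D.G C) (b := b') (b' := b)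
      fun h => hne (Subtype.ext h)) h1 hxb
  · rintro hxR m z hzl hz t ht he t' ht' l hl
    -- the point is in the window
    have hlat : ∀ l, l ≠ b.ax → (D.G C).tlo false b l + 2 * ω3T δ C b ≤ h.toFun x l ∧
        h.toFun x l ≤ (D.G C).thi false b l - 2 * ω3T δ C b := by
      intro k hk
      obtain ⟨h4, h5⟩ := Vale.Agent.P073.H238.marg (D.G C) b hk
      obtain ⟨h6, h7⟩ := hxR.2 k hk
      have h8 := L.ωo b
      constructor <;> linarith
    have hF : FarC D C b i x := farC_of_PK D C hb hi hx (fun _ _ => rfl) hs hxs hxb hlat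
    have e1 := hV ⟨b, hb⟩ m i hi z hzl t ht (Or.inr (by rw [he]; exact hF))
    rw [he] at e1
    have hF' : FarC D C b i z := farC_of_PK D C hb hi hz (fun k hk => (e1 k hk).symm) hs hxs hxb
      hlat
    have e2 := hV ⟨b, hb⟩ m i hi z hzl t' ht' (Or.inl hF') l hl
    rw [e2, e1 l hl]

end

end Vale.Agent.P073.H194.K3
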