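import Vale.Agent.P073.H936.K3Box
import Vale.Agent.P073.H237.NearDef

/-!
# P073, [FIB2] (c) ROOT: near a connected set which reaches the boundary and misses the bands of the
other family, the switched sheets are the old ones
-/

open Set Metric Topology Filter

namespace P073.H936.K3

open P073 P073.H936 P073.H880 P073.H669 P073.H579

variable {ι : Type*} {E : Type} [NormedAddCommGroup E] [NormedSpace ℝ E]
  {side : ι → Bool} {ax : Bool → Fin 3} {lo hi : Fin 3 → ℝ} {c w : ι → ℝ} {U : Set E} {Q : Type}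

namespace BoxK

variable {D : BoxK side ax lo hi c w U Q} [Finite ι]

theorem mem_pre_D {i : ι} {x : E} (hx : x ∈ U) :
    x ∈ D.pre.D i ↔ D.h.toFun x (ax (side i)) = c i := mem_dsheet D.h hx

theorem pre_D_sub {i : ι} {x : E} (hx : x ∈ D.pre.D i) : x ∈ U :=
  (dsys D.H D.h).sub i (((dsys D.H D.h).F i).sub hx)

theorem pre_Γ (i : ι) {z : E} (hz : z ∈ D.pre.D i) (t : ℝ) :
    (D.pre.Γ i).toFun (z, t) = D.h.invFun (slide (ax (side i)) (c i) (w i) (D.h.toFun z, t)) :=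
  dsys_fib D.H D.h i hz t

theorem h_Γ (i : ι) {z : E} (hz : z ∈ D.pre.D i) {t : ℝ} (ht : t ∈ Icc (-1:ℝ) 1) :
    D.h.toFun ((D.pre.Γ i).toFun (z, t)) = slide (ax (side i)) (c i) (w i) (D.h.toFun z, t) := by
  rw [pre_Γ i hz t, D.h.right_inv (slide_mem (D.H.ok i) (D.h.mapsTo (pre_D_sub hz))
    (abs_le.2 ht))]

/-- a point in two cells, one of them open -/
theorem cell_eq {q q' : Q} {x : E} (hx : x ∈ interior (D.K.C q')) (hx' : x ∈ D.K.C q) :
    q' = q := by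
  by_contra hne
  have h1 : x ∈ closure (interior (D.K.C q)) := by rw [D.K.reg q]; exact hx'
  obtain ⟨y, hy, hy'⟩ := mem_closure_iff.1 h1 _ isOpen_interior hx
  exact disjoint_left.1 (D.K.disj q' q hne) hy hy'

theorem γ_cell {i : ι} (k : D.pre.κ i) : D.pre.γ i k ⊆ D.K.C (D.pre.cell i k) := fun x hx =>
  D.bi.B_sub _ (D.pre.γB i k hx)

theorem γ_nonempty {i : ι} (k : D.pre.κ i) : (D.pre.γ i k).Nonempty := by
  obtain ⟨x, hx, -⟩ := D.pre.near i k
  exact ⟨x, hx⟩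

/-- a point of a new sheet: of the thick core, or in a redrawn cell -/
theorem N'_cases {i : ι} {x : E} (hx : x ∈ D.pre.N' i) :
    x ∈ D.pre.PP i ∨ ∃ k : D.pre.K i, x ∈ D.pre.Δ i k ∧ x ∈ interior (D.K.C (D.pre.cell i k)) := by
  rcases hx with hx | hx
  · exact Or.inl hx
  · obtain ⟨k, hk⟩ := mem_iUnion.1 hx
    rcases D.pre.cap_sub i k hk with h | h
    · exact Or.inr ⟨k, hk, h⟩
    · exact Or.inl (D.pre.Lat_PP i k k.2 h)

/-- a point off the band which is in no open cell -/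
theorem notMem_N' {j : ι} {x : E} (hx : x ∈ U) (hf : w j < |D.h.toFun x (ax (side j)) - c j|)
    (hV : ∀ q, x ∉ interior (D.K.C q)) : x ∉ D.pre.N' j := by
  intro h
  rcases N'_cases h with h1 | ⟨k, -, h1⟩
  · exact absurd ((D.pre_N j hx).1 (D.pre.PP_N j h1)) (not_le.2 hf)
  · exact hV _ h1

/-- a point of a cell which is off the band -/
theorem notMem_N'_cell {j : ι} {q : Q}
    (hf : ∀ x ∈ D.K.C q, w j < |D.h.toFun x (ax (side j)) - c j|) {x : E} (hx : x ∈ D.K.C q) :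
    x ∉ D.pre.N' j := by
  intro h
  rcases N'_cases h with h1 | ⟨k, -, h1⟩
  · exact absurd ((D.pre_N j (D.K.sub q hx)).1 (D.pre.PP_N j h1)) (not_le.2 (hf x hx))
  · have h2 := cell_eq h1 hx
    obtain ⟨y, hy⟩ := γ_nonempty (D := D) (k : D.pre.κ j)
    have h3 := γ_cell _ hy
    rw [h2] at h3
    have h4 := hf y h3
    have h5 := (mem_pre_D (D.K.sub q h3)).1 (D.pre.γD j _ hy)
    rw [h5, sub_self, abs_zero] at h4
    exact absurd h4 (not_lt.2 (D.H.ok j).pos.le)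

namespace Near

variable {X : Bool} {T : Set (Fin 3 → ℝ)}

/-- **no sheet of the other family near `T`** -/
theorem notMem_N' (H : D.Near X T) {x : E} (hx : D.Nr T x) {j : ι} (hj : side j ≠ X) :
    x ∉ D.pre.N' j := by
  obtain ⟨hxU, ⟨h1, h2⟩ | ⟨q, h1, h2⟩⟩ := hx
  · exact BoxK.notMem_N' hxU (H.far j hj _ h1) h2
  · exact notMem_N'_cell (fun y hy => H.far j hj _ (h2 ⟨y, hy, rfl⟩)) h1

/-- the part of the old middle sheet -/
def A (D : BoxK side ax lo hi c w U Q) (T : Set (Fin 3 → ℝ)) (i : ι) : Set E :=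
  {x | x ∈ D.pre.D i ∧ D.h.toFun x ∈ T}

theorem A_eq (H : D.Near X T) {i : ι} (hi : side i = X) :
    A D T i = D.h.invFun '' (T ∩ {y | y (ax X) = c i}) := by
  ext x
  constructor
  · rintro ⟨h1, h2⟩
    have hxU := pre_D_sub h1
    refine ⟨D.h.toFun x, ⟨h2, ?_⟩, D.h.left_inv hxU⟩
    have h3 := (mem_pre_D hxU).1 h1
    rw [hi] at h3
    exact h3
  · rintro ⟨y, ⟨hy, hyc⟩, rfl⟩
    have hyI := H.sub hy
    have hxU := D.h.mapsTo_inv hyI
    have h3 : D.h.toFun (D.h.invFun y) = y := D.h.right_inv hyI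
    refine ⟨(mem_pre_D hxU).2 ?_, by rw [h3]; exact hy⟩
    rw [h3, hi]
    exact hyc

theorem A_conn (H : D.Near X T) {i : ι} (hi : side i = X) : IsPreconnected (A D T i) := by
  rw [H.A_eq hi]
  exact (H.conn i hi).image _ (D.h.cont_inv.mono fun y hy => H.sub hy.1)

/-- the part of the sheet reaches the boundary -/
theorem A_bdry (H : D.Near X T) {i : ι} (hi : side i = X) : ∃ b ∈ A D T i, b ∈ D.Bd := by
  obtain ⟨y, ⟨hy, hyc⟩, hyf⟩ := H.bdry i hi
  refine ⟨D.h.invFun y, ?_, ⟨y, hyf, rfl⟩⟩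
  rw [H.A_eq hi]
  exact ⟨y, ⟨hy, hyc⟩, rfl⟩

/-- a disc of the sheet which meets the part: its circle meets it -/
theorem meets_γ (H : D.Near X T) {i : ι} (hi : side i = X) {k : D.pre.κ i}
    (hk : (D.pre.O i k ∩ A D T i).Nonempty) : (D.pre.γ i k ∩ A D T i).Nonempty := by
  by_contra hcon
  rw [not_nonempty_iff_eq_empty] at hcon
  have hd : Disjoint (A D T i) (D.pre.γ i k) := by
    rw [disjoint_iff_inter_eq_empty, inter_comm]; exact hcon
  obtain ⟨b, hbA, hbB⟩ := H.A_bdry hi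
  rcases (D.pre.sheet i).dichB (H.A_conn hi) (fun x hx => hx.1) hd with h | h
  · exact disjoint_left.1 (D.pre.O_bd i k) (h hbA).1 hbB
  · obtain ⟨x, hxO, hxA⟩ := hk
    exact disjoint_left.1 h hxA ⟨hxO, disjoint_left.1 hd hxA⟩

theorem cell_far (H : D.Near X T) {i : ι} (hi : side i = X) {k : D.pre.κ i}
    (hk : (D.pre.O i k ∩ A D T i).Nonempty) {j : ι} (hj : side j ≠ X) :
    ∀ x ∈ D.K.C (D.pre.cell i k), w j < |D.h.toFun x (ax (side j)) - c j| := by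
  obtain ⟨y, hy, hyA⟩ := H.meets_γ hi hk
  exact H.cell _ ⟨D.h.toFun y, ⟨y, γ_cell k hy, rfl⟩, hyA.2⟩ j hj

/-- the part of the new middle sheet -/
def A' (D : BoxK side ax lo hi c w U Q) (T : Set (Fin 3 → ℝ)) (i : ι) : Set E :=
  {x | (x ∈ A D T i ∧ x ∈ D.pre.co i) ∨
    ∃ k : D.pre.K i, (D.pre.O i k ∩ A D T i).Nonempty ∧ x ∈ D.pre.Δ₀ i k}

theorem A'_sub {i : ι} : A' D T i ⊆ D.pre.D' i := by
  rintro x (⟨-, h⟩ | ⟨k, -, h⟩)
  · exact D.pre.co_D' i h
  · exact D.pre.cap_D' i k h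

/-- the union of the part and of the discs which meet it -/
def A₁ (D : BoxK side ax lo hi c w U Q) (T : Set (Fin 3 → ℝ)) (i : ι) : Set E :=
  A D T i ∪ ⋃ k : {k : D.pre.K i // (D.pre.O i k ∩ A D T i).Nonempty}, D.pre.O i k.1

theorem A₁_conn (H : D.Near X T) {i : ι} (hi : side i = X) : IsPreconnected (A₁ D T i) := by
  obtain ⟨b, hbA, -⟩ := H.A_bdry hi
  have hA := H.A_conn hi
  have e : A₁ D T i = ⋃₀ ({A D T i} ∪ range fun k : {k : D.pre.K i //
      (D.pre.O i k ∩ A D T i).Nonempty} => A D T i ∪ D.pre.O i k.1) := by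
    ext x
    constructor
    · rintro (h | h)
      · exact ⟨A D T i, Or.inl rfl, h⟩
      · obtain ⟨k, hk⟩ := mem_iUnion.1 h
        exact ⟨_, Or.inr ⟨k, rfl⟩, Or.inr hk⟩
    · rintro ⟨S, rfl | ⟨k, rfl⟩, h⟩
      · exact Or.inl h
      · rcases h with h | h
        · exact Or.inl h
        · exact Or.inr (mem_iUnion.2 ⟨k, h⟩)
  rw [e]
  refine isPreconnected_sUnion b _ ?_ ?_
  · rintro S (rfl | ⟨k, rfl⟩)
    · exact hbA
    · exact Or.inl hbA
  · rintro S (rfl | ⟨k, rfl⟩)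
    · exact hA
    · obtain ⟨y, hyO, hyA⟩ := k.2
      exact hA.union y hyA hyO (D.pre.O_ball i k.1).isPreconnected

theorem A'_eq {i : ι} : A' D T i = (D.pre.θ i).invFun '' A₁ D T i := by
  have hθ : ∀ x ∈ D.pre.co i, (D.pre.θ i).invFun x = x := by
    intro x hx
    have h1 : (D.pre.θ i).toFun x = x := D.pre.θ_id i hx
    nth_rewrite 1 [← h1]
    exact (D.pre.θ i).left_inv (D.pre.co_D' i hx)
  ext x
  constructor
  · rintro (⟨h1, h2⟩ | ⟨k, h1, h2⟩)
    · exact ⟨x, Or.inl h1, hθ x h2⟩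
    · refine ⟨(D.pre.θ i).toFun x, Or.inr (mem_iUnion.2 ⟨⟨k, h1⟩, ?_⟩),
        (D.pre.θ i).left_inv (D.pre.cap_D' i k h2)⟩
      rw [← D.pre.θ_cap i k]
      exact ⟨x, h2, rfl⟩
  · have hO : ∀ k : D.pre.K i, ∀ y ∈ D.pre.O i k, (D.pre.θ i).invFun y ∈ D.pre.Δ₀ i k := by
      intro k y hy
      rw [← D.pre.θ_cap i k] at hy
      obtain ⟨z, hz, rfl⟩ := hy
      rw [(D.pre.θ i).left_inv (D.pre.cap_D' i k hz)]
      exact hz
    rintro ⟨y, hy | hy, rfl⟩
    · by_cases hco : y ∈ D.pre.co i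
      · rw [hθ y hco]
        exact Or.inl ⟨hy, hco⟩
      · have h1 : ∃ k, D.pre.Tp i k ∧ y ∈ D.pre.O i k := by
          by_contra hcon
          push Not at hcon
          exact hco ⟨hy.1, fun k hk h => hcon k hk h.1⟩
        obtain ⟨k, hk, hyO⟩ := h1
        exact Or.inr ⟨⟨k, hk⟩, ⟨y, hyO, hy⟩, hO ⟨k, hk⟩ y hyO⟩
    · obtain ⟨k, hk⟩ := mem_iUnion.1 hy
      exact Or.inr ⟨k.1, k.2, hO k.1 y hk⟩

theorem A'_conn (H : D.Near X T) {i : ι} (hi : side i = X) : IsPreconnected (A' D T i) := by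
  rw [A'_eq]
  refine (H.A₁_conn hi).image _ ((D.pre.θ i).cont_inv.mono ?_)
  rintro y (hy | hy)
  · exact hy.1
  · obtain ⟨k, hk⟩ := mem_iUnion.1 hy
    exact (D.pre.sheet i).O_sub _ hk

/-- the part of the new middle sheet misses the new sheets of the other family -/
theorem A'_disj (H : D.Near X T) {i : ι} (hi : side i = X) {j : ι} (hj : side j ≠ X) :
    Disjoint (A' D T i) (D.pre.N' j) := by
  rw [disjoint_left]
  rintro y (⟨h1, h2⟩ | ⟨k, h1, h2⟩)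
  · exact BoxK.notMem_N' (pre_D_sub h1.1) (H.far j hj _ h1.2)
      fun q hq => disjoint_left.1 ((D.pre.sheet i).core_V q) h2 hq
  · have hf := H.cell_far hi h1 hj
    refine notMem_N'_cell hf ?_
    rcases (D.pre.caps₀ i).sub k k.2 h2 with h3 | h3
    · exact interior_subset h3
    · exact γ_cell _ h3

/-- the foot of a point near `T` -/
theorem foot_mem (H : D.Near X T) {x : E} (hx : D.Nr T x) {i : ι} (hi : side i = X)
    (hxN : x ∈ D.vf.N i) : D.vf.foot i x ∈ A' D T i := by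
  have hxN' : x ∈ D.pre.N' i := hxN
  have hfoot : ∀ z ∈ D.pre.D' i, ∀ t ∈ Icc (-1:ℝ) 1, (D.pre.Γ' i).toFun (z, t) = x →
      D.vf.foot i x = z := by
    intro z hz t ht h
    have h1 : z ∈ mid (D.vf.N i) (D.vf.s i) := by
      show z ∈ mid (D.pre.N' i) (D.pre.s' i)
      rw [D.pre.mid_eq i]; exact hz
    have h2 := VFam.foot_gam (V := D.vf) (i := i) h1 ht
    rw [← h2]
    congr 1
    exact h.symm
  -- the core
  have hcore : D.h.toFun x ∈ T → x ∈ D.pre.PP i → D.vf.foot i x ∈ A' D T i := by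
    rintro hT ⟨⟨z, t⟩, ⟨hz, ht⟩, hzx⟩
    have hzx' : (D.pre.Γ i).toFun (z, t) = x := hzx
    rw [hfoot z (D.pre.co_D' i hz) t ht (by rw [D.pre.Γ'_co i hz ht]; exact hzx')]
    refine Or.inl ⟨⟨hz.1, ?_⟩, hz⟩
    refine H.vert _ hT _ (D.h.mapsTo (pre_D_sub hz.1)) fun l hl => ?_
    rw [← hzx', h_Γ i hz.1 ht, slide_ne (by rw [hi]; exact hl)]
  obtain ⟨hxU, ⟨h1, h2⟩ | ⟨q, h1, h2⟩⟩ := hx
  · rcases N'_cases hxN' with h3 | ⟨k, -, h3⟩
    · exact hcore h1 h3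
    · exact absurd h3 (h2 _)
  · rcases N'_cases hxN' with h3 | ⟨k, h3, h4⟩
    · exact hcore (h2 ⟨x, h1, rfl⟩) h3
    · have h5 := cell_eq h4 h1
      obtain ⟨y, hy⟩ := γ_nonempty (D := D) (k : D.pre.κ i)
      have h6 := γ_cell _ hy
      rw [h5] at h6
      obtain ⟨⟨z, t⟩, ⟨hz, ht⟩, hzx⟩ : x ∈ (D.pre.G i k).toFun '' (D.pre.Δ₀ i k ×ˢ Icc (-1:ℝ) 1) := by
        rw [(D.pre.G i k).image_eq]; exact h3
      rw [hfoot z (D.pre.cap_D' i k hz) t ht (by rw [D.pre.Γ'_cap i k hz ht]; exact hzx)]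
      refine Or.inr ⟨k, ⟨y, (D.pre.O_ball i k).1 hy, D.pre.γD i _ hy, h2 ⟨y, h6, rfl⟩⟩, hz⟩

end Near

end BoxK

end P073.H936.K3
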