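import Vale.Agent.P073.H194.MeshDefs
import Vale.Agent.P073.AB.Part86

/-!
# P073, block A03-MESH: sums over edges, squares and cubes
-/

namespace Vale.Agent.P073.H194

open MeasureTheory Set Filter Topology Metric Vale.Agent.P073.St
open Vale.Agent.P073.SQ (ev)
open Vale.Agent.P073.AB Vale.Agent.P073.AB.P86
open P073.Net (dyc dyo)
open scoped ENNReal

/-! ### Parametrisations -/

/-- the third direction -/
def third (j k : Fin 3) : Fin 3 := -(j + k)

theorem third_ne_left : ∀ {j k : Fin 3}, k ≠ j → third j k ≠ j := by decide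

theorem third_ne_right : ∀ {j k : Fin 3}, k ≠ j → third j k ≠ k := by decide

theorem eq_third : ∀ {j k l : Fin 3}, k ≠ j → l ≠ j → l ≠ k → l = third j k := by decide

/-- offset -/
def off (σ : Bool) : ℤ := if σ then 1 else 0

theorem off_true : off true = 1 := rfl

theorem off_false : off false = 0 := rfl

theorem off_nonneg (σ : Bool) : 0 ≤ off σ := by cases σ <;> simp [off]

theorem off_le_one (σ : Bool) : off σ ≤ 1 := by cases σ <;> simp [off]

/-- the faces of a cube -/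
def faceP (i : Idx) (j : Fin 3) (σ : Bool) : Idx × Fin 3 :=
  ((i.1, Function.update i.2 j (i.2 j + off σ)), j)

/-- the edges of a square -/
def edgeP (F : Idx × Fin 3) (k : Fin 3) (τ : Bool) : Idx × Fin 3 :=
  ((F.1.1, Function.update F.1.2 (third F.2 k) (F.1.2 (third F.2 k) + off τ)), k)

theorem faceOf_param {i : Idx} {F : Idx × Fin 3} (h : FaceOf F i) :
    ∃ j σ, F = faceP i j σ := by
  obtain ⟨h1, h2, h3⟩ := h
  rcases h2 with h2 | h2
  · refine ⟨F.2, false, Prod.ext (Prod.ext h1 ?_) rfl⟩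
    funext l
    by_cases hl : l = F.2
    · subst hl
      simp [faceP, off, h2]
    · simp [faceP, hl, h3 l hl]
  · refine ⟨F.2, true, Prod.ext (Prod.ext h1 ?_) rfl⟩
    funext l
    by_cases hl : l = F.2
    · subst hl
      simp [faceP, off, h2]
    · simp [faceP, hl, h3 l hl]

theorem faceOf_faceP (i : Idx) (j : Fin 3) (σ : Bool) : FaceOf (faceP i j σ) i := by
  refine ⟨rfl, ?_, fun l hl => ?_⟩
  · cases σ <;> simp [faceP, off]
  · simp only [faceP] at hl
    simp [faceP, hl]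

theorem edgeOfSq_param {e F : Idx × Fin 3} (h : EdgeOfSq e F) :
    ∃ k, k ≠ F.2 ∧ ∃ τ, e = edgeP F k τ := by
  obtain ⟨h1, h2, h3, h4, h5⟩ := h
  refine ⟨e.2, h2, ?_⟩
  have ht1 := third_ne_left h2
  have ht2 := third_ne_right h2
  rcases h5 (third F.2 e.2) ht2 ht1 with h6 | h6
  · refine ⟨false, Prod.ext (Prod.ext h1 ?_) rfl⟩
    funext l
    by_cases hl : l = third F.2 e.2
    · subst hl
      simp [edgeP, off, h6]
    · by_cases hl2 : l = e.2
      · subst hl2
        simp [edgeP, hl, h3]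
      · have hl3 : l = F.2 := by
          by_contra hl3
          exact hl (eq_third h2 hl3 hl2)
        subst hl3
        simp [edgeP, hl, h4]
  · refine ⟨true, Prod.ext (Prod.ext h1 ?_) rfl⟩
    funext l
    by_cases hl : l = third F.2 e.2
    · subst hl
      simp [edgeP, off, h6]
    · by_cases hl2 : l = e.2
      · subst hl2
        simp [edgeP, hl, h3]
      · have hl3 : l = F.2 := by
          by_contra hl3
          exact hl (eq_third h2 hl3 hl2)
        subst hl3
        simp [edgeP, hl, h4]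

/-! ### A general bound for sums over subtypes -/

theorem tsum_subtype_le_sum {α β : Type*} [DecidableEq β] {S : Set β} (T : Finset α) (φ : α → β)
    (g : β → ℝ≥0∞) (h : ∀ b ∈ S, ∃ a ∈ T, φ a = b) :
    ∑' b : S, g b ≤ ∑ a ∈ T, g (φ a) := by
  have h1 : S ⊆ ((T.image φ : Finset β) : Set β) := by
    intro b hb
    obtain ⟨a, ha, rfl⟩ := h b hb
    exact Finset.mem_coe.2 (Finset.mem_image_of_mem φ ha)
  calc ∑' b : S, g b ≤ ∑' b : ((T.image φ : Finset β) : Set β), g b :=
        ENNReal.tsum_mono_subtype g h1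
    _ = ∑ b ∈ T.image φ, g b := Finset.tsum_subtype' _ _
    _ ≤ ∑ a ∈ T, g (φ a) := by
        classical
        have := Finset.sum_fiberwise_of_maps_to (s := T) (t := T.image φ) (g := φ)
          (fun a ha => Finset.mem_image_of_mem φ ha) (fun a => g (φ a))
        rw [← this]
        refine Finset.sum_le_sum fun b hb => ?_
        obtain ⟨a, ha, rfl⟩ := Finset.mem_image.1 hb
        refine Finset.single_le_sum (f := fun a => g (φ a)) (fun _ _ => zero_le)
          (Finset.mem_filter.2 ⟨ha, rfl⟩)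

theorem tsum_inj_le_sum {α β : Type*} {S : Set α} (T : Finset β) (φ : α → β)
    (g : β → ℝ≥0∞) (hT : ∀ a ∈ S, φ a ∈ T) (hinj : Set.InjOn φ S) :
    ∑' a : S, g (φ a) ≤ ∑ b ∈ T, g b := by
  rw [← Finset.tsum_subtype]
  let ψ : S → {b // b ∈ T} := fun a => ⟨φ a, hT a a.2⟩
  have hψ : Function.Injective ψ := by
    intro a b hab
    exact Subtype.ext (hinj a.2 b.2 (congrArg Subtype.val hab))
  exact ENNReal.tsum_comp_le_tsum_of_injective hψ (fun b : {b // b ∈ T} => g b)

/-! ### Squares -/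

/-- sum over the four edges of a square -/
noncomputable def aSum (v : V) (H : V → ℝ≥0∞) (F : Idx × Fin 3) : ℝ≥0∞ :=
  ∑' e : {e : Idx × Fin 3 // EdgeOfSq e F}, eInt v e.1 H

theorem aSum_le (v : V) (H : V → ℝ≥0∞) (F : Idx × Fin 3) :
    aSum v H F ≤ ∑ k ∈ Finset.univ.erase F.2, ∑ τ : Bool, eInt v (edgeP F k τ) H := by
  rw [← Finset.sum_product']
  refine tsum_subtype_le_sum (S := {e | EdgeOfSq e F}) ((Finset.univ.erase F.2) ×ˢ Finset.univ)
    (fun a => edgeP F a.1 a.2) (fun e => eInt v e H) ?_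
  intro e he
  obtain ⟨k, hk, τ, rfl⟩ := edgeOfSq_param he
  exact ⟨(k, τ), Finset.mem_product.2 ⟨Finset.mem_erase.2 ⟨hk, Finset.mem_univ _⟩,
    Finset.mem_univ _⟩, rfl⟩

theorem div_pow_le_iff {m n : ℕ} (h : m ≤ n) {a b : ℤ} :
    (a : ℝ) / 2 ^ m ≤ b / 2 ^ n ↔ 2 ^ (n - m) * a ≤ b := by
  have h2 : (2:ℝ) ^ n = 2 ^ (n - m) * 2 ^ m := by rw [← pow_add, Nat.sub_add_cancel h]
  have h3 : (0:ℝ) < 2 ^ m := by positivity
  have h4 : (0:ℝ) < 2 ^ (n - m) := by positivity
  rw [h2, div_le_div_iff₀ h3 (by positivity)]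
  constructor
  · intro h5
    have h6 : (2 ^ (n - m) * a : ℝ) ≤ b := by
      have : (2 ^ (n - m) * a : ℝ) * 2 ^ m ≤ b * 2 ^ m := by linarith
      exact le_of_mul_le_mul_right this h3
    exact_mod_cast h6
  · intro h5
    have h6 : (2 ^ (n - m) * a : ℝ) ≤ b := by exact_mod_cast h5
    have := mul_le_mul_of_nonneg_right h6 h3.le
    linarith

theorem div_pow_le_iff' {m n : ℕ} (h : m ≤ n) {a b : ℤ} :
    (b : ℝ) / 2 ^ n ≤ a / 2 ^ m ↔ b ≤ 2 ^ (n - m) * a := by
  have h2 : (2:ℝ) ^ n = 2 ^ (n - m) * 2 ^ m := by rw [← pow_add, Nat.sub_add_cancel h]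
  have h3 : (0:ℝ) < 2 ^ m := by positivity
  have h4 : (0:ℝ) < 2 ^ (n - m) := by positivity
  rw [h2, div_le_div_iff₀ (by positivity) h3]
  constructor
  · intro h5
    have h6 : (b : ℝ) ≤ 2 ^ (n - m) * a := by
      have : (b : ℝ) * 2 ^ m ≤ (2 ^ (n - m) * a) * 2 ^ m := by linarith
      exact le_of_mul_le_mul_right this h3
    exact_mod_cast h6
  · intro h5
    have h6 : (b : ℝ) ≤ 2 ^ (n - m) * a := by exact_mod_cast h5
    have := mul_le_mul_of_nonneg_right h6 h3.le
    linarith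

/-- integer inequalities for nested squares -/
theorem squ_int {v : V} {F s : Idx × Fin 3} (hk : F.2 = s.2) (hm : s.1.1 ≤ F.1.1)
    (h : squ v F ⊆ squ v s) : F.1.2 s.2 = 2 ^ (F.1.1 - s.1.1) * s.1.2 s.2 ∧ ∀ k, k ≠ s.2 →
      2 ^ (F.1.1 - s.1.1) * s.1.2 k ≤ F.1.2 k ∧
      F.1.2 k + 1 ≤ 2 ^ (F.1.1 - s.1.1) * (s.1.2 k + 1) := by
  obtain ⟨h1, h2⟩ := squ_ineq hk h
  refine ⟨le_antisymm ((div_pow_le_iff' hm).1 h1.le) ((div_pow_le_iff hm).1 h1.ge), fun k hk => ?_⟩
  obtain ⟨h3, h4⟩ := h2 k hk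
  refine ⟨(div_pow_le_iff hm).1 h3, ?_⟩
  have h5 : ((F.1.2 k + 1 : ℤ) : ℝ) / 2 ^ F.1.1 ≤ ((s.1.2 k + 1 : ℤ) : ℝ) / 2 ^ s.1.1 := by
    push_cast; exact h4
  exact (div_pow_le_iff' hm).1 h5

/-- **S1** -/
theorem sum_square (v : V) (H : V → ℝ≥0∞) (s : Idx × Fin 3) {N : ℕ} (hN : s.1.1 ≤ N) :
    ∑' F : {F : Idx × Fin 3 | F.1.1 = N ∧ F.2 = s.2 ∧ squ v F ⊆ squ v s},
      ENNReal.ofReal (1 / 2 ^ N) * aSum v H F.1 ≤
    2 * ∑ k ∈ Finset.univ.erase s.2, fSum v s N k H := by
  have key : ∀ k ∈ Finset.univ.erase s.2, ∀ τ : Bool,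
      ∑' F : {F : Idx × Fin 3 | F.1.1 = N ∧ F.2 = s.2 ∧ squ v F ⊆ squ v s},
        ENNReal.ofReal (1 / 2 ^ N) * eInt v (edgeP F.1 k τ) H ≤ fSum v s N k H := by
    intro k hk τ
    have hks : k ≠ s.2 := Finset.ne_of_mem_erase hk
    have ht1 : third s.2 k ≠ s.2 := third_ne_left hks
    have ht2 : third s.2 k ≠ k := third_ne_right hks
    have h1 : ∀ F ∈ {F : Idx × Fin 3 | F.1.1 = N ∧ F.2 = s.2 ∧ squ v F ⊆ squ v s},
        edgeP F k τ = ((N, (edgeP F k τ).1.2), k) := by
      rintro F ⟨hF, -, -⟩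
      simp [edgeP, hF]
    have h2 : ∑' F : {F : Idx × Fin 3 | F.1.1 = N ∧ F.2 = s.2 ∧ squ v F ⊆ squ v s},
        ENNReal.ofReal (1 / 2 ^ N) * eInt v (edgeP F.1 k τ) H =
        ∑' F : {F : Idx × Fin 3 | F.1.1 = N ∧ F.2 = s.2 ∧ squ v F ⊆ squ v s},
        ENNReal.ofReal (1 / 2 ^ N) * eInt v ((N, (edgeP F.1 k τ).1.2), k) H := by
      refine tsum_congr fun F => ?_
      rw [← h1 F.1 F.2]
    rw [h2]
    refine tsum_inj_le_sum (eInSq s N k) (fun F => (edgeP F k τ).1.2)
      (fun w => ENNReal.ofReal (1 / 2 ^ N) * eInt v ((N, w), k) H) ?_ ?_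
    · rintro F ⟨hF, hF2, hsub⟩
      obtain ⟨h3, h4⟩ := squ_int hF2 (hF ▸ hN) hsub
      rw [hF] at h3 h4
      rw [eInSq, Fintype.mem_piFinset]
      intro l
      have h0 := off_nonneg τ
      have h0' := off_le_one τ
      simp only [edgeP, hF2]
      by_cases hl : l = s.2
      · subst hl
        rw [if_pos rfl, Finset.mem_singleton, Function.update_of_ne ht1.symm, h3]
      · rw [if_neg hl]
        by_cases hlk : l = k
        · subst hlk
          rw [if_pos rfl, Function.update_of_ne ht2.symm, Finset.mem_Ico]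
          have := h4 l hl
          omega
        · rw [if_neg hlk]
          obtain rfl : l = third s.2 k := eq_third hks hl hlk
          rw [Function.update_self, Finset.mem_Icc]
          have := h4 _ hl
          omega
    · rintro F ⟨hF, hF2, -⟩ F' ⟨hF', hF2', -⟩ heq
      simp only [edgeP, hF2, hF2'] at heq
      refine Prod.ext (Prod.ext (hF.trans hF'.symm) ?_) (hF2.trans hF2'.symm)
      funext l
      have := congrFun heq l
      by_cases hl : l = third s.2 k
      · subst hl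
        simpa using this
      · simpa [Function.update_of_ne hl] using this
  calc ∑' F : {F : Idx × Fin 3 | F.1.1 = N ∧ F.2 = s.2 ∧ squ v F ⊆ squ v s},
        ENNReal.ofReal (1 / 2 ^ N) * aSum v H F.1
      ≤ ∑' F : {F : Idx × Fin 3 | F.1.1 = N ∧ F.2 = s.2 ∧ squ v F ⊆ squ v s},
        ∑ k ∈ Finset.univ.erase s.2, ∑ τ : Bool,
          ENNReal.ofReal (1 / 2 ^ N) * eInt v (edgeP F.1 k τ) H := by
        refine ENNReal.tsum_le_tsum fun F => ?_
        have h5 := aSum_le v H F.1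
        have h6 : F.1.2 = s.2 := F.2.2.1
        rw [h6] at h5
        simp only [← Finset.mul_sum]
        gcongr
    _ = ∑ k ∈ Finset.univ.erase s.2, ∑ τ : Bool,
        ∑' F : {F : Idx × Fin 3 | F.1.1 = N ∧ F.2 = s.2 ∧ squ v F ⊆ squ v s},
          ENNReal.ofReal (1 / 2 ^ N) * eInt v (edgeP F.1 k τ) H := by
        rw [Summable.tsum_finsetSum (fun _ _ => ENNReal.summable)]
        refine Finset.sum_congr rfl fun k _ => ?_
        rw [Summable.tsum_finsetSum (fun _ _ => ENNReal.summable)]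
    _ ≤ ∑ k ∈ Finset.univ.erase s.2, ∑ _τ : Bool, fSum v s N k H :=
        Finset.sum_le_sum fun k hk => Finset.sum_le_sum fun τ _ => key k hk τ
    _ = 2 * ∑ k ∈ Finset.univ.erase s.2, fSum v s N k H := by
        rw [Finset.mul_sum]
        refine Finset.sum_congr rfl fun k _ => ?_
        rw [Finset.sum_const, Finset.card_univ, Fintype.card_bool, nsmul_eq_mul]
        norm_num

/-! ### Cubes -/

theorem dyc_int {v : V} {i q : Idx} (h : dyc v i.1 i.2 ⊆ dyc v q.1 q.2) (k : Fin 3) :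
    2 ^ (i.1 - q.1) * q.2 k ≤ i.2 k ∧ i.2 k + 1 ≤ 2 ^ (i.1 - q.1) * (q.2 k + 1) := by
  have hm := gen_le h
  obtain ⟨h1, h2⟩ := sub_ineq h k
  refine ⟨(div_pow_le_iff hm).1 h1, ?_⟩
  have h5 : ((i.2 k + 1 : ℤ) : ℝ) / 2 ^ i.1 ≤ ((q.2 k + 1 : ℤ) : ℝ) / 2 ^ q.1 := by
    push_cast; exact h2
  exact (div_pow_le_iff' hm).1 h5

/-- **S2** -/
theorem sum_cube (v : V) (H : V → ℝ≥0∞) (q : Idx) (n : ℕ) :
    ∑' i : {i : Idx | i.1 = n ∧ dyc v i.1 i.2 ⊆ dyc v q.1 q.2},
      ∑ j : Fin 3, ∑ σ : Bool, ENNReal.ofReal ((1 / 2 ^ n) ^ 2) * aSum v H (faceP i.1 j σ) ≤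
    12 * ∑ k, cSum v q n k H := by
  have key : ∀ (j : Fin 3) (σ : Bool), ∀ k ∈ Finset.univ.erase j, ∀ τ : Bool,
      ∑' i : {i : Idx | i.1 = n ∧ dyc v i.1 i.2 ⊆ dyc v q.1 q.2},
        ENNReal.ofReal ((1 / 2 ^ n) ^ 2) * eInt v (edgeP (faceP i.1 j σ) k τ) H ≤
        cSum v q n k H := by
    intro j σ k hk τ
    have hkj : k ≠ j := Finset.ne_of_mem_erase hk
    have ht1 : third j k ≠ j := third_ne_left hkj
    have ht2 : third j k ≠ k := third_ne_right hkj
    have h2 : ∑' i : {i : Idx | i.1 = n ∧ dyc v i.1 i.2 ⊆ dyc v q.1 q.2},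
        ENNReal.ofReal ((1 / 2 ^ n) ^ 2) * eInt v (edgeP (faceP i.1 j σ) k τ) H =
        ∑' i : {i : Idx | i.1 = n ∧ dyc v i.1 i.2 ⊆ dyc v q.1 q.2},
        ENNReal.ofReal ((1 / 2 ^ n) ^ 2) *
          eInt v ((n, (edgeP (faceP i.1 j σ) k τ).1.2), k) H := by
      refine tsum_congr fun i => ?_
      have hi : i.1.1 = n := i.2.1
      simp [edgeP, faceP, hi]
    rw [h2]
    refine tsum_inj_le_sum (eIn q n k) (fun i => (edgeP (faceP i j σ) k τ).1.2)
      (fun w => ENNReal.ofReal ((1 / 2 ^ n) ^ 2) * eInt v ((n, w), k) H) ?_ ?_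
    · rintro i ⟨hi, hsub⟩
      have h4 := dyc_int hsub
      rw [hi] at h4
      rw [eIn, Fintype.mem_piFinset]
      intro l
      have h0 := off_nonneg τ
      have h0' := off_le_one τ
      have h1 := off_nonneg σ
      have h1' := off_le_one σ
      have h5 := h4 l
      simp only [edgeP, faceP]
      by_cases hlk : l = k
      · subst hlk
        rw [if_pos rfl, Function.update_of_ne ht2.symm, Function.update_of_ne hkj, Finset.mem_Ico]
        omega
      · rw [if_neg hlk]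
        by_cases hlj : l = j
        · subst hlj
          rw [Function.update_of_ne ht1.symm, Function.update_self, Finset.mem_Icc]
          omega
        · obtain rfl : l = third j k := eq_third hkj hlj hlk
          rw [Function.update_self, Function.update_of_ne ht1, Finset.mem_Icc]
          omega
    · rintro i ⟨hi, -⟩ i' ⟨hi', -⟩ heq
      simp only [edgeP, faceP] at heq
      refine Prod.ext (hi.trans hi'.symm) ?_
      funext l
      have := congrFun heq l
      by_cases hl : l = third j k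
      · subst hl
        simpa [Function.update_of_ne ht1] using this
      · rw [Function.update_of_ne hl, Function.update_of_ne hl] at this
        by_cases hlj : l = j
        · subst hlj
          simpa using this
        · simpa [Function.update_of_ne hlj] using this
  calc ∑' i : {i : Idx | i.1 = n ∧ dyc v i.1 i.2 ⊆ dyc v q.1 q.2},
      ∑ j : Fin 3, ∑ σ : Bool, ENNReal.ofReal ((1 / 2 ^ n) ^ 2) * aSum v H (faceP i.1 j σ)
      ≤ ∑' i : {i : Idx | i.1 = n ∧ dyc v i.1 i.2 ⊆ dyc v q.1 q.2},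
        ∑ j : Fin 3, ∑ σ : Bool, ∑ k ∈ Finset.univ.erase j, ∑ τ : Bool,
          ENNReal.ofReal ((1 / 2 ^ n) ^ 2) * eInt v (edgeP (faceP i.1 j σ) k τ) H := by
        refine ENNReal.tsum_le_tsum fun i => Finset.sum_le_sum fun j _ =>
          Finset.sum_le_sum fun σ _ => ?_
        have h5 := aSum_le v H (faceP i.1 j σ)
        simp only [← Finset.mul_sum]
        gcongr
        exact h5
    _ = ∑ j : Fin 3, ∑ σ : Bool, ∑ k ∈ Finset.univ.erase j, ∑ τ : Bool,
        ∑' i : {i : Idx | i.1 = n ∧ dyc v i.1 i.2 ⊆ dyc v q.1 q.2},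
          ENNReal.ofReal ((1 / 2 ^ n) ^ 2) * eInt v (edgeP (faceP i.1 j σ) k τ) H := by
        rw [Summable.tsum_finsetSum (fun _ _ => ENNReal.summable)]
        refine Finset.sum_congr rfl fun j _ => ?_
        rw [Summable.tsum_finsetSum (fun _ _ => ENNReal.summable)]
        refine Finset.sum_congr rfl fun σ _ => ?_
        rw [Summable.tsum_finsetSum (fun _ _ => ENNReal.summable)]
        refine Finset.sum_congr rfl fun k _ => ?_
        rw [Summable.tsum_finsetSum (fun _ _ => ENNReal.summable)]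
    _ ≤ ∑ j : Fin 3, ∑ _σ : Bool, ∑ k ∈ Finset.univ.erase j, ∑ _τ : Bool, cSum v q n k H :=
        Finset.sum_le_sum fun j _ => Finset.sum_le_sum fun σ _ => Finset.sum_le_sum fun k hk =>
          Finset.sum_le_sum fun τ _ => key j σ k hk τ
    _ ≤ ∑ _j : Fin 3, ∑ _σ : Bool, ∑ k, ∑ _τ : Bool, cSum v q n k H :=
        Finset.sum_le_sum fun j _ => Finset.sum_le_sum fun σ _ =>
          Finset.sum_le_sum_of_subset (Finset.erase_subset _ _)
    _ = 12 * ∑ k, cSum v q n k H := by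
        simp only [Finset.sum_const, Finset.card_univ, Fintype.card_bool, Fintype.card_fin,
          nsmul_eq_mul, ← Finset.mul_sum]
        rw [← mul_assoc, ← mul_assoc]
        norm_num

/-! ### Multiplicity -/

/-- **S3** at most eight cubes of one generation contain a point -/
theorem sum_mult (v : V) (x : V) (n : ℕ) (c : ℝ≥0∞) :
    ∑' _i : {i : Idx | i.1 = n ∧ x ∈ dyc v i.1 i.2}, c ≤ 8 * c := by
  classical
  refine (tsum_subtype_le_sum (S := {i : Idx | i.1 = n ∧ x ∈ dyc v i.1 i.2})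
    (Finset.univ : Finset (Fin 3 → Bool))
    (fun b => ((n, fun k => ⌊2 ^ n * (x k - v k)⌋ - off (b k)) : Idx)) (fun _ => c) ?_).trans ?_
  · rintro ⟨m, w⟩ ⟨hm, hx⟩
    obtain rfl : m = n := hm
    have h3 : (0:ℝ) < 2 ^ m := by positivity
    have h1 : ∀ k, w k = ⌊2 ^ m * (x k - v k)⌋ ∨ w k = ⌊2 ^ m * (x k - v k)⌋ - 1 := by
      intro k
      obtain ⟨h4, h5⟩ := hx k
      have h6 : (w k : ℝ) ≤ 2 ^ m * (x k - v k) := by
        have : (w k : ℝ) / 2 ^ m ≤ x k - v k := by linarith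
        rw [div_le_iff₀ h3] at this
        linarith
      have h7 : 2 ^ m * (x k - v k) ≤ w k + 1 := by
        have : x k - v k ≤ (w k + 1) / 2 ^ m := by linarith
        rw [le_div_iff₀ h3] at this
        linarith
      have h8 : w k ≤ ⌊2 ^ m * (x k - v k)⌋ := Int.le_floor.2 h6
      have h9 : ⌊2 ^ m * (x k - v k)⌋ ≤ w k + 1 := by
        have : ((⌊2 ^ m * (x k - v k)⌋ : ℤ) : ℝ) ≤ ((w k + 1 : ℤ) : ℝ) := by
          push_cast
          exact (Int.floor_le _).trans h7
        exact_mod_cast this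
      omega
    refine ⟨fun k => decide (w k ≠ ⌊2 ^ m * (x k - v k)⌋), Finset.mem_univ _, ?_⟩
    refine Prod.ext rfl ?_
    funext k
    show ⌊2 ^ m * (x k - v k)⌋ - off (decide (w k ≠ ⌊2 ^ m * (x k - v k)⌋)) = w k
    rcases h1 k with h | h
    · rw [h]
      simp [off]
    · by_cases h' : w k = ⌊2 ^ m * (x k - v k)⌋
      · omega
      · simp only [off, ne_eq, h', not_false_eq_true, decide_true, if_true]
        omega
  · rw [Finset.sum_const, Finset.card_univ, Fintype.card_pi_const, Fintype.card_bool, nsmul_eq_mul]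
    norm_num

end Vale.Agent.P073.H194
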